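import Vale.Agent.P325.Four

/-!
ALPH, analysis of the long code tests (toolbox: `Four.lean`).

`adec_eq`: if `s ≠ s'` then `𝔼 f, ind (f s ≠ f s') = 1/2` (`ind_ne_chi`, `expect_chi_eq_zero` for `f ↦ f s + f s'`),
while `ind (f s ≠ f s') ≤ ind (B f ≠ f s) + ind (B f ≠ f s')`.
`alph_blr`: with `a = chi ∘ A`, `1 - 2 rej = 𝔼 f, 𝔼 g, a f * (a g * a (g + f)) = ∑ T, hat a T ^ 3`
(`Perf.expect_mul_shift`) `≤ max hat * ∑ hat ^ 2 = max hat` (`parseval_chi`, `Finset.exists_max_image`), and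
`𝔼 f, ind (A f ≠ T ⬝ᵥ f) = (1 - hat a T) / 2`.
`alph_corr` (self correction): if `T ⬝ᵥ k ≠ c` then for every `h` one of `A (k + h) + A h ≠ c`,
`A (k + h) ≠ T ⬝ᵥ (k + h)`, `A h ≠ T ⬝ᵥ h` holds; average over `h` (`expect_add_left'`).
`alph_two`: `𝔼 f, 𝔼 g, chi (T ⬝ᵥ (f * g) + (T ⬝ᵥ f) * (T ⬝ᵥ g))`: for fixed `f` the exponent is additive in `g`; if `f p ≠ f p'`
it does not vanish at `single p 1` or at `single p' 1` (its value at `single p 1` is `f p + T ⬝ᵥ f`), so the inner mean is `0`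
(`expect_chi_eq_zero`); otherwise it is at most `1`.  So the mean is at most `𝔼 f, ind (f p = f p') = 1/2`.
`alph_point`: take `T` from `alph_blr`, so `hat a T > 0`.  `hatB_shift` and `hfold` give `T p = 0` for `¬ R p`.
`alph_corr` with `k = 1`, `c = 1` gives `T ⬝ᵥ 1 = 1`, so `T ≠ 0`.  `alph_corr` with `k = f * g`, `c = A f * A g` and
`ind (T ⬝ᵥ (f * g) ≠ (T ⬝ᵥ f) * (T ⬝ᵥ g)) ≤ ind (T ⬝ᵥ (f * g) ≠ A f * A g) + ind (A f ≠ T ⬝ᵥ f) + ind (A g ≠ T ⬝ᵥ g)` give a mean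
`< 5/20`, so by `alph_two` the support of `T` is one point `p` and `T ⬝ᵥ f = f p`.
`alph_cons`: `alph_corr` with `T = single p 1`, `k = f₁ ∘ κ`, `c = B f₁`, then `adec_eq` (`3/20 < 1/4`).
-/

namespace Vale.Agent.P325

open Finset
open scoped BigOperators

open Classical in
/-- Decoding of a long code table. -/
noncomputable def adec {S : Type} [Fintype S] [DecidableEq S] [Nonempty S]
    (B : (S → ZMod 2) → ZMod 2) : S :=
  if h : ∃ s, (𝔼 f : S → ZMod 2, ind (B f ≠ f s)) < 1 / 4 then h.choose else Classical.arbitrary S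

theorem ac_tri {α β γ : Type} {a a' : α} {b b' : β} {c c' : γ} {r : Prop}
    (h : b = b' → c = c' → ¬ r → a = a') : ind (a ≠ a') ≤ ind (b ≠ b') + ind (c ≠ c') + ind r := by
  have h1 := ind_nonneg' (b ≠ b')
  have h2 := ind_nonneg' (c ≠ c')
  have h3 := ind_nonneg' r
  have h4 := ind_le_one' (a ≠ a')
  by_cases hb : b = b'
  · by_cases hc : c = c'
    · by_cases hr : r
      · rw [ind_pos hr]; linarith
      · rw [ind_neg (not_not.2 (h hb hc hr))]; linarith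
    · rw [ind_pos (p := c ≠ c') hc]; linarith
  · rw [ind_pos (p := b ≠ b') hb]; linarith

theorem ac_half {V : Type} [Fintype V] [Nonempty V] (F : V → ℝ) :
    (𝔼 x, (1 - F x) / 2) = (1 - 𝔼 x, F x) / 2 := by
  rw [← Finset.expect_div, Finset.expect_sub_distrib, Fintype.expect_const]

theorem ac_pair {S : Type} [Fintype S] [DecidableEq S] {s s' : S} (h : s ≠ s') :
    (𝔼 f : S → ZMod 2, chi (f s) * chi (f s')) = 0 := by
  simp only [← chi_add]
  refine expect_chi_eq_zero (L := fun f : S → ZMod 2 => f s + f s') (k := Pi.single s 1)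
    (fun x y => ?_) ?_
  · simp only [Pi.add_apply]; ring
  · simp [h.symm]

theorem adec_eq {S : Type} [Fintype S] [DecidableEq S] [Nonempty S] {B : (S → ZMod 2) → ZMod 2}
    {s : S} (h : (𝔼 f : S → ZMod 2, ind (B f ≠ f s)) < 1 / 4) : adec B = s := by
  have hex : ∃ s, (𝔼 f : S → ZMod 2, ind (B f ≠ f s)) < 1 / 4 := ⟨s, h⟩
  rw [adec, dif_pos hex]
  have h' := hex.choose_spec
  generalize hex.choose = s' at h'
  by_contra hne
  have h1 : (𝔼 f : S → ZMod 2, ind (f s' ≠ f s)) = 1 / 2 := by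
    simp only [ind_ne_chi]
    rw [ac_half, ac_pair hne]
    norm_num
  have h2 : (𝔼 f : S → ZMod 2, ind (f s' ≠ f s)) ≤
      𝔼 f : S → ZMod 2, (ind (B f ≠ f s') + ind (B f ≠ f s) + ind False) :=
    Finset.expect_le_expect fun f _ => ac_tri fun h1 h2 _ => h1.symm.trans h2
  simp only [ind_neg not_false, add_zero, Finset.expect_add_distrib] at h2
  linarith

variable {P : Type} [Fintype P] [DecidableEq P]

theorem alph_blr (A : (P → ZMod 2) → ZMod 2) : ∃ T : P → ZMod 2,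
    (𝔼 f, ind (A f ≠ T ⬝ᵥ f)) ≤ 𝔼 f, 𝔼 g, ind (A f + A g ≠ A (f + g)) := by
  obtain ⟨T, -, hT⟩ := Finset.exists_max_image univ (hat fun f => chi (A f)) univ_nonempty
  refine ⟨T, ?_⟩
  have h1 : ∀ f, (𝔼 g, chi (A f + A g) * chi (A (f + g))) = ∑ S, hat (fun f => chi (A f)) S ^ 2 *
      (chi (A f) * chi (S ⬝ᵥ f)) := fun f => by
    have h := perf_dot.expect_mul_shift (fun f => chi (A f)) (fun f => chi (A f)) f
    simp only [chi_add, mul_assoc, add_comm f]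
    rw [← Finset.mul_expect, h, Finset.mul_sum]
    exact Finset.sum_congr rfl fun S _ => by ring
  simp only [ind_ne_chi, ac_half, h1, Finset.expect_sum_comm, ← Finset.mul_expect]
  have h2 : ∑ S, hat (fun f => chi (A f)) S ^ 2 * hat (fun f => chi (A f)) S ≤
      ∑ S, hat (fun f => chi (A f)) S ^ 2 * hat (fun f => chi (A f)) T :=
    Finset.sum_le_sum fun S _ => mul_le_mul_of_nonneg_left (hT S (mem_univ S)) (sq_nonneg _)
  rw [← Finset.sum_mul, perf_dot.parseval_chi, one_mul] at h2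
  exact div_le_div_of_nonneg_right (sub_le_sub_left h2 1) zero_le_two

theorem alph_corr (A : (P → ZMod 2) → ZMod 2) (T k : P → ZMod 2) (c : ZMod 2) :
    ind (T ⬝ᵥ k ≠ c) ≤ (𝔼 h, ind (A (k + h) + A h ≠ c)) + 2 * 𝔼 f, ind (A f ≠ T ⬝ᵥ f) := by
  have h1 : ∀ h, ind (T ⬝ᵥ k ≠ c) ≤ ind (A (k + h) + A h ≠ c) + ind (A (k + h) ≠ T ⬝ᵥ (k + h)) +
      ind (A h ≠ T ⬝ᵥ h) := fun h => ac_tri fun e1 e2 e3 => by
    rw [← e1, e2, not_not.1 e3, dotProduct_add, add_assoc, z2_add_self, add_zero]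
  have h2 := Finset.expect_le_expect (s := univ) fun h _ => h1 h
  rw [Fintype.expect_const, Finset.expect_add_distrib, Finset.expect_add_distrib,
    expect_add_left' (fun f => ind (A f ≠ T ⬝ᵥ f)) k] at h2
  linarith

theorem alph_two {T : P → ZMod 2} {p p' : P} (hp : T p ≠ 0) (hp' : T p' ≠ 0) (hne : p ≠ p') :
    1 / 4 ≤ 𝔼 f, 𝔼 g, ind (T ⬝ᵥ (f * g) ≠ (T ⬝ᵥ f) * (T ⬝ᵥ g)) := by
  have h1 : ∀ f : P → ZMod 2, (𝔼 g, chi (T ⬝ᵥ (f * g)) * chi ((T ⬝ᵥ f) * (T ⬝ᵥ g))) ≤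
      1 - (1 - chi (f p) * chi (f p')) / 2 := fun f => by
    rw [← ind_ne_chi]
    by_cases h : f p = f p'
    · rw [ind_neg (not_not.2 h), sub_zero]
      exact Finset.expect_le univ_nonempty fun g _ => by rw [← chi_add]; exact chi_le_one _
    · rw [ind_pos h, sub_self]
      simp only [← chi_add]
      have hL : ∀ x y : P → ZMod 2, T ⬝ᵥ (f * (x + y)) + (T ⬝ᵥ f) * (T ⬝ᵥ (x + y)) =
          T ⬝ᵥ (f * x) + (T ⬝ᵥ f) * (T ⬝ᵥ x) + (T ⬝ᵥ (f * y) + (T ⬝ᵥ f) * (T ⬝ᵥ y)) := fun x y => by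
        rw [mul_add, dotProduct_add, dotProduct_add]; ring
      have hv : ∀ r, T r ≠ 0 → T ⬝ᵥ (f * Pi.single r 1) + (T ⬝ᵥ f) * (T ⬝ᵥ Pi.single r 1) =
          f r + T ⬝ᵥ f := fun r hr => by
        rw [← Pi.single_mul_right, dotProduct_single, dotProduct_single, z2_ne_zero.1 hr]
        ring
      by_cases h' : f p + T ⬝ᵥ f = 0
      · refine (expect_chi_eq_zero hL (k := Pi.single p' 1) ?_).le
        rw [hv p' hp', ne_eq, z2_add_eq_zero, ← z2_add_eq_zero.1 h']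
        exact fun e => h e.symm
      · refine (expect_chi_eq_zero hL (k := Pi.single p 1) ?_).le
        rwa [hv p hp]
  have h2 := Finset.expect_le_expect (s := univ) fun f _ => h1 f
  rw [Finset.expect_sub_distrib, Fintype.expect_const, ac_half, ac_pair hne] at h2
  simp only [ind_ne_chi, ac_half]
  linarith

theorem alph_point (R : P → Prop) (A : (P → ZMod 2) → ZMod 2)
    (hfold : ∀ p, ¬ R p → ∀ f, A (f + Pi.single p 1) = A f)
    (h1 : (𝔼 f, 𝔼 g, ind (A f + A g ≠ A (f + g))) < 1 / 20)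
    (h2 : (𝔼 f, 𝔼 g, 𝔼 h, ind (A (f * g + h) + A h ≠ A f * A g)) < 1 / 20)
    (h3 : (𝔼 h, ind (A (1 + h) + A h ≠ 1)) < 1 / 20) :
    ∃ p, R p ∧ (𝔼 f, ind (A f ≠ f p)) < 1 / 20 := by
  obtain ⟨T, hT⟩ := alph_blr A
  have hδ := hT.trans_lt h1
  have k1 : T ⬝ᵥ 1 = 1 := by
    by_contra h
    have h4 := alph_corr A T 1 1
    rw [ind_pos h] at h4
    linarith
  obtain ⟨p, hp⟩ : ∃ p, T p ≠ 0 := by
    by_contra h
    rw [funext (not_exists_not.1 h)] at k1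
    simp [dotProduct] at k1
  have k2 : ∀ p', p' ≠ p → T p' = 0 := fun p' hne => by
    by_contra hp'
    have h4 := alph_two hp' hp hne
    have h5 : ∀ f g, ind (T ⬝ᵥ (f * g) ≠ (T ⬝ᵥ f) * (T ⬝ᵥ g)) ≤
        (𝔼 h, ind (A (f * g + h) + A h ≠ A f * A g)) + 2 * (𝔼 f, ind (A f ≠ T ⬝ᵥ f)) +
          ind (A f ≠ T ⬝ᵥ f) + ind (A g ≠ T ⬝ᵥ g) := fun f g => by
      have h6 := alph_corr A T (f * g) (A f * A g)
      have h7 : ind (T ⬝ᵥ (f * g) ≠ (T ⬝ᵥ f) * (T ⬝ᵥ g)) ≤ ind (T ⬝ᵥ (f * g) ≠ A f * A g) +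
          ind (A f ≠ T ⬝ᵥ f) + ind (A g ≠ T ⬝ᵥ g) := ac_tri fun e1 e2 e3 => by
        rw [e1, e2, not_not.1 e3]
      linarith
    have h6 := Finset.expect_le_expect (s := univ) fun f _ =>
      Finset.expect_le_expect (s := univ) fun g _ => h5 f g
    simp only [Finset.expect_add_distrib, Fintype.expect_const] at h6
    linarith
  have k3 : ∀ f, T ⬝ᵥ f = f p := fun f => by
    rw [dotProduct, Finset.sum_eq_single p (fun b _ hb => by rw [k2 b hb, zero_mul]) (by simp),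
      z2_ne_zero.1 hp, one_mul]
  refine ⟨p, ?_, by simpa only [k3] using hδ⟩
  by_contra hR
  have h4 := perf_dot.hatB_shift (fun f => chi (A f)) (Pi.single p 1) T
  simp only [hfold p hR, k3, Pi.single_eq_same, chi_one] at h4
  simp only [ind_ne_chi, ac_half] at hδ
  unfold hatB at h4
  simp only [k3] at h4 hδ
  linarith

theorem alph_cons {S : Type} [Fintype S] [DecidableEq S] [Nonempty S]
    (A : (P → ZMod 2) → ZMod 2) (B : (S → ZMod 2) → ZMod 2) (κ : P → S) {p : P}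
    (hp : (𝔼 f, ind (A f ≠ f p)) < 1 / 20)
    (h : (𝔼 f₁ : S → ZMod 2, 𝔼 h, ind (A (f₁ ∘ κ + h) + A h ≠ B f₁)) < 1 / 20) :
    adec B = κ p := by
  refine adec_eq ?_
  have h1 : ∀ f₁ : S → ZMod 2, ind (B f₁ ≠ f₁ (κ p)) ≤
      (𝔼 h, ind (A (f₁ ∘ κ + h) + A h ≠ B f₁)) + 2 * 𝔼 f, ind (A f ≠ f p) := fun f₁ => by
    have h2 := alph_corr A (Pi.single p 1) (f₁ ∘ κ) (B f₁)
    simp only [single_dotProduct, one_mul] at h2
    rwa [ind_congr' ne_comm]
  have h2 := Finset.expect_le_expect (s := univ) fun f _ => h1 f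
  rw [Finset.expect_add_distrib, Fintype.expect_const] at h2
  linarith

end Vale.Agent.P325
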