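import Vale.Agent.P325.PTF
import Vale.Agent.P325.AlphCore

/-! ALPH: alphabet reduction by long code tests. -/

namespace Vale.Agent.P325

open Vale.Agent.Lib.H23 Finset
open scoped BigOperators

theorem expect_prod {α β : Type} [Fintype α] [Fintype β] (F : α × β → ℝ) :
    𝔼 p, F p = 𝔼 a, 𝔼 b, F (a, b) := by
  rw [← Finset.univ_product_univ, Finset.expect_product]

/-- Name of the entry `t` of the table number `n`. -/
noncomputable def anm {T : Type} [Fintype T] (n : ℕ) (t : T) : ℕ :=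
  Nat.pair n (Fintype.equivFin T t)

theorem anm_exists {T β : Type} [Fintype T] [Nonempty β] (g : ℕ → T → β) :
    ∃ a : ℕ → β, ∀ n t, a (anm n t) = g n t := by
  have hi : Function.Injective fun p : ℕ × T => anm p.1 p.2 := by
    rintro ⟨n, t⟩ ⟨m, s⟩ h
    simp only [anm, Nat.pair_eq_pair, Fin.val_inj, EmbeddingLike.apply_eq_iff_eq] at h
    exact Prod.ext h.1 h.2
  exact ⟨Function.extend (fun p : ℕ × T => anm p.1 p.2) (fun p => g p.1 p.2)
    fun _ => Classical.arbitrary β, fun n t => hi.extend_apply _ _ (n, t)⟩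

theorem anm_le {T : Type} [Fintype T] {n N j : ℕ} (h : n ≤ (N + 2) ^ j) (t : T) :
    anm n t ≤ (N + 2) ^ (2 * (j + Fintype.card T + 1)) := by
  refine le_trans (Nat.le_succ _) (pair_le_pow h ?_)
  exact (Fintype.equivFin T t).2.le.trans (Nat.lt_pow_self (by omega)).le

theorem pt_anm {α T A : Type} [Enc α] [Fintype T] [Fintype A] {n : α → ℕ} {c : α → Code A}
    (hn : PT n) (hc : PT c) (t : A → T) : PT fun x => anm (n x) (t (c x).val) :=
  pt_pair hn (pt_ofFin (fun a => (Fintype.equivFin T (t a) : ℕ)) hc)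

/-- Bits as elements of `ZMod 2`. -/
def toZ (b : Bool) : ZMod 2 := if b then 1 else 0

theorem toZ_decide (z : ZMod 2) : toZ (decide (z = 1)) = z := by revert z; decide

def pLin : P4 := ⟨fun β => decide (toZ (β 0) + toZ (β 1) = toZ (β 2)), fun _ => false, by decide⟩

def pMul : P4 :=
  ⟨fun β => decide (toZ (β 0) + toZ (β 1) = toZ (β 2) * toZ (β 3)), fun _ => false, by decide⟩

def pOne : P4 :=
  ⟨fun β => decide (toZ (β 0) + toZ (β 1) = 1), ![true, false, false, false], by decide⟩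

variable {S : Type} [Fintype S] [DecidableEq S]

/-- Folding over a relation. -/
def afold (R : S → S → Bool) (f : S × S → ZMod 2) : S × S → ZMod 2 :=
  fun p => if R p.1 p.2 then f p else 0

/-- Variables of the table of a constraint. -/
noncomputable def aA (e : C2 S) (f : S × S → ZMod 2) : ℕ :=
  anm (Nat.pair (e.1 0) (e.1 1)) (Sum.inl (afold e.2.val f) : (S × S → ZMod 2) ⊕ (S → ZMod 2))

/-- Variables of the table of a vertex. -/
noncomputable def aB (x : ℕ) (f : S → ZMod 2) : ℕ :=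
  anm x (Sum.inr f : (S × S → ZMod 2) ⊕ (S → ZMod 2))

/-- Random seeds of the tests. -/
abbrev ASeed (S : Type) : Type :=
  Fin 5 × (S → ZMod 2) × (S × S → ZMod 2) × (S × S → ZMod 2) × (S × S → ZMod 2)

/-- The five tests. -/
noncomputable def atest (e : C2 S) (k : S → ZMod 2) (f g h : S × S → ZMod 2) : Fin 5 → C4 :=
  ![(![aA e f, aA e g, aA e (f + g), aA e f], ⟨pLin⟩),
    (![aA e (f * g + h), aA e h, aA e f, aA e g], ⟨pMul⟩),
    (![aA e (1 + h), aA e h, aA e h, aA e h], ⟨pOne⟩),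
    (![aA e (k ∘ Prod.fst + h), aA e h, aB (e.1 0) k, aA e h], ⟨pLin⟩),
    (![aA e (k ∘ Prod.snd + h), aA e h, aB (e.1 1) k, aA e h], ⟨pLin⟩)]

/-- The reduction. -/
noncomputable def ared (l : List (C2 S)) : List C4 :=
  locMap l fun e (ω : ASeed S) => atest e ω.2.1 ω.2.2.1 ω.2.2.2.1 ω.2.2.2.2 ω.1

theorem pt_aA {α : Type} [Enc α] {e : α → C2 S} (he : PT e) (f : S × S → ZMod 2) :
    PT fun x => aA (e x) f :=
  pt_anm (pt_pair (pt_apply he.fst 0) (pt_apply he.fst 1)) he.snd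
    fun R => (Sum.inl (afold R f) : (S × S → ZMod 2) ⊕ (S → ZMod 2))

theorem pt_aB {α : Type} [Enc α] {n : α → ℕ} (hn : PT n) (f : S → ZMod 2) :
    PT fun x => aB (n x) f := pt_pair hn (PT.const _)

theorem pt_ared : PT (ared : List (C2 S) → List C4) := by
  refine pt_locMap (g := fun (_ : List (C2 S)) e (ω : ASeed S) =>
    atest e ω.2.1 ω.2.2.1 ω.2.2.2.1 ω.2.2.2.2 ω.1) PT.id ?_
  rintro ⟨i, k, f, g, h⟩
  have he : PT fun p : List (C2 S) × C2 S => p.2 := PT.snd'
  have hA := pt_aA he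
  fin_cases i
  · exact PT.pair (pt_vec4 (hA _) (hA _) (hA _) (hA _)) (PT.const _)
  · exact PT.pair (pt_vec4 (hA _) (hA _) (hA _) (hA _)) (PT.const _)
  · exact PT.pair (pt_vec4 (hA _) (hA _) (hA _) (hA _)) (PT.const _)
  · exact PT.pair (pt_vec4 (hA _) (hA _) (pt_aB (pt_apply he.fst 0) _) (hA _)) (PT.const _)
  · exact PT.pair (pt_vec4 (hA _) (hA _) (pt_aB (pt_apply he.fst 1) _) (hA _)) (PT.const _)

theorem atest_le {N : ℕ} {e : C2 S} (he : ∀ j, e.1 j ≤ N) (k : S → ZMod 2)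
    (f g h : S × S → ZMod 2) (i : Fin 5) (j : Fin 4) : (atest e k f g h i).1 j ≤
      (N + 2) ^ (2 * (6 + Fintype.card ((S × S → ZMod 2) ⊕ (S → ZMod 2)) + 1)) := by
  have h1 : ∀ j, e.1 j ≤ (N + 2) ^ 1 := fun j => by have := he j; rw [pow_one]; omega
  have hA : ∀ f, aA e f ≤ _ := fun f =>
    anm_le (j := 6) (le_trans (Nat.le_succ _) (pair_le_pow (h1 0) (h1 1))) _
  have hB : ∀ j, aB (e.1 j) k ≤ _ := fun j =>
    anm_le (j := 6) ((h1 j).trans (Nat.pow_le_pow_right (by omega) (by omega))) _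
  fin_cases i <;> fin_cases j <;> first | exact hA _ | exact hB _

theorem atest_sat {a : ℕ → Bool} {e : C2 S} {k : S → ZMod 2} {f g h : S × S → ZMod 2} :
    (sat4 a (atest e k f g h 0) ↔ toZ (a (aA e f)) + toZ (a (aA e g)) = toZ (a (aA e (f + g)))) ∧
    (sat4 a (atest e k f g h 1) ↔ toZ (a (aA e (f * g + h))) + toZ (a (aA e h)) =
      toZ (a (aA e f)) * toZ (a (aA e g))) ∧
    (sat4 a (atest e k f g h 2) ↔ toZ (a (aA e (1 + h))) + toZ (a (aA e h)) = 1) ∧
    (sat4 a (atest e k f g h 3) ↔ toZ (a (aA e (k ∘ Prod.fst + h))) + toZ (a (aA e h)) =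
      toZ (a (aB (e.1 0) k))) ∧
    (sat4 a (atest e k f g h 4) ↔ toZ (a (aA e (k ∘ Prod.snd + h))) + toZ (a (aA e h)) =
      toZ (a (aB (e.1 1) k))) :=
  ⟨decide_eq_true_iff, decide_eq_true_iff, decide_eq_true_iff, decide_eq_true_iff,
    decide_eq_true_iff⟩

theorem ared_complete {l : List (C2 S)} {τ : ℕ → S} (hτ : ∀ e ∈ l, sat2 τ e) :
    ∃ a, ∀ c ∈ ared l, sat4 a c := by
  obtain ⟨a, ha⟩ := anm_exists (T := (S × S → ZMod 2) ⊕ (S → ZMod 2)) fun n t =>
    decide (Sum.elim (fun f => f (τ n.unpair.1, τ n.unpair.2)) (fun f => f (τ n)) t = 1)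
  refine ⟨a, fun c hc => ?_⟩
  obtain ⟨e, he, ⟨i, k, f, g, h⟩, rfl⟩ := mem_locMap.1 hc
  have hA : ∀ f, toZ (a (aA e f)) = f (τ (e.1 0), τ (e.1 1)) := fun f => by
    have := hτ e he
    unfold sat2 at this
    rw [aA, ha, toZ_decide, Sum.elim_inl, Nat.unpair_pair, afold, if_pos this]
  have hB : ∀ x, toZ (a (aB x k)) = k (τ x) := fun x => by
    rw [aB, ha, toZ_decide, Sum.elim_inr]
  obtain ⟨h0, h1, h2, h3, h4⟩ := atest_sat (a := a) (e := e) (k := k) (f := f) (g := g) (h := h)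
  fin_cases i
  · exact h0.2 (by simp only [hA, Pi.add_apply])
  · exact h1.2 (by simp only [hA, Pi.add_apply, Pi.mul_apply, add_assoc, z2_add_self, add_zero])
  · exact h2.2 (by simp only [hA, Pi.add_apply, Pi.one_apply, add_assoc, z2_add_self, add_zero])
  · exact h3.2 (by simp only [hA, hB, Pi.add_apply, Function.comp_apply, add_assoc, z2_add_self,
      add_zero])
  · exact h4.2 (by simp only [hA, hB, Pi.add_apply, Function.comp_apply, add_assoc, z2_add_self,
      add_zero])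

theorem atest_sound [Nonempty S] (a : ℕ → Bool) (e : C2 S) :
    1 / 100 * ind (¬ sat2 (fun x => adec fun k => toZ (a (aB x k))) e) ≤
      𝔼 ω : ASeed S, ind (¬ sat4 a (atest e ω.2.1 ω.2.2.1 ω.2.2.2.1 ω.2.2.2.2 ω.1)) := by
  by_cases hs : sat2 (fun x => adec fun k => toZ (a (aB x k))) e
  · rw [ind_of_not (not_not.2 hs), mul_zero]
    exact Finset.expect_nonneg fun _ _ => ind_nonneg _
  rw [ind_of hs, mul_one, expect_prod, Fintype.expect_eq_sum_div_card, Fin.sum_univ_five]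
  simp only [expect_prod, atest_sat.1, atest_sat.2.1, atest_sat.2.2.1, atest_sat.2.2.2.1,
    atest_sat.2.2.2.2, Fintype.expect_const, Fintype.card_fin]
  set A : (S × S → ZMod 2) → ZMod 2 := fun f => toZ (a (aA e f)) with hA
  set B : ℕ → (S → ZMod 2) → ZMod 2 := fun x k => toZ (a (aB x k)) with hB
  set r1 := 𝔼 f, 𝔼 g, ind (A f + A g ≠ A (f + g))
  set r2 := 𝔼 f, 𝔼 g, 𝔼 h, ind (A (f * g + h) + A h ≠ A f * A g)
  set r3 := 𝔼 h, ind (A (1 + h) + A h ≠ 1)
  set r4 := 𝔼 k : S → ZMod 2, 𝔼 h, ind (A (k ∘ Prod.fst + h) + A h ≠ B (e.1 0) k)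
  set r5 := 𝔼 k : S → ZMod 2, 𝔼 h, ind (A (k ∘ Prod.snd + h) + A h ≠ B (e.1 1) k)
  change 1 / 100 ≤ (r1 + r2 + r3 + r4 + r5) / ((5 : ℕ) : ℝ)
  have p1 : 0 ≤ r1 := expect_nonneg fun _ _ => expect_nonneg fun _ _ => ind_nonneg _
  have p2 : 0 ≤ r2 :=
    expect_nonneg fun _ _ => expect_nonneg fun _ _ => expect_nonneg fun _ _ => ind_nonneg _
  have p3 : 0 ≤ r3 := expect_nonneg fun _ _ => ind_nonneg _
  have p4 : 0 ≤ r4 := expect_nonneg fun _ _ => expect_nonneg fun _ _ => ind_nonneg _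
  have p5 : 0 ≤ r5 := expect_nonneg fun _ _ => expect_nonneg fun _ _ => ind_nonneg _
  by_contra hc
  push_cast at hc
  have hfold : ∀ p : S × S, ¬ e.2.val p.1 p.2 = true → ∀ f, A (f + Pi.single p 1) = A f := by
    intro p hp f
    have : afold e.2.val (f + Pi.single p 1) = afold e.2.val f := by
      funext p'
      unfold afold
      split_ifs with h
      · rw [Pi.add_apply, Pi.single_eq_of_ne (by rintro rfl; exact hp h), add_zero]
      · rfl
    simp only [hA, aA, this]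
  obtain ⟨p, hp, hp'⟩ := alph_point (fun p : S × S => e.2.val p.1 p.2 = true) A hfold
    (by linarith) (by linarith) (by linarith)
  have e0 := alph_cons A (B (e.1 0)) Prod.fst hp' (by linarith)
  have e1 := alph_cons A (B (e.1 1)) Prod.snd hp' (by linarith)
  refine hs ?_
  change e.2.val (adec (B (e.1 0))) (adec (B (e.1 1))) = true
  rw [e0, e1]
  exact hp

theorem alph : AlphStmt := by
  refine ⟨1 / 100, by norm_num, fun S _ _ _ => ⟨Fintype.card (ASeed S) +
    2 * (6 + Fintype.card ((S × S → ZMod 2) ⊕ (S → ZMod 2)) + 1), ared, pt_ared, fun l hl =>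
    ⟨locMap_ne_nil hl _, ?_, fun N _ hN c hc j => ?_, fun ⟨τ, hτ⟩ => ared_complete hτ,
      fun u hu a => ?_⟩⟩⟩
  · rw [ared, length_locMap, mul_comm]
    exact Nat.mul_le_mul_right _ (Nat.le_add_right _ _)
  · obtain ⟨e, he, ω, rfl⟩ := mem_locMap.1 hc
    exact (atest_le (hN e he) _ _ _ _ _ j).trans
      (Nat.pow_le_pow_right (by omega) (Nat.le_add_left _ _))
  · rw [ared, avg_locMap]
    refine le_trans ?_ (avg_mono fun e _ => atest_sound a e)
    rw [avg_mul_left]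
    exact mul_le_mul_of_nonneg_left (hu _) (by norm_num)

end Vale.Agent.P325
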