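import Vale.Agent.P325.PTF

/-! From the inner reduction to the Turing machine statement. -/

namespace Vale.Agent.P325

open Vale.Agent.Lib.H23 Enc Turing

theorem ser_list {α : Type} [Enc α] {f : α → List Bool} (h : ∀ a, ser (enc a) = f a)
    (l : List α) : ser (enc l) = bList f l := by
  induction l with
  | nil => rfl
  | cons a l ih => rw [enc_cons, ser, h, ih, bList]

theorem ser_pair {α β : Type} [Enc α] [Enc β] {f : α → List Bool} {g : β → List Bool}
    (hf : ∀ a, ser (enc a) = f a) (hg : ∀ b, ser (enc b) = g b) (p : α × β) :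
    ser (enc p) = bPair f g p := by
  rw [bPair, ← hf, ← hg]; rfl

theorem ser_bool (b : Bool) : ser (enc b) = bBool b := by cases b <;> rfl

theorem ser_nat (n : ℕ) : ser (enc n) = bNat n := ser_list ser_bool n.bits

theorem ser_cnf (φ : CNF) : ser (enc φ) = codeCNF φ :=
  ser_list (ser_pair (ser_pair ser_nat ser_bool)
    (ser_pair (ser_pair ser_nat ser_bool) (ser_pair ser_nat ser_bool))) φ

/-- A polynomial time function is computed by a Turing machine. -/
theorem tm_of_pt {β γ : Type} [Enc γ] {g : CNF → γ} (hg : PT g) (code : β → List Bool)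
    (f : CNF → β) (h : ∀ φ, ser (enc (g φ)) = code (f φ)) :
    ∃ M : TM2ComputableInPolyTime codeCNF code f, ∀ j, Finite (M.tm.Γ j) := by
  obtain ⟨c, P, hc⟩ := hg
  have key : ∀ φ : CNF, TM2OutputsInTime (compile c) (List.map (id : Bool → Bool) (codeCNF φ))
      (some (List.map (id : Bool → Bool) (code (f φ)))) ((P + 1).eval (codeCNF φ).length) := by
    intro φ
    have h1 := (hc φ).outputs
    rw [sz, Tr.size, ser_cnf, h] at h1
    rw [← List.map_id (codeCNF φ), ← List.map_id (code (f φ)), List.length_map] at h1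
    rw [Polynomial.eval_add, Polynomial.eval_one]
    exact Classical.choice h1
  exact ⟨⟨⟨compile c, Equiv.refl _, Equiv.refl _⟩, P + 1, key⟩,
    fun _ => (inferInstance : Finite Bool)⟩

theorem avg_ind_eq {δ : Type} (l : List δ) (p : δ → Prop) [DecidablePred p] :
    avg l (fun c => ind (p c)) = ((l.countP fun c => decide (p c) : ℕ) : ℝ) / l.length := by
  unfold avg
  congr 1
  induction l with
  | nil => simp
  | cons a l ih =>
    rw [List.map_cons, List.sum_cons, ih, List.countP_cons, ind_eq_ite]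
    by_cases h : p a <;> simp [h, add_comm]

theorem final (hH : HasStmt) (hI : InnerStmt) (ε δ : ℝ) (hε : 0 < ε) (hδ : 0 < δ) :
    ∃ k : ℕ, 2 ≤ k ∧ ∃ (f : CNF → UG k) (M : TM2ComputableInPolyTime codeCNF (codeUG k) f),
      (∀ j, Finite (M.tm.Γ j)) ∧ ∀ φ, f φ ≠ [] ∧ (Sat φ → 1 - ε ≤ val (f φ)) ∧
        (¬ Sat φ → val (f φ) ≤ δ) := by
  obtain ⟨ε₀, l, r, h0, hl, pt, hr⟩ := hI ε δ hε hδ
  obtain ⟨s, pt', hs⟩ := hH ε₀ h0
  let e : F2 l ≃ Fin (2 ^ l) := Fintype.equivFinOfCardEq (by simp [F2])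
  let π : F2 l → Equiv.Perm (Fin (2 ^ l)) := fun v => (e.symm.trans (Equiv.addRight v)).trans e
  let f : CNF → UG (2 ^ l) := fun φ => (r (s φ)).map fun c => (c.1 0, c.1 1, π c.2.val)
  have hg : PT fun φ => (r (s φ)).map fun c =>
      (c.1 0, c.1 1, List.ofFn fun i => (π c.2.val i : ℕ)) :=
    PT.map (f := fun _ (c : CU l) => (c.1 0, c.1 1, List.ofFn fun i => (π c.2.val i : ℕ)))
      (PT.pair (pt_apply PT.snd'.fst 0) (PT.pair (pt_apply PT.snd'.fst 1)
        (pt_ofFin (fun v => List.ofFn fun i => (π v i : ℕ)) PT.snd'.snd))) (pt.comp pt')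
  obtain ⟨M, hM⟩ := tm_of_pt hg (codeUG (2 ^ l)) f fun φ => by
    rw [ser_list (ser_pair ser_nat (ser_pair ser_nat (ser_list ser_nat)))]
    simp only [f, codeUG]
    induction r (s φ) with
    | nil => rfl
    | cons c t ih => simp only [List.map_cons, bList, ih]; rfl
  refine ⟨2 ^ l, Nat.le_self_pow (by omega) 2, f, M, hM, fun φ => ?_⟩
  obtain ⟨a1, a2, a3⟩ := hs φ
  obtain ⟨b1, b2, b3⟩ := hr _ a1
  have hv : ∀ a : ℕ → Fin (2 ^ l),
      (((f φ).countP fun c => decide (a c.2.1 = c.2.2 (a c.1)) : ℕ) : ℝ) / (f φ).length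
        = avg (r (s φ)) fun c => ind (satU (fun n => e.symm (a n)) c) := fun a => by
    rw [← avg_ind_eq (f φ) fun c => a c.2.1 = c.2.2 (a c.1), avg_map]
    exact avg_congr fun c _ => ind_congr (by simp [satU, π, Equiv.symm_apply_eq])
  unfold val
  simp only [hv]
  refine ⟨by simpa [f] using b1, fun h => ?_, fun h => ciSup_le fun a => b3 (a3 h) _⟩
  obtain ⟨b, hb⟩ := b2 (a2 h)
  refine le_trans ?_ (le_ciSup (f := fun a : ℕ → Fin (2 ^ l) =>
    avg (r (s φ)) fun c => ind (satU (fun n => e.symm (a n)) c))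
    ⟨1, by rintro _ ⟨a, rfl⟩; exact avg_ind_le_one _ _⟩ fun n => e (b n))
  simpa using hb

end Vale.Agent.P325
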