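import Vale.Agent.P325.PTF

/-! The PCP theorem by iterating gap amplification. -/

namespace Vale.Agent.P325

open Vale.Agent.Lib.H23 Polynomial

/-- the predicate of a clause with the given signs. -/
def clP (b : Fin 3 → Bool) : P4 :=
  ⟨fun β => (β 0 == b 0) || (β 1 == b 1) || (β 2 == b 2), ⟨fun _ => b 0, by simp⟩⟩

/-- a clause as a constraint. -/
def clC (c : Lit × Lit × Lit) : C4 :=
  (![c.1.1, c.2.1.1, c.2.2.1, 0], ⟨clP ![c.1.2, c.2.1.2, c.2.2.2]⟩)

/-- the trivial constraint. -/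
def trivC : C4 := (fun _ => 0, ⟨⟨fun _ => true, ⟨fun _ => true, rfl⟩⟩⟩)

def initC (φ : CNF) : List C4 := trivC :: φ.map clC

theorem sat4_clC (a : ℕ → Bool) (c : Lit × Lit × Lit) :
    sat4 a (clC c) ↔ (a c.1.1 = c.1.2 ∨ a c.2.1.1 = c.2.1.2 ∨ a c.2.2.1 = c.2.2.2) := by
  simp [sat4, clC, clP, or_assoc]

theorem sat_initC (φ : CNF) (a : ℕ → Bool) : (∀ c ∈ initC φ, sat4 a c) ↔
    ∀ c ∈ φ, a c.1.1 = c.1.2 ∨ a c.2.1.1 = c.2.1.2 ∨ a c.2.2.1 = c.2.2.2 := by
  simp only [initC, List.forall_mem_cons, List.forall_mem_map, sat4_clC]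
  exact and_iff_right rfl

theorem pt_initC : PT initC := by
  have h : PT clC := by
    refine PT.pair (pt_vec4 (by fun_prop) (by fun_prop) (by fun_prop) (PT.const 0)) ?_
    refine pt_mk clP (c := fun c : Lit × Lit × Lit => ⟨![c.1.2, c.2.1.2, c.2.2.2]⟩)
      (pt_codeFun fun i => pt_codeBool ?_)
    fin_cases i <;> simp <;> fun_prop
  exact PT.cons (PT.const _) (PT.map (f := fun _ c => clC c) (h.comp PT.snd') PT.id)

theorem inv_len_le_avg {δ : Type} {l : List δ} {p : δ → Prop} (h : ¬ ∀ c ∈ l, p c) :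
    1 / (l.length : ℝ) ≤ avg l fun c => ind (¬ p c) := by
  push Not at h
  obtain ⟨c, hc, hp⟩ := h
  refine div_le_div_of_nonneg_right ?_ (Nat.cast_nonneg _)
  rw [← ind_of hp]
  refine List.single_le_sum (fun x hx => ?_) _ (List.mem_map.mpr ⟨c, hc, rfl⟩)
  obtain ⟨a, -, rfl⟩ := List.mem_map.mp hx
  exact ind_nonneg _

theorem sz_con_le {n k : ℕ} {A : Type} [Fintype A] (c : Con n A) (h : ∀ j, c.1 j < 2 ^ k) :
    sz c ≤ n * (4 * k + 2) + 4 * Fintype.card A + 3 := by
  have h1 : sz c.1 = sz (List.ofFn c.1) := rfl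
  have h2 : sz c.2 = sz (Fintype.equivFin A c.2.val : ℕ) := rfl
  have h3 := sz_list_le (l := List.ofFn c.1) (B := 4 * k + 1) fun a ha => by
    obtain ⟨j, rfl⟩ := List.mem_ofFn.mp ha
    exact sz_nat_le (h j)
  have h4 := sz_nat_le ((Fintype.equivFin A c.2.val).2.trans Nat.lt_two_pow_self)
  rw [List.length_ofFn] at h3
  rw [sz_prod, h1, h2]
  linarith

theorem foldl_iter {σ β : Type} (R : σ → σ) (l : List β) (s : σ) :
    l.foldl (fun s _ => R s) s = R^[l.length] s := by
  induction l generalizing s with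
  | nil => rfl
  | cons a l ih => rw [List.foldl_cons, ih, List.length_cons, Function.iterate_succ_apply]

theorem pcp (hR : RoundStmt) : PCPStmt := by
  obtain ⟨α, C, R, hα, pt, h⟩ := hR
  have hlen : ∀ φ, (initC φ).length = φ.length + 1 := fun φ => by simp [initC]
  have key : ∀ φ k, R^[k] (initC φ) ≠ [] ∧ (R^[k] (initC φ)).length ≤ C ^ k * (φ.length + 1) ∧
      (Sat φ → ∃ a, ∀ c ∈ R^[k] (initC φ), sat4 a c) ∧
      (¬ Sat φ → ∀ a, min (2 ^ k / ((φ.length + 1 : ℕ) : ℝ)) α
        ≤ avg (R^[k] (initC φ)) fun c => ind (¬ sat4 a c)) := by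
    intro φ k
    induction k with
    | zero =>
      refine ⟨by simp [initC], by simp [hlen], fun ⟨a, ha⟩ => ⟨a, (sat_initC φ a).mpr ha⟩,
        fun hs a => (min_le_left _ _).trans ?_⟩
      rw [pow_zero, ← hlen]
      exact inv_len_le_avg fun ha => hs ⟨a, (sat_initC φ a).mp ha⟩
    | succ k ih =>
      obtain ⟨a1, a2, a3, a4⟩ := ih
      obtain ⟨b1, b2, -, b4, b5⟩ := h _ a1
      rw [Function.iterate_succ_apply']
      refine ⟨b1, b2.trans ?_, fun hs => b4 (a3 hs), fun hs a => le_trans ?_ (b5 _ (a4 hs) a)⟩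
      · rw [pow_succ', mul_assoc]; exact Nat.mul_le_mul_left _ a2
      · rw [mul_min_of_nonneg _ _ (by norm_num : (0 : ℝ) ≤ 2), pow_succ', mul_div_assoc]
        exact le_min (min_le_min le_rfl (by linarith)) (min_le_right _ _)
  refine ⟨min 1 α, lt_min one_pos hα, fun φ => R^[(φ.length + 1).size] (initC φ), ?_, fun φ => ?_⟩
  · obtain ⟨Q, hQ⟩ := pt_initC.size_le
    let L : ℕ[X] := (2 * X) ^ C * X
    refine (PT.foldl (f := fun _ s (_ : Bool) => R s) (l := fun φ : CNF => (φ.length + 1).bits)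
      (pt.comp PT.snd'.fst) (by fun_prop) pt_initC
      ⟨Q + (L * (4 * (4 * ((L + 1) * (C : ℕ[X]) + 1) + 2) + 4 * (Fintype.card P4 : ℕ[X]) + 3 + 1) + 1),
        fun φ k => ?_⟩).congr fun φ => by rw [foldl_iter, Nat.size_eq_bits_len]
    rw [foldl_iter]
    have h1 : ((φ.length + 1).bits.take k).length ≤ (φ.length + 1).size := by
      rw [← Nat.size_eq_bits_len]; simp
    generalize ((φ.length + 1).bits.take k).length = j at h1
    have h2 : φ.length + 1 ≤ sz φ := length_lt_sz φ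
    have h3 : ∀ i ≤ j, (R^[i] (initC φ)).length ≤ L.eval (sz φ) := fun i hi => by
      have h4 : 2 ^ (φ.length + 1).size ≤ 2 * sz φ := by
        have h5 := Nat.size_pos.mpr (Nat.succ_pos φ.length)
        have h6 := Nat.lt_size.mp (Nat.sub_lt h5 one_pos)
        obtain ⟨t, ht⟩ := Nat.exists_eq_succ_of_ne_zero h5.ne'
        rw [ht] at h6 ⊢
        rw [pow_succ']
        simp only [Nat.succ_eq_add_one, Nat.add_sub_cancel] at h6
        omega
      have h5 : C ^ i ≤ (2 * sz φ) ^ C := by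
        refine (Nat.pow_le_pow_left (Nat.lt_two_pow_self).le i).trans ?_
        rw [← pow_mul, mul_comm, pow_mul]
        exact Nat.pow_le_pow_left ((Nat.pow_le_pow_right two_pos (hi.trans h1)).trans h4) _
      simp only [L, eval_mul, eval_pow, eval_X, eval_ofNat]
      exact (key φ i).2.1.trans (Nat.mul_le_mul h5 h2)
    simp only [eval_add, eval_mul, eval_ofNat, eval_one, eval_natCast]
    cases j with
    | zero => exact (hQ φ).trans (Nat.le_add_right _ _)
    | succ j =>
      have h4 := h3 j (by omega)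
      have h5 := h3 (j + 1) le_rfl
      generalize L.eval (sz φ) = M at *
      have h6 := sz_list_le (l := R^[j + 1] (initC φ))
        (B := 4 * (4 * ((M + 1) * C + 1) + 2) + 4 * Fintype.card P4 + 3) fun c hc => by
          rw [Function.iterate_succ_apply'] at hc
          refine sz_con_le c fun i => ((h _ (key φ j).1).2.2.1 c hc i).trans_lt ?_
          refine lt_of_le_of_lt ?_ (Nat.pow_lt_pow_right one_lt_two (Nat.lt_succ_self _))
          rw [pow_mul]
          exact Nat.pow_le_pow_left ((Nat.succ_le_succ h4).trans (Nat.lt_two_pow_self).le) _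
      generalize Fintype.card P4 = K at h6 ⊢
      exact h6.trans ((Nat.succ_le_succ (Nat.mul_le_mul_right _ h5)).trans (Nat.le_add_left _ _))
  · obtain ⟨a1, -, a3, a4⟩ := key φ (φ.length + 1).size
    refine ⟨a1, a3, fun hs a => le_trans (min_le_min ?_ le_rfl) (a4 hs a)⟩
    rw [le_div_iff₀ (by positivity), one_mul]
    exact_mod_cast (Nat.lt_size_self _).le

end Vale.Agent.P325
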