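import Vale.Agent.P325.PTF

/-! One round of gap amplification from preprocessing, powering and alphabet reduction. -/

namespace Vale.Agent.P325

open Vale.Agent.Lib.H23

theorem lin_le_pow (N m : ℕ) (hm : 0 < m) : N * m + 2 ≤ (m + 1) ^ (N + 3) := by
  have h1 : N + 2 ≤ (m + 1) ^ (N + 2) :=
    (Nat.lt_two_pow_self).le.trans (Nat.pow_le_pow_left (by omega) _)
  rw [pow_succ]
  nlinarith

theorem round (hpre : PreStmt) (hpow : PowStmt) (halph : AlphStmt) : RoundStmt := by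
  obtain ⟨d, inv, lam, c1, C1, f1, hd, hinv, hl0, hl1, hc1, pt1, h1⟩ := hpre
  obtain ⟨c2, hc2, h2⟩ := hpow d inv lam hd hinv hl0 hl1
  obtain ⟨c3, hc3, h3⟩ := halph
  obtain ⟨h, hh⟩ := exists_nat_gt (2 / (c3 * c2 * c1))
  have hp : 0 < c3 * c2 * c1 := by positivity
  have hh0 : 0 < h := by
    have : (0 : ℝ) < h := lt_trans (by positivity) hh
    exact_mod_cast this
  rw [div_lt_iff₀ hp] at hh
  obtain ⟨S, i1, i2, i3, C2, f2, pt2, h2⟩ := h2 h hh0
  obtain ⟨C3, f3, pt3, h3⟩ := h3 S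
  refine ⟨c3 * c2, C3 * C2 * C1 + ((C2 + 1) * C1 + 3) * C3, fun l => f3 (f2 (f1 l)),
    by positivity, pt3.comp (pt2.comp pt1), fun l hl => ?_⟩
  obtain ⟨a1, a2, a3, a4, a5⟩ := h1 l hl
  obtain ⟨b1, b2, b3, b4, b5⟩ := h2 _ a1 a3
  obtain ⟨e1, e2, e3, e4, e5⟩ := h3 _ b1
  have l2 : (f2 (f1 l)).length ≤ C2 * (C1 * l.length) := b2.trans (Nat.mul_le_mul_left _ a2)
  refine ⟨e1, ?_, fun c hc j => ?_, fun hs => e4 (b4 (a4 hs)), fun u hu a => ?_⟩
  · refine e2.trans ((Nat.mul_le_mul_left _ l2).trans ?_)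
    rw [add_mul, ← mul_assoc, ← mul_assoc]
    exact Nat.le_add_right _ _
  · have h4 := e3 ((C2 + 1) * C1 * l.length) (by nlinarith [Nat.zero_le (C1 * l.length)])
      (fun e he j => by
        have := b3 e he j
        nlinarith [Nat.zero_le (C2 * (C1 * l.length))]) c hc j
    refine h4.trans ((Nat.pow_le_pow_left (lin_le_pow _ _ (List.length_pos_iff.mpr hl)) _).trans ?_)
    rw [← pow_mul]
    exact Nat.pow_le_pow_right (by omega) (Nat.le_add_left _ _)
  · rcases le_total u 0 with h0 | h0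
    · exact (min_le_left _ _).trans (le_trans (by linarith) (avg_ind_nonneg _ _))
    refine le_trans ?_ (e5 _ (b5 _ (a5 u hu)) a)
    rw [← mul_assoc, mul_min_of_nonneg _ _ (by positivity : 0 ≤ c3 * c2), mul_one]
    refine min_le_min ?_ le_rfl
    nlinarith [mul_le_mul_of_nonneg_right hh.le h0]

end Vale.Agent.P325
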