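import Vale.Agent.P325.Stmt
import Vale.Agent.Lib.helper23.Pad

/-!
Interfaces between the parts of the proof of the Unique Games theorem (see notes/P325.md).
-/

namespace Vale.Agent.P325

open Vale.Agent.Lib.H23 Finset
open scoped BigOperators

instance encFun {n : ℕ} {α : Type} [Enc α] : Enc (Fin n → α) :=
  ⟨fun f => Enc.enc (List.ofFn f)⟩

/-- Wrapper that encodes an element of a finite type by its number. -/
structure Code (A : Type) where
  val : A

noncomputable instance encCode {A : Type} [Fintype A] : Enc (Code A) :=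
  ⟨fun a => Enc.enc ((Fintype.equivFin A a.val : ℕ))⟩

/-- A constraint: `n` variable names and finite data. -/
abbrev Con (n : ℕ) (A : Type) : Type := (Fin n → ℕ) × Code A

/-- Average of `f` over the entries of a list. -/
noncomputable def avg {α : Type} (l : List α) (f : α → ℝ) : ℝ := (l.map f).sum / l.length

open Classical in
/-- Indicator. -/
noncomputable def ind (p : Prop) : ℝ := if p then 1 else 0

/-- Satisfiable predicates on four bits. -/
abbrev P4 : Type := {P : (Fin 4 → Bool) → Bool // ∃ β, P β = true}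

abbrev C4 : Type := Con 4 P4

def sat4 (a : ℕ → Bool) (c : C4) : Prop := c.2.val.1 (fun j => a (c.1 j)) = true

/-- The PCP theorem. -/
def PCPStmt : Prop :=
  ∃ γ : ℝ, 0 < γ ∧ ∃ f : CNF → List C4, PT f ∧ ∀ φ, f φ ≠ [] ∧
    (Sat φ → ∃ a, ∀ c ∈ f φ, sat4 a c) ∧
    (¬ Sat φ → ∀ a, γ ≤ avg (f φ) fun c => ind (¬ sat4 a c))

/-- One round of gap amplification. -/
def RoundStmt : Prop :=
  ∃ (α : ℝ) (C : ℕ) (R : List C4 → List C4), 0 < α ∧ PT R ∧ ∀ l, l ≠ [] →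
    R l ≠ [] ∧ (R l).length ≤ C * l.length ∧ (∀ c ∈ R l, ∀ j, c.1 j ≤ (l.length + 1) ^ C) ∧
    ((∃ a, ∀ c ∈ l, sat4 a c) → ∃ a, ∀ c ∈ R l, sat4 a c) ∧
    ∀ u : ℝ, (∀ a, u ≤ avg l fun c => ind (¬ sat4 a c)) →
      ∀ a, min (2 * u) α ≤ avg (R l) fun c => ind (¬ sat4 a c)

/-- The alphabet of the preprocessed constraint graphs. -/
abbrev S4 : Type := Fin 4 → Bool

/-- A Schreier constraint graph: entry `v` lists the neighbours `nb v i` and the constraints on the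
edges `(v, i)` (a relation between the label of `v` and the label of `nb v i`). -/
abbrev SG (d : ℕ) : Type := List (Con d (Fin d → S4 → S4 → Bool))

/-- Neighbour function (the identity outside the vertex range). -/
def SG.nb {d : ℕ} (G : SG d) (v : ℕ) (i : Fin d) : ℕ :=
  if h : v < G.length then (G.get ⟨v, h⟩).1 i else v

/-- Edge relation. -/
def SG.rel {d : ℕ} (G : SG d) (v : ℕ) (i : Fin d) (s s' : S4) : Bool :=
  if h : v < G.length then (G.get ⟨v, h⟩).2.val i s s' else true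

/-- The maps `nb · i` permute the vertices, `inv` gives the inverses, and the averaging operator
contracts functions of mean zero by the factor `lam`. -/
structure SG.Good {d : ℕ} (G : SG d) (inv : Fin d → Fin d) (lam : ℝ) : Prop where
  lt : ∀ v < G.length, ∀ i, G.nb v i < G.length
  inv_nb : ∀ v < G.length, ∀ i, G.nb (G.nb v i) (inv i) = v
  gap : ∀ f : ℕ → ℝ, ∑ v ∈ range G.length, f v = 0 →
    ∑ v ∈ range G.length, ((∑ i, f (G.nb v i)) / d) ^ 2 ≤ lam ^ 2 * ∑ v ∈ range G.length, f v ^ 2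

/-- Fraction of violated edges. -/
noncomputable def SG.bad {d : ℕ} (G : SG d) (σ : ℕ → S4) : ℝ :=
  (∑ v ∈ range G.length, ∑ i, ind (G.rel v i (σ v) (σ (G.nb v i)) = false)) / (G.length * d)

/-- Preprocessing: degree reduction and expanderization. -/
def PreStmt : Prop :=
  ∃ (d : ℕ) (inv : Fin d → Fin d) (lam c : ℝ) (C : ℕ) (f : List C4 → SG d),
    0 < d ∧ Function.Involutive inv ∧ 0 ≤ lam ∧ lam < 1 ∧ 0 < c ∧ PT f ∧ ∀ l, l ≠ [] →
      f l ≠ [] ∧ (f l).length ≤ C * l.length ∧ (f l).Good inv lam ∧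
      ((∃ a, ∀ c ∈ l, sat4 a c) → ∃ σ : ℕ → S4, ∀ v i, (f l).rel v i (σ v) (σ ((f l).nb v i)) = true) ∧
      ∀ u : ℝ, (∀ a, u ≤ avg l fun c => ind (¬ sat4 a c)) → ∀ σ, c * u ≤ (f l).bad σ

/-- Binary constraints over an alphabet `S`. -/
abbrev C2 (S : Type) : Type := Con 2 (S → S → Bool)

def sat2 {S : Type} (σ : ℕ → S) (c : C2 S) : Prop := c.2.val (σ (c.1 0)) (σ (c.1 1)) = true

/-- Powering. -/
def PowStmt : Prop :=
  ∀ (d : ℕ) (inv : Fin d → Fin d) (lam : ℝ), 0 < d → Function.Involutive inv → 0 ≤ lam → lam < 1 →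
    ∃ c : ℝ, 0 < c ∧ ∀ h : ℕ, 0 < h →
      ∃ (S : Type) (_ : Fintype S) (_ : DecidableEq S) (_ : Nonempty S) (C : ℕ)
        (f : SG d → List (C2 S)), PT f ∧ ∀ G : SG d, G ≠ [] → G.Good inv lam →
        f G ≠ [] ∧ (f G).length ≤ C * G.length ∧ (∀ e ∈ f G, ∀ j, e.1 j < G.length) ∧
        ((∃ σ : ℕ → S4, ∀ v i, G.rel v i (σ v) (σ (G.nb v i)) = true) → ∃ τ, ∀ e ∈ f G, sat2 τ e) ∧
        ∀ u : ℝ, (∀ σ, u ≤ G.bad σ) →
          ∀ τ, c * min (h * u) 1 ≤ avg (f G) fun e => ind (¬ sat2 τ e)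

/-- Alphabet reduction. -/
def AlphStmt : Prop :=
  ∃ c : ℝ, 0 < c ∧ ∀ (S : Type) [Fintype S] [DecidableEq S] [Nonempty S],
    ∃ (C : ℕ) (f : List (C2 S) → List C4), PT f ∧ ∀ l, l ≠ [] →
      f l ≠ [] ∧ (f l).length ≤ C * l.length ∧
      (∀ N : ℕ, l.length ≤ N → (∀ e ∈ l, ∀ j, e.1 j ≤ N) → ∀ c ∈ f l, ∀ j, c.1 j ≤ (N + 2) ^ C) ∧
      ((∃ τ, ∀ e ∈ l, sat2 τ e) → ∃ a, ∀ c ∈ f l, sat4 a c) ∧
      ∀ u : ℝ, (∀ τ, u ≤ avg l fun e => ind (¬ sat2 τ e)) →
        ∀ a, c * u ≤ avg (f l) fun c => ind (¬ sat4 a c)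

open Classical in
/-- Parallel repetition of a projection game mixed with the trivial game (the second player sees
only the coordinates with `m i = true`; the strategy of the second player is any function of
square sum at most one). -/
def RepStmt : Prop :=
  ∀ (E V U A B I : Type) [Fintype E] [Nonempty E] [Fintype A] [Nonempty A] [Fintype B] [Nonempty B]
    [Fintype I] [DecidableEq I] (v : E → V) (u : E → U) (π : E → A → B) (γ : ℝ), 0 ≤ γ → γ ≤ 1 →
    (∀ (f : V → A) (g : U → B), (𝔼 e, ind (π e (f (v e)) = g (u e))) ≤ 1 - γ) →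
    ∀ (F : (I → V) → I → A) (G : (I → Option U) → (I → Option B) → ℝ),
      (∀ q, ∑ b, G q b ^ 2 ≤ 1) →
      (𝔼 e : I → E, 𝔼 m : I → Bool,
          G (fun i => if m i then some (u (e i)) else none)
            (fun i => if m i then some (π (e i) (F (fun j => v (e j)) i)) else none)) ≤
        (1 - γ ^ 2 / 32) ^ Fintype.card I

/-- Projection constraints: name `0` has labels in `A`, name `1` has labels in `B`. -/
abbrev CP (A B : Type) : Type := Con 2 (A → B)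

def satP {A B : Type} (f : ℕ → A) (g : ℕ → B) (c : CP A B) : Prop :=
  c.2.val (f (c.1 0)) = g (c.1 1)

/-- Hardness of label cover with perfect completeness. -/
def LCStmt : Prop :=
  ∀ δ : ℝ, 0 < δ → ∃ (A B : Type) (_ : Fintype A) (_ : DecidableEq A) (_ : Nonempty A)
    (_ : Fintype B) (_ : DecidableEq B) (_ : Nonempty B) (r : CNF → List (CP A B)), PT r ∧
    ∀ φ, r φ ≠ [] ∧ (Sat φ → ∃ f g, ∀ c ∈ r φ, satP f g c) ∧
      (¬ Sat φ → ∀ f g, avg (r φ) (fun c => ind (satP f g c)) ≤ δ)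

/-- Linear equations in three variables, the variable in slot `j` is read from table `j`. -/
abbrev C3 : Type := Con 3 (ZMod 2)

def sat3 (a : Fin 3 → ℕ → ZMod 2) (c : C3) : Prop := ∑ j, a j (c.1 j) = c.2.val

/-- Hardness of linear equations. -/
def HasStmt : Prop :=
  ∀ ε : ℝ, 0 < ε → ∃ r : CNF → List C3, PT r ∧ ∀ φ, r φ ≠ [] ∧
    (Sat φ → ∃ a, 1 - ε ≤ avg (r φ) fun c => ind (sat3 a c)) ∧
    (¬ Sat φ → ∀ a, avg (r φ) (fun c => ind (sat3 a c)) ≤ 3 / 4)

abbrev F2 (n : ℕ) : Type := Fin n → ZMod 2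

/-- The noise gadget: `F (k, x) = k + Fb x` rarely notices the noise, while every linear map of
large rank on `K` notices it almost always. -/
def GadgetStmt : Prop :=
  ∀ η δ : ℝ, 0 < η → 0 < δ → ∃ r : ℕ, ∀ l₀ : ℕ, ∃ (l D n : ℕ) (Fb : F2 D → F2 l)
    (a : Fin (n + 1) → F2 l × F2 D), l₀ ≤ l ∧
    (𝔼 x : F2 D, 𝔼 ω, ind ((a ω).1 + Fb (x + (a ω).2) ≠ Fb x)) ≤ η ∧
    ∀ (Z : Type) [AddCommGroup Z] [Module (ZMod 2) Z] [Fintype Z]
      (Γ : (F2 l × F2 D) →ₗ[ZMod 2] Z),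
      r ≤ Module.finrank (ZMod 2)
        (LinearMap.range (Γ ∘ₗ LinearMap.inl (ZMod 2) (F2 l) (F2 D))) →
      (𝔼 ω, ind (Γ (a ω) = 0)) ≤ δ

open Classical in
/-- Small set expansion of the short code graph (matrices with rows `m` and columns `n`; a zoom
prescribes `A z` for at most `r` vectors `z` and `φ A` for at most `r` covectors `φ`). -/
def SSEStmt : Prop :=
  ∀ ξ : ℝ, 0 < ξ → ∃ (r : ℕ) (ε : ℝ), 0 < ε ∧
    ∀ (m n : Type) [Fintype m] [DecidableEq m] [Fintype n] [DecidableEq n]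
      (S : Finset (Matrix m n (ZMod 2))),
      (∀ (z : Fin r → n → ZMod 2) (φ : Fin r → m → ZMod 2) (T : Matrix m n (ZMod 2)),
        (𝔼 B ∈ (univ.filter fun B : Matrix m n (ZMod 2) =>
            (∀ i, B.mulVec (z i) = 0) ∧ ∀ i, Matrix.vecMul (φ i) B = 0), ind (T + B ∈ S)) ≤ ε) →
      (𝔼 A : Matrix m n (ZMod 2), 𝔼 w : m → ZMod 2, 𝔼 y : n → ZMod 2,
          ind (A ∈ S ∧ A + Matrix.vecMulVec w y ∈ S)) ≤ ξ * 𝔼 A : Matrix m n (ZMod 2), ind (A ∈ S)

/-- Shift constraints: label of name `1` = label of name `0` + shift. -/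
abbrev CU (l : ℕ) : Type := Con 2 (F2 l)

def satU {l : ℕ} (a : ℕ → F2 l) (c : CU l) : Prop := a (c.1 1) = a (c.1 0) + c.2.val

/-- The inner reduction. -/
def InnerStmt : Prop :=
  ∀ ε δ : ℝ, 0 < ε → 0 < δ → ∃ (ε₀ : ℝ) (l : ℕ) (r : List C3 → List (CU l)),
    0 < ε₀ ∧ 1 ≤ l ∧ PT r ∧ ∀ L, L ≠ [] → r L ≠ [] ∧
      ((∃ a, 1 - ε₀ ≤ avg L fun c => ind (sat3 a c)) →
        ∃ b, 1 - ε ≤ avg (r L) fun c => ind (satU b c)) ∧
      ((∀ a, avg L (fun c => ind (sat3 a c)) ≤ 3 / 4) →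
        ∀ b, avg (r L) (fun c => ind (satU b c)) ≤ δ)

end Vale.Agent.P325
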