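import Vale.Agent.P325.Defs

/-!
Fourier analysis on finite vector spaces over `ZMod 2`.
`Perf b` says that `b : W → V → ZMod 2` is a perfect pairing; `hatB b f` are the Fourier coefficients.
`perf_dot` (cubes `A → ZMod 2`, `hat = hatB dotProduct`), `perf_dual` (dual space), `perf_trace` (matrices).
-/

namespace Vale.Agent.P325

open Finset
open scoped BigOperators

/-- The sign character of `ZMod 2`. -/
noncomputable def chi (z : ZMod 2) : ℝ := if z = 0 then 1 else -1

theorem z2_cases (z : ZMod 2) : z = 0 ∨ z = 1 := by revert z; decide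

theorem z2_add_self (z : ZMod 2) : z + z = 0 := by revert z; decide

theorem z2_ne_zero {z : ZMod 2} : z ≠ 0 ↔ z = 1 := by revert z; decide

theorem z2_add_eq_zero {z w : ZMod 2} : z + w = 0 ↔ z = w := by revert z w; decide

@[simp] theorem chi_zero : chi 0 = 1 := if_pos rfl

@[simp] theorem chi_one : chi 1 = -1 := if_neg (by decide)

theorem chi_add (z w : ZMod 2) : chi (z + w) = chi z * chi w := by
  rcases z2_cases z with rfl | rfl <;> rcases z2_cases w with rfl | rfl <;>
    simp [z2_add_self]

@[simp] theorem chi_mul_self (z : ZMod 2) : chi z * chi z = 1 := by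
  rw [← chi_add, z2_add_self, chi_zero]

@[simp] theorem chi_sq (z : ZMod 2) : chi z ^ 2 = 1 := by rw [sq, chi_mul_self]

@[simp] theorem abs_chi (z : ZMod 2) : |chi z| = 1 := by
  rcases z2_cases z with rfl | rfl <;> simp

theorem chi_le_one (z : ZMod 2) : chi z ≤ 1 := (le_abs_self _).trans (abs_chi z).le

theorem chi_sum {ι : Type*} (s : Finset ι) (f : ι → ZMod 2) :
    chi (∑ i ∈ s, f i) = ∏ i ∈ s, chi (f i) := by
  classical
  induction s using Finset.induction_on with
  | empty => simp
  | insert a s ha ih => rw [sum_insert ha, prod_insert ha, chi_add, ih]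

theorem ind_pos {p : Prop} (h : p) : ind p = 1 := if_pos h

theorem ind_neg {p : Prop} (h : ¬ p) : ind p = 0 := if_neg h

theorem ind_nonneg' (p : Prop) : 0 ≤ ind p := by unfold ind; split_ifs <;> norm_num

theorem ind_le_one' (p : Prop) : ind p ≤ 1 := by unfold ind; split_ifs <;> norm_num

theorem ind_not' (p : Prop) : ind (¬ p) = 1 - ind p := by
  by_cases h : p <;> simp [ind, h]

theorem ind_congr' {p q : Prop} (h : p ↔ q) : ind p = ind q := by rw [propext h]

theorem ind_mono' {p q : Prop} (h : p → q) : ind p ≤ ind q := by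
  by_cases hp : p
  · rw [ind_pos hp, ind_pos (h hp)]
  · rw [ind_neg hp]; exact ind_nonneg' q

theorem ind_eq_zero_chi (z : ZMod 2) : ind (z = 0) = (1 + chi z) / 2 := by
  rcases z2_cases z with rfl | rfl
  · rw [ind_pos rfl]; norm_num
  · rw [ind_neg (by decide)]; norm_num

theorem ind_eq_chi (z w : ZMod 2) : ind (z = w) = (1 + chi z * chi w) / 2 := by
  rw [← chi_add, ← ind_eq_zero_chi, z2_add_eq_zero]

theorem ind_ne_chi (z w : ZMod 2) : ind (z ≠ w) = (1 - chi z * chi w) / 2 := by
  rw [ne_eq, ind_not', ind_eq_chi]; ring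

/-- Averages over a finite group are invariant under translation. -/
theorem expect_add_left' {V : Type*} [AddCommGroup V] [Fintype V] (F : V → ℝ) (k : V) :
    𝔼 x, F (k + x) = 𝔼 x, F x :=
  Finset.expect_equiv (Equiv.addLeft k) (by simp) (by simp)

theorem expect_add_right' {V : Type*} [AddCommGroup V] [Fintype V] (F : V → ℝ) (k : V) :
    𝔼 x, F (x + k) = 𝔼 x, F x :=
  Finset.expect_equiv (Equiv.addRight k) (by simp) (by simp)

/-- The sign of a nonzero additive functional has mean zero. -/
theorem expect_chi_eq_zero {V : Type*} [AddCommGroup V] [Fintype V] {L : V → ZMod 2}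
    (hL : ∀ x y, L (x + y) = L x + L y) {k : V} (hk : L k ≠ 0) : 𝔼 x, chi (L x) = 0 := by
  have h := expect_add_left' (fun x => chi (L x)) k
  simp only [hL, chi_add, z2_ne_zero.1 hk, chi_one, neg_one_mul] at h
  rw [Finset.expect_neg_distrib] at h
  linarith

/-- Perfect pairings with values in `ZMod 2`. -/
structure Perf {W V : Type*} [AddCommGroup W] [AddCommGroup V] (b : W → V → ZMod 2) : Prop where
  add_left : ∀ S T x, b (S + T) x = b S x + b T x
  add_right : ∀ S x y, b S (x + y) = b S x + b S y
  sep_left : ∀ S, (∀ x, b S x = 0) → S = 0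
  sep_right : ∀ x, (∀ S, b S x = 0) → x = 0

/-- Fourier coefficients with respect to a pairing. -/
noncomputable def hatB {W V : Type*} [Fintype V] (b : W → V → ZMod 2) (f : V → ℝ) (S : W) : ℝ :=
  𝔼 x, f x * chi (b S x)

namespace Perf

variable {W V : Type*} [AddCommGroup W] [AddCommGroup V] {b : W → V → ZMod 2}

theorem flip (h : Perf b) : Perf fun x S => b S x :=
  ⟨fun x y S => h.add_right S x y, fun x S T => h.add_left S T x, h.sep_right, h.sep_left⟩

theorem zero_left (h : Perf b) (x : V) : b 0 x = 0 := by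
  have := h.add_left 0 0 x
  rwa [add_zero, z2_add_self] at this

theorem zero_right (h : Perf b) (S : W) : b S 0 = 0 := h.flip.zero_left S

theorem add_self (h : Perf b) (x : V) : x + x = 0 :=
  h.sep_right _ fun S => by rw [h.add_right, z2_add_self]

theorem add_eq_zero (h : Perf b) {x y : V} : x + y = 0 ↔ x = y := by
  constructor
  · intro e
    rw [← add_zero x, ← h.add_self y, ← add_assoc, e, zero_add]
  · rintro rfl
    exact h.add_self _

theorem orth [Fintype V] (h : Perf b) (S : W) : 𝔼 x, chi (b S x) = ind (S = 0) := by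
  by_cases hS : S = 0
  · subst hS
    simp [h.zero_left, ind_pos]
  · rw [ind_neg hS]
    obtain ⟨k, hk⟩ := not_forall.1 fun H => hS (h.sep_left S H)
    exact expect_chi_eq_zero (h.add_right S) hk

theorem orth2 [Fintype V] (h : Perf b) (S T : W) :
    𝔼 x, chi (b S x) * chi (b T x) = ind (S = T) := by
  simp only [← chi_add, ← h.add_left]
  rw [h.orth, h.flip.add_eq_zero]

theorem sum_chi [Fintype V] (h : Perf b) (S : W) :
    ∑ x, chi (b S x) = Fintype.card V * ind (S = 0) := by
  rw [← h.orth, Fintype.card_mul_expect]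

variable [Fintype V] [Fintype W]

theorem card_eq (h : Perf b) : (Fintype.card W : ℝ) = Fintype.card V := by
  classical
  have h1 : ∑ S, ∑ x, chi (b S x) = Fintype.card V := by
    simp only [h.sum_chi]
    rw [Finset.sum_eq_single 0 (fun S _ hS => by rw [ind_neg hS, mul_zero]) (by simp),
      ind_pos rfl, mul_one]
  have h2 : ∑ x, ∑ S, chi (b S x) = Fintype.card W := by
    simp only [h.flip.sum_chi]
    rw [Finset.sum_eq_single 0 (fun S _ hS => by rw [ind_neg hS, mul_zero]) (by simp),
      ind_pos rfl, mul_one]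
  rw [← h1, ← h2, Finset.sum_comm]

/-- Fourier inversion. -/
theorem inversion (h : Perf b) (f : V → ℝ) (x : V) : f x = ∑ S, hatB b f S * chi (b S x) := by
  classical
  have hc : (Fintype.card V : ℝ) ≠ 0 := by
    have : Nonempty V := ⟨0⟩
    exact_mod_cast Fintype.card_ne_zero
  unfold hatB
  simp only [Finset.expect_mul, mul_assoc, ← chi_add, ← h.add_right]
  rw [← Finset.expect_sum_comm]
  simp only [← Finset.mul_sum, h.flip.sum_chi, h.add_eq_zero]
  rw [Fintype.expect_eq_sum_div_card, Finset.sum_eq_single x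
    (fun y _ hy => by rw [ind_neg hy]; simp) (by simp), ind_pos rfl, h.card_eq]
  field_simp

/-- Plancherel. -/
theorem plancherel (h : Perf b) (f g : V → ℝ) :
    𝔼 x, f x * g x = ∑ S, hatB b f S * hatB b g S := by
  have h1 : ∀ x, f x * g x = ∑ S, hatB b f S * (g x * chi (b S x)) := fun x => by
    rw [h.inversion f x, Finset.sum_mul]
    exact Finset.sum_congr rfl fun S _ => by ring
  simp only [h1]
  rw [Finset.expect_sum_comm]
  exact Finset.sum_congr rfl fun S _ => by rw [← Finset.mul_expect]; rfl

/-- Parseval. -/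
theorem parseval (h : Perf b) (f : V → ℝ) : ∑ S, hatB b f S ^ 2 = 𝔼 x, f x ^ 2 := by
  simp only [sq]
  exact (h.plancherel f f).symm

theorem parseval_chi (h : Perf b) (F : V → ZMod 2) :
    ∑ S, hatB b (fun x => chi (F x)) S ^ 2 = 1 := by
  have : Nonempty V := ⟨0⟩
  rw [h.parseval]
  simp

omit [Fintype W] in
/-- Translation multiplies the coefficients by a sign. -/
theorem hatB_shift (h : Perf b) (f : V → ℝ) (k : V) (S : W) :
    hatB b (fun x => f (x + k)) S = hatB b f S * chi (b S k) := by
  unfold hatB
  rw [Finset.expect_mul, ← expect_add_right' (fun x => f x * chi (b S x) * chi (b S k)) k]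
  refine Finset.expect_congr rfl fun x _ => ?_
  rw [h.add_right, chi_add, mul_assoc, mul_assoc, chi_mul_self, mul_one]

/-- Autocorrelation. -/
theorem expect_mul_shift (h : Perf b) (f g : V → ℝ) (k : V) :
    𝔼 x, f x * g (x + k) = ∑ S, hatB b f S * hatB b g S * chi (b S k) := by
  rw [h.plancherel f fun x => g (x + k)]
  exact Finset.sum_congr rfl fun S _ => by rw [h.hatB_shift, mul_assoc]

end Perf

theorem perf_dot {A : Type*} [Fintype A] :
    Perf (dotProduct : (A → ZMod 2) → (A → ZMod 2) → ZMod 2) := by
  classical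
  refine ⟨fun S T x => add_dotProduct S T x, fun S x y => dotProduct_add S x y, fun S h => ?_,
    fun x h => ?_⟩
  · funext a
    simpa using h (Pi.single a 1)
  · funext a
    simpa using h (Pi.single a 1)

theorem perf_dual {V : Type*} [AddCommGroup V] [Module (ZMod 2) V] :
    Perf fun (φ : Module.Dual (ZMod 2) V) (x : V) => φ x :=
  ⟨fun _ _ _ => rfl, fun S x y => map_add S x y, fun _ h => LinearMap.ext h,
    fun x h => (Module.forall_dual_apply_eq_zero_iff (ZMod 2) x).1 h⟩

theorem perf_trace {m n : Type*} [Fintype m] [Fintype n] :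
    Perf fun (X : Matrix n m (ZMod 2)) (A : Matrix m n (ZMod 2)) => (X * A).trace := by
  classical
  refine ⟨fun S T x => by rw [Matrix.add_mul, Matrix.trace_add],
    fun S x y => by rw [Matrix.mul_add, Matrix.trace_add], fun S h => ?_, fun x h => ?_⟩
  · ext i j
    simpa [Matrix.trace_mul_single] using h (Matrix.single j i 1)
  · ext i j
    simpa [Matrix.trace_single_mul] using h (Matrix.single j i 1)

/-- Fourier coefficients on a cube. -/
noncomputable abbrev hat {A : Type*} [Fintype A] [DecidableEq A] (f : (A → ZMod 2) → ℝ)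
    (S : A → ZMod 2) : ℝ := hatB dotProduct f S

end Vale.Agent.P325
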