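import Vale.Agent.P325.GadgetUnif
import Vale.Agent.P325.Four

/-!
# Amplification of soundness by lazy sums  (TASK)

`exists_subgroup`: induction on `j` (all `t`).  `X = {p ≤ t} ∋ 0`.  If `x + y + z ∈ X + X` for all
`x, y, z ∈ X` then `H = X + X` is a submodule (`ZMod 2` scalars are `0, 1`).  Otherwise take such
`u = x + y + z ∉ X + X`: `u + X` and `X` are disjoint (`add_self_eq`) subsets of `{p ≤ 4 t}`, so that set is
twice as large; apply the induction hypothesis to `4 t`.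
`sg b = if b = 0 then 1 else -1`; `sg (b + b') = sg b * sg b'`; `ind (z = 0) = 𝔼 χ, sg (χ z)`
(`expect_hom_apply` with `P = ZMod 2`).  `lazy_eq`: expand, `expect_comm`, product over the independent
coordinates (`Finset.prod_univ_sum` / `Fintype.piFinset_univ`), and
`𝔼 (b, ω), sg (χ (Γ (if b then a ω else 0))) = 1 - p χ`, `p χ = 𝔼 ω, ind (χ (Γ (a ω)) ≠ 0)`.
`amp`: `j` with `2 < 2^j δ`, `t = 1 / (64 * 4^j)`, `s` with `(1 - t)^s ≤ δ/2`.  `(1 - p χ)^s ≤ ind (p χ ≤ t) + δ/2`.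
If `𝔼 χ, ind (p χ ≤ t) > δ/2`, `exists_subgroup` gives `H` in the dual with `card dual < 2^j card H`, so
`finrank Z ≤ finrank H + j`; `N = H.dualCoannihilator` has `finrank N ≤ j`
(`Subspace.finrank_add_finrank_dualCoannihilator_eq`); `N.mkQ ∘ Γ` has rank `≥ r₀` on `K` (`rank_quot`), so
`𝔼 ω, ind (Γ a ∉ N) ≥ 1/8`; but `ind (z ∉ N) ≤ 2 𝔼 χ : H, ind (χ z ≠ 0)` (`expect_comp_surj` for the evaluation
`H →+ ZMod 2`), which gives `≤ 2 * (2 * 4^j t) = 1/16`.
-/

namespace Vale.Agent.P325.Gd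

open Finset Module
open scoped BigOperators
open Classical in
theorem exists_subgroup {Z : Type} [AddCommGroup Z] [Module (ZMod 2) Z] [Fintype Z] (p : Z → ℝ)
    (h0 : p 0 = 0) (hadd : ∀ x y, p (x + y) ≤ p x + p y) (j : ℕ) :
    ∀ t : ℝ, 0 ≤ t → Fintype.card Z < 2 ^ j * (univ.filter fun z => p z ≤ t).card →
      ∃ H : Submodule (ZMod 2) Z, (∀ z, p z ≤ t → z ∈ H) ∧ ∀ z ∈ H, p z ≤ 2 * 4 ^ j * t := by
  induction j with
  | zero =>
    intro t _ h
    rw [pow_zero, one_mul] at h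
    exact absurd (card_le_univ _) h.not_ge
  | succ j ih =>
    intro t ht h
    by_cases hc : ∀ x y z, p x ≤ t → p y ≤ t → p z ≤ t → ∃ a b, p a ≤ t ∧ p b ≤ t ∧ x + y + z = a + b
    · have hz : p 0 ≤ t := h0.trans_le ht
      refine ⟨⟨⟨⟨{z | ∃ a b, p a ≤ t ∧ p b ≤ t ∧ z = a + b}, ?_⟩, 0, 0, hz, hz, (add_zero 0).symm⟩,
        ?_⟩, fun z h => ⟨z, 0, h, hz, (add_zero z).symm⟩, ?_⟩
      · rintro _ _ ⟨a, b, ha, hb, rfl⟩ ⟨c, d, hc', hd, rfl⟩
        obtain ⟨a', b', ha', hb', e⟩ := hc a b c ha hb hc'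
        obtain ⟨a'', b'', ha'', hb'', e'⟩ := hc a' b' d ha' hb' hd
        exact ⟨a'', b'', ha'', hb'', by rw [← add_assoc, e, e']⟩
      · intro c z hz'
        rcases z2_cases c with rfl | rfl
        · exact ⟨0, 0, hz, hz, by rw [zero_smul, add_zero]⟩
        · rwa [one_smul]
      · rintro _ ⟨a, b, ha, hb, rfl⟩
        have h1 : (1 : ℝ) ≤ 4 ^ (j + 1) := one_le_pow₀ (by norm_num)
        have h2 := hadd a b
        nlinarith
    · simp only [not_forall, not_exists, not_and] at hc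
      obtain ⟨x, y, z, hx, hy, hz, hu⟩ := hc
      have h1 : p (x + y + z) ≤ 3 * t := by linarith [hadd (x + y) z, hadd x y]
      generalize x + y + z = u at hu h1
      have h2 : Disjoint (univ.filter fun z => p z ≤ t)
          ((univ.filter fun z => p z ≤ t).image (u + ·)) := by
        rw [disjoint_right]
        intro b hb hb'
        obtain ⟨a, ha, rfl⟩ := mem_image.1 hb
        exact hu _ a (mem_filter.1 hb').2 (mem_filter.1 ha).2
          (by rw [add_assoc, add_self_eq, add_zero])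
      have h3 : (univ.filter fun z => p z ≤ t) ∪ ((univ.filter fun z => p z ≤ t).image (u + ·)) ⊆
          univ.filter fun z => p z ≤ 4 * t := by
        intro b hb
        refine mem_filter.2 ⟨mem_univ _, ?_⟩
        rcases mem_union.1 hb with hb | hb
        · linarith [(mem_filter.1 hb).2]
        · obtain ⟨a, ha, rfl⟩ := mem_image.1 hb
          linarith [(mem_filter.1 ha).2, hadd u a]
      have h4 := card_le_card h3
      rw [card_union_of_disjoint h2, card_image_of_injective _ (add_right_injective u)] at h4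
      obtain ⟨H, hH, hH'⟩ := ih (4 * t) (by linarith) (h.trans_le (by
        rw [pow_succ, mul_assoc]
        exact Nat.mul_le_mul_left _ (by omega)))
      refine ⟨H, fun z hz => hH z (by linarith), fun z hz => (hH' z hz).trans (le_of_eq ?_)⟩
      ring

theorem rank_quot {K Z : Type} [AddCommGroup K] [Module (ZMod 2) K] [AddCommGroup Z]
    [Module (ZMod 2) Z] [Finite Z] (f : K →ₗ[ZMod 2] Z) (N : Submodule (ZMod 2) Z) :
    finrank (ZMod 2) (LinearMap.range f) ≤
      finrank (ZMod 2) (LinearMap.range (N.mkQ ∘ₗ f)) + finrank (ZMod 2) N := by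
  have h1 := LinearMap.finrank_range_add_finrank_ker (N.mkQ ∘ₗ (LinearMap.range f).subtype)
  rw [LinearMap.range_comp, Submodule.range_subtype, LinearMap.ker_comp, Submodule.ker_mkQ,
    ← Submodule.finrank_map_subtype_eq] at h1
  rw [LinearMap.range_comp, ← h1]
  exact Nat.add_le_add_left (Submodule.finrank_mono (Submodule.map_comap_le _ _)) _

variable {K : Type} [AddCommGroup K] [Module (ZMod 2) K]

theorem amp_prod {A I : Type} [Fintype A] [DecidableEq A] [Fintype I] (f : A → I → ℝ) :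
    (𝔼 z : A → I, ∏ a, f a (z a)) = ∏ a, 𝔼 i, f a i := by
  simp only [Fintype.expect_eq_sum_div_card]
  rw [Finset.prod_div_distrib, Finset.prod_univ_sum, Fintype.piFinset_univ, prod_const,
    Fintype.card_fun, card_univ]
  push_cast
  rfl

theorem amp_half {V : Type} [Fintype V] [Nonempty V] (F : V → ℝ) :
    (𝔼 x, (1 - F x) / 2) = (1 - 𝔼 x, F x) / 2 := by
  rw [← Finset.expect_div, Finset.expect_sub_distrib, Fintype.expect_const]

theorem lazy_eq (G : Gad K) (s : ℕ) {Z : Type} [AddCommGroup Z] [Module (ZMod 2) Z] [Fintype Z]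
    (Γ : (K × G.V) →ₗ[ZMod 2] Z) :
    𝔼 z : (G.lazy s).Ω, ind (Γ ((G.lazy s).a z) = 0) =
      𝔼 χ : Z →ₗ[ZMod 2] ZMod 2, (1 - 𝔼 ω, ind (χ (Γ (G.a ω)) ≠ 0)) ^ s := by
  have h1 : ∀ z : Z, ind (z = 0) = 𝔼 χ : Z →ₗ[ZMod 2] ZMod 2, chi (χ z) := fun z =>
    (perf_dual.flip.orth z).symm
  simp only [h1]
  rw [expect_comm]
  refine expect_congr rfl fun χ _ => ?_
  change 𝔼 z : Fin s → Bool × G.Ω, chi (χ (Γ (∑ i, if (z i).1 then G.a (z i).2 else 0))) = _
  simp only [map_sum, chi_sum]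
  rw [amp_prod fun (_ : Fin s) (w : Bool × G.Ω) => chi (χ (Γ (if w.1 then G.a w.2 else 0))),
    prod_const, card_univ, Fintype.card_fin, expect_prod']
  congr 1
  simp only [ind_ne_chi, chi_zero, mul_one]
  rw [amp_half, Fintype.expect_eq_sum_div_card, Fintype.sum_bool]
  simp only [if_true, Bool.false_eq_true, if_false, map_zero, chi_zero, Fintype.expect_const,
    Fintype.card_bool]
  push_cast
  ring

theorem amp {δ : ℝ} (hδ : 0 < δ) : ∃ s j : ℕ, ∀ (K : Type) [AddCommGroup K] [Module (ZMod 2) K]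
    (G : Gad K) (r₀ : ℕ), G.Sound r₀ (7 / 8) → (G.lazy s).Sound (r₀ + j) δ := by
  classical
  obtain ⟨j, hj⟩ := pow_unbounded_of_one_lt (2 / δ) (one_lt_two (α := ℝ))
  rw [div_lt_iff₀ hδ] at hj
  obtain ⟨t, ht⟩ : ∃ t : ℝ, t = 1 / (64 * 4 ^ j) := ⟨_, rfl⟩
  have t0 : 0 < t := by rw [ht]; positivity
  obtain ⟨s, hs⟩ := exists_pow_lt_of_lt_one (half_pos hδ) (sub_lt_self 1 t0)
  refine ⟨s, j, fun K _ _ G r₀ hG Z _ _ _ (Γ : (K × G.V) →ₗ[ZMod 2] Z) hr => ?_⟩
  refine (lazy_eq G s Γ).trans_le ?_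
  obtain ⟨p, hp⟩ : ∃ p : (Z →ₗ[ZMod 2] ZMod 2) → ℝ,
    p = fun χ => 𝔼 ω, ind (χ (Γ (G.a ω)) ≠ 0) := ⟨_, rfl⟩
  have p0 : ∀ χ, 0 ≤ p χ := fun χ => hp ▸ const_le_expect fun _ => ind_nonneg _
  have p1 : ∀ χ, p χ ≤ 1 := fun χ => hp ▸ expect_le_const fun _ => ind_le_one _
  have pz : p 0 = 0 := by simp [hp, ind_neg]
  have pa : ∀ x y, p (x + y) ≤ p x + p y := fun x y => by
    rw [hp]
    simp only [← expect_add_distrib]
    refine expect_mono fun ω => le_trans (ind_mono fun h => ?_) (ind_or_le _ _)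
    by_contra h'
    simp only [not_or, not_not] at h'
    exact h (by rw [LinearMap.add_apply, h'.1, h'.2, add_zero])
  by_contra hcon
  have h1 : (𝔼 χ, (1 - p χ) ^ s) ≤ 𝔼 χ, (ind (p χ ≤ t) + δ / 2) := expect_mono fun χ => by
    have h0 : 0 ≤ 1 - p χ := sub_nonneg.2 (p1 χ)
    by_cases h : p χ ≤ t
    · rw [ind_pos h]
      linarith [pow_le_one₀ (n := s) h0 (sub_le_self 1 (p0 χ))]
    · rw [ind_neg h, zero_add]
      exact (pow_le_pow_left₀ h0 (by linarith) s).trans hs.le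
  rw [expect_add_distrib, Fintype.expect_const, expect_ind] at h1
  have hD : (0 : ℝ) < Fintype.card (Z →ₗ[ZMod 2] ZMod 2) := by exact_mod_cast Fintype.card_pos
  have h2 : δ / 2 < ((univ.filter fun χ => p χ ≤ t).card : ℝ) /
      Fintype.card (Z →ₗ[ZMod 2] ZMod 2) := by
    have h3 : δ < 𝔼 χ, (1 - p χ) ^ s := by rw [hp]; exact not_le.1 hcon
    linarith
  rw [lt_div_iff₀ hD] at h2
  have h3 : Fintype.card (Z →ₗ[ZMod 2] ZMod 2) < 2 ^ j * (univ.filter fun χ => p χ ≤ t).card := by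
    have h4 := mul_lt_mul_of_pos_left h2 (pow_pos (two_pos (α := ℝ)) j)
    have h5 := mul_lt_mul_of_pos_right hj hD
    have h6 : (Fintype.card (Z →ₗ[ZMod 2] ZMod 2) : ℝ) <
        2 ^ j * (univ.filter fun χ => p χ ≤ t).card := by linarith
    exact_mod_cast h6
  obtain ⟨H, hH, hH'⟩ := exists_subgroup p pz pa j t t0.le (by convert h3)
  have h4 : (univ.filter fun χ => p χ ≤ t).card ≤ Fintype.card H := by
    rw [Fintype.card_subtype]
    exact card_le_card fun χ h => mem_filter.2 ⟨mem_univ _, hH χ (mem_filter.1 h).2⟩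
  have h5 := h3.trans_le (Nat.mul_le_mul_left _ h4)
  rw [Module.card_eq_pow_finrank (K := ZMod 2), Module.card_eq_pow_finrank (K := ZMod 2) (V := H),
    ZMod.card, ← pow_add, Nat.pow_lt_pow_iff_right one_lt_two, Subspace.dual_finrank_eq] at h5
  have h6 := Subspace.finrank_add_finrank_dualCoannihilator_eq H
  have h7 := rank_quot (Γ ∘ₗ LinearMap.inl (ZMod 2) K G.V) H.dualCoannihilator
  have h6' : finrank (ZMod 2) H.dualCoannihilator < j :=
    Nat.lt_of_add_lt_add_left ((h6.trans_lt h5).trans_eq (add_comm _ _))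
  let _ : Fintype (Z ⧸ H.dualCoannihilator) := Fintype.ofFinite _
  have hr' : r₀ + j ≤ finrank (ZMod 2)
    (LinearMap.range (Γ ∘ₗ LinearMap.inl (ZMod 2) K G.V)) := hr
  have h8 := hG (Z ⧸ H.dualCoannihilator) (H.dualCoannihilator.mkQ ∘ₗ Γ) (by
    rw [LinearMap.comp_assoc]; omega)
  have h9 : ∀ z : Z, 1 - 2 * (𝔼 χ : H, ind (χ.1 z ≠ 0)) ≤ ind (H.dualCoannihilator.mkQ z = 0) := by
    intro z
    by_cases hz : ∀ χ ∈ H, χ z = 0
    · rw [ind_pos (p := H.dualCoannihilator.mkQ z = 0) ((Submodule.Quotient.mk_eq_zero _).2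
        ((Submodule.mem_dualCoannihilator z).2 hz))]
      linarith [const_le_expect fun χ : H => ind_nonneg (χ.1 z ≠ 0)]
    · simp only [not_forall] at hz
      obtain ⟨χ, hχ, hz⟩ := hz
      simp only [ind_ne_chi, chi_zero, mul_one]
      rw [amp_half, expect_chi_eq_zero (L := fun χ : H => χ.1 z) (fun _ _ => rfl)
        (k := ⟨χ, hχ⟩) hz]
      linarith [ind_nonneg (H.dualCoannihilator.mkQ z = 0)]
  have h10 := (expect_mono fun ω => h9 (Γ (G.a ω))).trans h8
  rw [expect_sub_distrib, Fintype.expect_const, ← mul_expect, expect_comm] at h10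
  have h11 : (𝔼 χ : H, 𝔼 ω, ind (χ.1 (Γ (G.a ω)) ≠ 0)) ≤ 2 * 4 ^ j * t :=
    expect_le_const fun χ => by
      have h := hH' χ.1 χ.2
      rwa [hp] at h
  have h12 : 2 * 4 ^ j * t = 1 / 32 := by
    rw [ht]
    field_simp
    norm_num
  linarith

end Vale.Agent.P325.Gd
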