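import Vale.Agent.P325.GadgetGen

/-!
# Random tuples are generic  (TASK)

`exists_cross`: `p = x_s0 * x_s'1 + x_s1 * x_s'0` with `x_sa = ∑ j, C (s j) * X (j, a)`; it is nonzero because
it takes the value `1` at `x (j,0) = α j`, `x (j,1) = β j` where `α · s = 1, α · s' = 0, β · s = 0, β · s' = 1`
(`exists_sep`: `α = single j 1` if `s j = 1, s' j = 0`, else `single j 1 + single k 1` with `s j = 1`,
`s k = 0`, `s' k = 1`).
`sz`: `MvPolynomial.schwartz_zippel_totalDegree` for `map (algebraMap _ F) (rename finProdFinEquiv p)` and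
`S = univ`, transported along `(Fin r → Fin 3 → F) ≃ (Fin (r * 3) → F)`.
`generic_prob`: `p` = product of the polynomials of `exists_cross` over all admissible pairs and of those of
`exists_poly` over all admissible `T`; `aeval c p ≠ 0 → Generic c`; `E = totalDegree p`.
`dep_prob`: union bound (`ind_exists_le`); `c ↦ comb c s` is an additive surjection for `s ≠ 0`
(`expect_comp_surj`).
-/

namespace Vale.Agent.P325.Gd

open Finset Module
open scoped BigOperators
open MvPolynomial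

theorem prob_z2 (z : ZMod 2) : z = 0 ∨ z = 1 := by revert z; decide

theorem prob_one {r : ℕ} {s : F2 r} (hs : s ≠ 0) : ∃ j, s j = 1 := by
  obtain ⟨j, hj⟩ := Function.ne_iff.1 hs
  exact ⟨j, (prob_z2 _).resolve_left hj⟩

theorem exists_sep {r : ℕ} {s s' : F2 r} (hs : s ≠ 0) (h : s ≠ s') :
    ∃ α : F2 r, α ⬝ᵥ s = 1 ∧ α ⬝ᵥ s' = 0 := by
  obtain ⟨j, hj⟩ := prob_one hs
  obtain ⟨k, hk⟩ := Function.ne_iff.1 h
  rcases prob_z2 (s' j) with h1 | h1
  · exact ⟨Pi.single j 1, by simp [hj], by simp [h1]⟩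
  rcases prob_z2 (s' k) with h2 | h2
  · have h3 : s k = 1 := (prob_z2 _).resolve_left (by rwa [h2] at hk)
    exact ⟨Pi.single k 1, by simp [h3], by simp [h2]⟩
  · have h3 : s k = 0 := (prob_z2 _).resolve_right (by rwa [h2] at hk)
    refine ⟨Pi.single j 1 + Pi.single k 1, by simp [add_dotProduct, hj, h3], ?_⟩
    simp only [add_dotProduct, single_dotProduct, one_mul, h1, h2]
    rfl

theorem prob_aeval {r : ℕ} (s : F2 r) (a : Fin 3) (F : Type) [Field F] [Algebra (ZMod 2) F]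
    (c : Fin r → Fin 3 → F) :
    aeval (fun z : Fin r × Fin 3 => c z.1 z.2)
      (∑ j, C (s j) * X (j, a) : MvPolynomial (Fin r × Fin 3) (ZMod 2)) = comb c s a := by
  simp [comb, Algebra.smul_def]

theorem exists_cross {r : ℕ} {s s' : F2 r} (hs : s ≠ 0) (hs' : s' ≠ 0) (h : s ≠ s') :
    ∃ p : MvPolynomial (Fin r × Fin 3) (ZMod 2), p ≠ 0 ∧
      ∀ (F : Type) [Field F] [Algebra (ZMod 2) F] (c : Fin r → Fin 3 → F),
        cr (comb c s) (comb c s') = 0 → aeval (fun z => c z.1 z.2) p = 0 := by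
  refine ⟨(∑ j, C (s j) * X (j, 0)) * (∑ j, C (s' j) * X (j, 1)) +
    (∑ j, C (s j) * X (j, 1)) * (∑ j, C (s' j) * X (j, 0)), fun h0 => ?_, fun F _ _ c hc => ?_⟩
  · obtain ⟨α, a1, a2⟩ := exists_sep hs h
    obtain ⟨β, b1, b2⟩ := exists_sep hs' h.symm
    have h1 := congrArg (eval fun z : Fin r × Fin 3 => ![α z.1, β z.1, 0] z.2) h0
    have e : ∀ t : F2 r,
        eval (fun z : Fin r × Fin 3 => ![α z.1, β z.1, 0] z.2) (∑ j, C (t j) * X (j, 0)) = α ⬝ᵥ t ∧
        eval (fun z : Fin r × Fin 3 => ![α z.1, β z.1, 0] z.2) (∑ j, C (t j) * X (j, 1)) = β ⬝ᵥ t :=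
      fun t => by simp [dotProduct, mul_comm]
    rw [map_add, map_mul, map_mul, map_zero, (e s).1, (e s).2, (e s').1, (e s').2, a1, a2, b1, b2] at h1
    simp at h1
  · rw [map_add, map_mul, map_mul, prob_aeval, prob_aeval, prob_aeval, prob_aeval]
    exact congrFun hc 2

theorem sz {r : ℕ} {p : MvPolynomial (Fin r × Fin 3) (ZMod 2)} (hp : p ≠ 0) (F : Type) [Field F]
    [Algebra (ZMod 2) F] [Fintype F] :
    𝔼 c : Fin r → Fin 3 → F, ind (aeval (fun z => c z.1 z.2) p = 0) ≤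
      (p.totalDegree : ℝ) / Fintype.card F := by
  classical
  have : Fact (Nat.Prime 2) := Nat.fact_prime_two
  set q : MvPolynomial (Fin (r * 3)) F :=
    map (algebraMap (ZMod 2) F) (rename finProdFinEquiv p) with hq
  have hq0 : q ≠ 0 := fun h0 => hp (rename_injective _ finProdFinEquiv.injective
    (map_injective _ (algebraMap (ZMod 2) F).injective (by rw [map_zero, map_zero]; exact h0)))
  have hd : q.totalDegree ≤ p.totalDegree :=
    (Finset.sup_mono (support_map_subset _ _)).trans (totalDegree_rename_le _ _)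
  have h1 := schwartz_zippel_totalDegree hq0 univ
  let e : (Fin (r * 3) → F) ≃ (Fin r → Fin 3 → F) :=
    (finProdFinEquiv.symm.arrowCongr (Equiv.refl F)).trans (Equiv.curry _ _ _)
  have he : ∀ f, aeval (fun z : Fin r × Fin 3 => e f z.1 z.2) p = eval f q := fun f => by
    rw [hq, eval_map, ← aeval_def, aeval_rename]
    rfl
  rw [← expect_equiv' e]
  simp only [he]
  rw [expect_ind, Fintype.card_fun, Fintype.card_fin]
  rw [Fintype.piFinset_univ, card_univ] at h1
  have h2 := (NNRat.cast_le (K := ℝ)).2 h1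
  push_cast at h2 ⊢
  refine h2.trans ?_
  gcongr

theorem generic_prob (r : ℕ) : ∃ E : ℝ, 0 ≤ E ∧ ∀ (F : Type) [Field F] [Algebra (ZMod 2) F]
    [Fintype F], 𝔼 c : Fin r → Fin 3 → F, ind (¬ Generic c) ≤ E / Fintype.card F := by
  classical
  have : Fact (Nat.Prime 2) := Nat.fact_prime_two
  choose p₁ hp₁ h₁ using fun x : {x : F2 r × F2 r // x.1 ≠ 0 ∧ x.2 ≠ 0 ∧ x.1 ≠ x.2} =>
    exists_cross x.2.1 x.2.2.1 x.2.2.2
  choose p₂ hp₂ h₂ using fun T : {T : Finset (F2 r) // (0 : F2 r) ∉ T ∧ 3 * r < T.card} =>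
    exists_poly T.1 T.2.1 T.2.2
  have hp : (∏ x, p₁ x) * ∏ T, p₂ T ≠ 0 :=
    mul_ne_zero (prod_ne_zero_iff.2 fun x _ => hp₁ x) (prod_ne_zero_iff.2 fun x _ => hp₂ x)
  refine ⟨_, Nat.cast_nonneg _, fun F _ _ _ => le_trans (expect_mono fun c => ind_mono fun hc => ?_)
    (sz hp F)⟩
  by_contra h0
  rw [map_mul, map_prod, map_prod, mul_eq_zero, not_or, ← ne_eq, ← ne_eq, prod_ne_zero_iff,
    prod_ne_zero_iff] at h0
  refine hc ⟨fun s s' a b d hcr => h0.1 ⟨(s, s'), a, b, d⟩ (mem_univ _) (h₁ _ F c hcr), fun η => ?_⟩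
  by_contra hT
  exact h0.2 ⟨_, by simp, not_le.1 hT⟩ (mem_univ _)
    (h₂ _ F c η fun s hs => (mem_filter.1 hs).2.2)

theorem dep_prob (r : ℕ) (F : Type) [Field F] [Algebra (ZMod 2) F] [Fintype F] :
    𝔼 c : Fin r → Fin 3 → F, ind (¬ Indep c) ≤ 2 ^ r / (Fintype.card F : ℝ) ^ 3 := by
  classical
  have h1 : ∀ s : F2 r, s ≠ 0 → 𝔼 c : Fin r → Fin 3 → F, ind (comb c s = 0) =
      1 / (Fintype.card F : ℝ) ^ 3 := fun s hs => by
    obtain ⟨j, hj⟩ := prob_one hs
    let f : (Fin r → Fin 3 → F) →+ (Fin 3 → F) := AddMonoidHom.mk' (fun c => comb c s) fun c c' => by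
      simp only [comb, Pi.add_apply, smul_add, sum_add_distrib]
    have hf : Function.Surjective f := fun v => ⟨Pi.single j v, by
      show comb (Pi.single j v) s = v
      rw [comb, sum_eq_single j (fun k _ hk => by rw [Pi.single_eq_of_ne hk, smul_zero]) (by simp),
        Pi.single_eq_same, hj, one_smul]⟩
    refine (expect_comp_surj f hf fun v => ind (v = 0)).trans ?_
    rw [expect_ind, card_eq_one.2 ⟨0, by ext; simp⟩, Fintype.card_fun, Fintype.card_fin]
    push_cast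
    rfl
  calc _ ≤ 𝔼 c : Fin r → Fin 3 → F, ∑ s ∈ univ.erase (0 : F2 r), ind (comb c s = 0) := by
        refine expect_mono fun c => (ind_mono fun hc => ?_).trans (ind_exists_le _ _)
        by_contra h0
        exact hc fun s hs h2 => h0 ⟨s, mem_erase.2 ⟨hs, mem_univ _⟩, h2⟩
    _ = ∑ s ∈ univ.erase (0 : F2 r), 1 / (Fintype.card F : ℝ) ^ 3 := by
        rw [expect_sum_comm]
        exact sum_congr rfl fun s hs => h1 s (mem_erase.1 hs).1
    _ ≤ _ := by
        rw [sum_const, nsmul_eq_mul, mul_one_div]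
        gcongr
        have h2 : (univ.erase (0 : F2 r)).card ≤ 2 ^ r :=
          card_erase_le.trans (by rw [card_univ, Fintype.card_fun, ZMod.card, Fintype.card_fin])
        exact_mod_cast h2

end Vale.Agent.P325.Gd
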