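import Vale.Agent.P325.GadgetField
import Vale.Agent.P325.GadgetProb

/-!
# Rank drops are rare  (TASK)

`line_prob`: a line has at most `q` of the `q³` points (`expect_ind`, image of `a ↦ a • c`).
A killer is an `s` with `∀ p, s ⬝ᵥ ψ p = 0` (`ψ = (tfs c).coprod (tfs η) ∘ Jf v`, `rk` is its rank by `rfl`).
If `0` is the only killer then `rk = r` (`rank_ge_of_card` with `k = 0`, `rank_le`).
`rk_indep`: `rk ≠ r` gives a killer `s ≠ 0`, so `v` is on the line of `comb c s` (`vanish`); union bound.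
`rk_generic`: pointwise `Hn r - Hn rk ≤ Hn r * ind (v = 0) + (1 / r) * ∑ s dangerous, ind (v on line s)`:
for `v ≠ 0` two different nonzero killers `s, s'` give `cr (comb c s) (comb c s') = 0`, so there are at most
two killers and `r ≤ rk + 1` (`k = 1`, `Hn_succ`, `Hn_mono`); at most `3 r` dangerous `s`.
`drop_avg`: replace `c` by `tfs c` (`tfs_bijective`, `expect_equiv'` with `Equiv.ofBijective`); pointwise
`𝔼 v, (..) ≤ 3/q² + H/q³ + ind (¬ Generic c) * H 2^r/q² + ind (¬ Indep c) * H`; take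
`q₀ = max over r ≤ r₀ of Hn r * (1 + E r * 2^r + 2^r)` (e.g. the sum over `r ≤ r₀`).
-/

namespace Vale.Agent.P325.Gd

open Finset Module
open scoped BigOperators
variable {F : Type} [Field F] [Algebra (ZMod 2) F] [Fintype F]

theorem gcount_mem {α : Type} [Fintype α] {p : α → Prop} {d : DecidablePred p} {a : α}
    (h : a ∈ univ.filter p) : p a := (mem_filter.mp h).2

omit [Algebra (ZMod 2) F] in
theorem line_prob (c : Fin 3 → F) :
    𝔼 v : Fin 3 → F, ind (∃ a : F, v = a • c) ≤ 1 / (Fintype.card F : ℝ) ^ 2 := by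
  classical
  have hq : (0 : ℝ) < Fintype.card F := Nat.cast_pos.mpr Fintype.card_pos
  rw [expect_ind, Fintype.card_fun, Fintype.card_fin, Nat.cast_pow, div_le_iff₀ (by positivity)]
  refine le_trans (Nat.cast_le.mpr ((card_le_card (t := univ.image fun a : F => a • c)
    fun v hv => ?_).trans card_image_le)) (le_of_eq ?_)
  · obtain ⟨a, ha⟩ := gcount_mem hv
    exact mem_image.mpr ⟨a, mem_univ _, ha.symm⟩
  · rw [card_univ]
    field_simp

theorem gcount_full {r : ℕ} (c η : Fin r → Fin 3 → F) (v : Fin 3 → F)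
    (h : (core F).rk (tfs c) (tfs η) v ≠ r) :
    ∃ s : F2 r, s ≠ 0 ∧ ∀ p, s ⬝ᵥ ((tfs c).coprod (tfs η) ∘ₗ Jf v) p = 0 := by
  by_contra h1
  have h2 : ∀ s : F2 r, (∀ p, s ⬝ᵥ ((tfs c).coprod (tfs η) ∘ₗ Jf v) p = 0) → s = 0 :=
    fun s hs => by_contra fun h0 => h1 ⟨s, h0, hs⟩
  exact h (le_antisymm (rank_le _) (rank_ge_of_card ((tfs c).coprod (tfs η) ∘ₗ Jf v) 0
    (card_le_one.mpr fun a ha b hb =>
      (h2 a (gcount_mem ha)).trans (h2 b (gcount_mem hb)).symm)))

theorem rk_indep {r : ℕ} {c : Fin r → Fin 3 → F} (h : Indep c) (η : Fin r → Fin 3 → F) :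
    𝔼 v : Fin 3 → F, ind ((core F).rk (tfs c) (tfs η) v ≠ r) ≤
      2 ^ r / (Fintype.card F : ℝ) ^ 2 := by
  have h1 : ∀ v : Fin 3 → F, ind ((core F).rk (tfs c) (tfs η) v ≠ r) ≤
      ∑ s : F2 r, ind (∃ a : F, v = a • comb c s) := fun v =>
    (ind_mono fun hv => by
      obtain ⟨s, hs, hk⟩ := gcount_full c η v hv
      exact ⟨s, mem_univ _, (vanish c η v s (h s hs) hk).1⟩).trans (ind_exists_le univ _)
  refine (expect_mono h1).trans ?_
  rw [expect_sum_comm]
  refine (sum_le_sum fun s _ => line_prob _).trans (le_of_eq ?_)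
  simp [div_eq_mul_inv]

theorem gcount_near {r : ℕ} {c : Fin r → Fin 3 → F} (h : Indep c) (hg : Generic c)
    (η : Fin r → Fin 3 → F) {v : Fin 3 → F} (hv : v ≠ 0) {s : F2 r} (hs : s ≠ 0)
    (hk : ∀ p, s ⬝ᵥ ((tfs c).coprod (tfs η) ∘ₗ Jf v) p = 0) :
    Hn r - Hn ((core F).rk (tfs c) (tfs η) v) ≤ 1 / r := by
  classical
  have h1 : r ≤ (core F).rk (tfs c) (tfs η) v + 1 := by
    refine rank_ge_of_card ((tfs c).coprod (tfs η) ∘ₗ Jf v) 1
      ((card_le_card (t := {0, s}) fun s' hs' => ?_).trans card_le_two)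
    by_contra h2
    rw [mem_insert, mem_singleton, not_or] at h2
    obtain ⟨a, ha⟩ := (vanish c η v s (h s hs) hk).1
    obtain ⟨b, hb⟩ := (vanish c η v s' (h s' h2.1) (gcount_mem hs')).1
    have hb0 : b ≠ 0 := fun h0 => hv (by rw [hb, h0, zero_smul])
    refine hg.1 s' s h2.1 hs h2.2 ?_
    rw [show comb c s' = (b⁻¹ * a) • comb c s by rw [mul_smul, ← ha, hb, inv_smul_smul₀ hb0]]
    exact gfield_cr_self _ _
  cases r with
  | zero => exact absurd (Subsingleton.elim _ _) hs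
  | succ r =>
    have h2 := Hn_mono (Nat.le_of_succ_le_succ h1)
    rw [Hn_succ, Nat.cast_succ]
    linarith

theorem rk_generic {r : ℕ} {c : Fin r → Fin 3 → F} (h : Indep c) (hg : Generic c)
    (η : Fin r → Fin 3 → F) :
    𝔼 v : Fin 3 → F, (Hn r - Hn ((core F).rk (tfs c) (tfs η) v)) ≤
      3 / (Fintype.card F : ℝ) ^ 2 + Hn r / (Fintype.card F : ℝ) ^ 3 := by
  classical
  obtain ⟨D, hD, hD'⟩ : ∃ D : Finset (F2 r), D.card ≤ 3 * r ∧
      ∀ s, s ≠ 0 → Dang (comb c s) (comb η s) → s ∈ D :=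
    ⟨_, hg.2 η, fun s h1 h2 => mem_filter.mpr ⟨mem_univ _, h1, h2⟩⟩
  have hr : (0 : ℝ) ≤ 1 / r := by positivity
  have h1 : ∀ v : Fin 3 → F, Hn r - Hn ((core F).rk (tfs c) (tfs η) v) ≤
      1 / r * ∑ s ∈ D, ind (∃ a : F, v = a • comb c s) + Hn r * ind (v = 0) := fun v => by
    have h2 : 0 ≤ 1 / (r : ℝ) * ∑ s ∈ D, ind (∃ a : F, v = a • comb c s) :=
      mul_nonneg hr (sum_nonneg fun _ _ => ind_nonneg _)
    by_cases hv : v = 0
    · rw [ind_pos hv]
      linarith [Hn_nonneg ((core F).rk (tfs c) (tfs η) v)]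
    · rw [ind_neg hv, mul_zero, add_zero]
      by_cases h3 : (core F).rk (tfs c) (tfs η) v = r
      · rwa [h3, sub_self]
      · obtain ⟨s, hs, hk⟩ := gcount_full c η v h3
        obtain ⟨h4, h5⟩ := vanish c η v s (h s hs) hk
        refine (gcount_near h hg η hv hs hk).trans (le_mul_of_one_le_right hr ?_)
        rw [← ind_pos h4]
        exact single_le_sum (f := fun s => ind (∃ a : F, v = a • comb c s))
          (fun _ _ => ind_nonneg _) (hD' s hs (h5 hv))
  refine (expect_mono h1).trans ?_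
  rw [expect_add_distrib, ← mul_expect, ← mul_expect, expect_sum_comm]
  refine add_le_add ?_ (le_of_eq ?_)
  · refine (mul_le_mul_of_nonneg_left (sum_le_sum fun s _ => line_prob _) hr).trans ?_
    rw [sum_const, nsmul_eq_mul, ← mul_assoc, mul_one_div]
    refine div_le_div_of_nonneg_right ?_ (by positivity)
    rcases Nat.eq_zero_or_pos r with h0 | h0
    · simp [h0]
    · rw [one_div, inv_mul_le_iff₀ (Nat.cast_pos.mpr h0), mul_comm]
      exact_mod_cast hD
  · rw [expect_ind, Fintype.card_fun, Fintype.card_fin, Nat.cast_pow, filter_congr_decidable,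
      filter_eq', if_pos (mem_univ _), card_singleton, Nat.cast_one, mul_one_div]

theorem drop_top {r : ℕ} (hq : 2 ^ (r + 1) ≤ (Fintype.card F : ℝ) ^ 2)
    (c : (Fin 3 → F) →ₗ[ZMod 2] F2 r) (hc : Function.Surjective c)
    (η : (core F).Y →ₗ[ZMod 2] F2 r) : 𝔼 v, ind ((core F).rk c η v ≠ r) ≤ 1 / 2 := by
  obtain ⟨c, rfl⟩ := (tfs_bijective r).2 c
  obtain ⟨η, rfl⟩ := (tfs_bijective (F := F) r).2 η
  refine (rk_indep (indep_of_surjective hc) η).trans ?_
  rw [div_le_iff₀ (lt_of_lt_of_le (by positivity) hq)]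
  rw [pow_succ] at hq
  linarith

theorem gcount_point {r : ℕ} (c η : Fin r → Fin 3 → F) :
    𝔼 v : Fin 3 → F, (Hn r - Hn ((core F).rk (tfs c) (tfs η) v)) ≤
      3 / (Fintype.card F : ℝ) ^ 2 + Hn r / (Fintype.card F : ℝ) ^ 3 +
        Hn r * (2 ^ r / (Fintype.card F : ℝ) ^ 2) * ind (¬ Generic c) + Hn r * ind (¬ Indep c) := by
  have hH := Hn_nonneg r
  have p1 : 0 ≤ 3 / (Fintype.card F : ℝ) ^ 2 + Hn r / (Fintype.card F : ℝ) ^ 3 := by positivity
  have p2 : 0 ≤ Hn r * (2 ^ r / (Fintype.card F : ℝ) ^ 2) * ind (¬ Generic c) :=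
    mul_nonneg (by positivity) (ind_nonneg _)
  have p3 : 0 ≤ Hn r * ind (¬ Indep c) := mul_nonneg hH (ind_nonneg _)
  by_cases h : Indep c
  · by_cases hg : Generic c
    · linarith [rk_generic h hg η]
    · have h1 : 𝔼 v : Fin 3 → F, (Hn r - Hn ((core F).rk (tfs c) (tfs η) v)) ≤
          𝔼 v : Fin 3 → F, Hn r * ind ((core F).rk (tfs c) (tfs η) v ≠ r) := expect_mono fun v => by
        by_cases h2 : (core F).rk (tfs c) (tfs η) v = r
        · rw [ind_neg (not_not.mpr h2), h2, sub_self, mul_zero]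
        · rw [ind_pos h2]
          linarith [Hn_nonneg ((core F).rk (tfs c) (tfs η) v)]
      rw [← mul_expect] at h1
      rw [ind_pos hg]
      linarith [mul_le_mul_of_nonneg_left (rk_indep h η) hH]
  · have h1 : 𝔼 v : Fin 3 → F, (Hn r - Hn ((core F).rk (tfs c) (tfs η) v)) ≤ Hn r :=
      expect_le_const fun v => sub_le_self _ (Hn_nonneg _)
    rw [ind_pos h]
    linarith

theorem drop_avg (r₀ : ℕ) : ∃ q₀ : ℝ, ∀ (F : Type) [Field F] [Algebra (ZMod 2) F] [Fintype F],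
    q₀ ≤ Fintype.card F → ∀ r ≤ r₀,
      ∀ η : ((Fin 3 → F) →ₗ[ZMod 2] F2 r) → (core F).Y →ₗ[ZMod 2] F2 r,
        𝔼 c, 𝔼 v, (Hn r - Hn ((core F).rk c (η c) v)) ≤ 4 / (Fintype.card F : ℝ) ^ 2 := by
  choose E hE0 hE using generic_prob
  refine ⟨∑ r ∈ range (r₀ + 1), Hn r * (1 + E r * 2 ^ r + 2 ^ r), fun F _ _ _ hq r hr η => ?_⟩
  have h1 : Hn r * (1 + E r * 2 ^ r + 2 ^ r) ≤ Fintype.card F :=
    (single_le_sum (f := fun r => Hn r * (1 + E r * 2 ^ r + 2 ^ r)) (fun i _ => by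
      have := Hn_nonneg i
      have := hE0 i
      positivity) (mem_range.mpr (Nat.lt_succ_of_le hr))).trans hq
  have hq0 : (0 : ℝ) < Fintype.card F := Nat.cast_pos.mpr Fintype.card_pos
  have hH := Hn_nonneg r
  rw [← expect_equiv' (Equiv.ofBijective _ (tfs_bijective (F := F) r))]
  have h2 : ∀ c : Fin r → Fin 3 → F, 𝔼 v, (Hn r - Hn ((core F).rk (tfs c) (η (tfs c)) v)) ≤
      3 / (Fintype.card F : ℝ) ^ 2 + Hn r / (Fintype.card F : ℝ) ^ 3 +
        Hn r * (2 ^ r / (Fintype.card F : ℝ) ^ 2) * ind (¬ Generic c) + Hn r * ind (¬ Indep c) := by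
    intro c
    obtain ⟨η', h2⟩ := (tfs_bijective (F := F) r).2 (η (tfs c))
    have h3 := gcount_point c η'
    rw [h2] at h3
    exact h3
  refine (expect_mono h2).trans ?_
  rw [expect_add_distrib, expect_add_distrib, expect_const univ_nonempty, ← mul_expect, ← mul_expect]
  have h3 := mul_le_mul_of_nonneg_left (hE r F)
    (show 0 ≤ Hn r * (2 ^ r / (Fintype.card F : ℝ) ^ 2) by positivity)
  have h4 := mul_le_mul_of_nonneg_left (dep_prob r F) hH
  have e : 3 / (Fintype.card F : ℝ) ^ 2 + Hn r / (Fintype.card F : ℝ) ^ 3 +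
      Hn r * (2 ^ r / (Fintype.card F : ℝ) ^ 2) * (E r / Fintype.card F) +
      Hn r * (2 ^ r / (Fintype.card F : ℝ) ^ 3) =
        (3 + Hn r * (1 + E r * 2 ^ r + 2 ^ r) / Fintype.card F) / (Fintype.card F : ℝ) ^ 2 := by
    field_simp
    ring
  have h5 : (3 + Hn r * (1 + E r * 2 ^ r + 2 ^ r) / Fintype.card F) / (Fintype.card F : ℝ) ^ 2 ≤
      4 / (Fintype.card F : ℝ) ^ 2 :=
    div_le_div_of_nonneg_right (by linarith [(div_le_one hq0).mpr h1]) (by positivity)
  linarith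

end Vale.Agent.P325.Gd
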