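import Vale.Agent.P325.GadgetRec
import Vale.Agent.P325.GadgetCount
import Vale.Agent.P325.GadgetAmp

/-!
# The noise gadget: assembly
-/

namespace Vale.Agent.P325.Gd

open Finset Module
open scoped BigOperators
theorem pre {η : ℝ} (hη : 0 < η) : ∃ r₀ : ℕ, ∀ l₀ : ℕ, ∃ (K : Type) (_ : AddCommGroup K)
    (_ : Module (ZMod 2) K) (_ : Fintype K) (G : Gad K),
    l₀ ≤ finrank (ZMod 2) K ∧ G.err ≤ η ∧ G.Sound r₀ (7 / 8) := by
  obtain ⟨C, hC⟩ : ∃ C : ℕ, Real.exp (-(C : ℝ)) ≤ η := by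
    obtain ⟨C, hC⟩ := exists_nat_ge (-Real.log η)
    exact ⟨C, by rw [← Real.exp_log hη]; exact Real.exp_le_exp.2 (by linarith)⟩
  obtain ⟨r₀, hr₀, hH⟩ := Hn_large (8 * C + 8)
  obtain ⟨q₀, hq₀⟩ := drop_avg r₀
  refine ⟨r₀, fun l₀ => ?_⟩
  obtain ⟨m₀, hm₀⟩ := exists_nat_ge (max q₀ (Hn r₀))
  set m := m₀ + l₀ + r₀ + 1 with hm
  have hm0 : m ≠ 0 := by omega
  let _ : Fintype (GaloisField 2 m) := Fintype.ofFinite _
  have hcard : Fintype.card (GaloisField 2 m) = 2 ^ m := by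
    rw [← Nat.card_eq_fintype_card, GaloisField.card 2 m hm0]
  set q : ℝ := (Fintype.card (GaloisField 2 m) : ℝ) with hq
  have hq2 : q = 2 ^ m := by rw [hq, hcard]; push_cast; rfl
  have hmq : (m : ℝ) ≤ q := by
    rw [hq2]; exact_mod_cast Nat.lt_two_pow_self.le
  have hm1 : (m₀ : ℝ) ≤ m := by exact_mod_cast (by omega : m₀ ≤ m)
  have hq1 : 1 ≤ q := by rw [hq2]; exact one_le_pow₀ one_le_two
  have hqq : 1 ≤ q ^ 2 := one_le_pow₀ hq1
  have hκ : 1 / q ^ 2 ≤ 1 := by rw [div_le_one (by positivity)]; exact hqq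
  have hD : Hn r₀ ≤ 4 / q ^ 2 * Fintype.card (Fin 3 → GaloisField 2 m) := by
    rw [Fintype.card_fun, Fintype.card_fin]
    push_cast
    rw [← hq, show 4 / q ^ 2 * q ^ 3 = 4 * q by field_simp]
    linarith [le_max_right q₀ (Hn r₀)]
  obtain ⟨G, h1, h2⟩ := rec_main (core (GaloisField 2 m)) (κ := 1 / q ^ 2) (θ := 4 / q ^ 2) hr₀
    (by positivity) hκ surv_le (hq₀ _ (by linarith [le_max_left q₀ (Hn r₀)])) hD
    (C * (2 ^ m) ^ 2)
  refine ⟨Fin 3 → GaloisField 2 m, inferInstance, inferInstance, inferInstance,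
    (core (GaloisField 2 m)).step G, ?_, ?_, top _ G (drop_top ?_) ?_⟩
  · rw [Module.finrank_pi_fintype, GaloisField.finrank 2 hm0]
    simp only [sum_const, card_univ, Fintype.card_fin, smul_eq_mul]
    omega
  · have h3 : (1 - 1 / q ^ 2) ^ (C * (2 ^ m) ^ 2) ≤ Real.exp (-(1 / q ^ 2)) ^ (C * (2 ^ m) ^ 2) :=
      pow_le_pow_left₀ (by linarith) (by linarith [Real.add_one_le_exp (-(1 / q ^ 2))]) _
    rw [← Real.exp_nat_mul] at h3
    have h4 : ((C * (2 ^ m) ^ 2 : ℕ) : ℝ) * -(1 / q ^ 2) = -(C : ℝ) := by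
      push_cast
      rw [← hq2]
      field_simp
    rw [h4] at h3
    have h5 : (core (GaloisField 2 m)).surv ≤ 1 := surv_le.trans (sub_le_self _ (by positivity))
    calc _ ≤ _ := err_step _ G
      _ ≤ 1 * G.err := mul_le_mul_of_nonneg_right h5 (err_nonneg G)
      _ ≤ η := by linarith
  · rw [← hq, hq2, ← pow_mul]
    exact pow_le_pow_right₀ one_le_two (by omega)
  · refine le_trans ?_ (h2 r₀ le_rfl)
    have hH0 : 0 < Hn r₀ := by linarith [(Nat.cast_nonneg C : (0 : ℝ) ≤ C)]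
    have h4 : (((C * (2 ^ m) ^ 2 : ℕ) : ℝ) + 1) * (4 / q ^ 2) = 4 * C + 4 * (1 / q ^ 2) := by
      push_cast
      rw [← hq2]
      field_simp
    rw [h4, le_div_iff₀ (by positivity)]
    linarith

theorem transport {K : Type} [AddCommGroup K] [Module (ZMod 2) K] [Fintype K] (G : Gad K) {r : ℕ}
    {η δ : ℝ} (h1 : G.err ≤ η) (h2 : G.Sound r δ) :
    ∃ (D n : ℕ) (Fb : F2 D → F2 (finrank (ZMod 2) K))
      (a : Fin (n + 1) → F2 (finrank (ZMod 2) K) × F2 D),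
      (𝔼 x : F2 D, 𝔼 ω, ind ((a ω).1 + Fb (x + (a ω).2) ≠ Fb x)) ≤ η ∧
      ∀ (Z : Type) [AddCommGroup Z] [Module (ZMod 2) Z] [Fintype Z]
        (Γ : (F2 (finrank (ZMod 2) K) × F2 D) →ₗ[ZMod 2] Z),
        r ≤ finrank (ZMod 2) (LinearMap.range
          (Γ ∘ₗ LinearMap.inl (ZMod 2) (F2 (finrank (ZMod 2) K)) (F2 D))) →
        (𝔼 ω, ind (Γ (a ω) = 0)) ≤ δ := by
  let eK : K ≃ₗ[ZMod 2] F2 (finrank (ZMod 2) K) := (Module.finBasis (ZMod 2) K).equivFun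
  let eV : G.V ≃ₗ[ZMod 2] F2 (finrank (ZMod 2) G.V) := (Module.finBasis (ZMod 2) G.V).equivFun
  obtain ⟨n, hn⟩ : ∃ n, Fintype.card G.Ω = n + 1 :=
    Nat.exists_eq_succ_of_ne_zero Fintype.card_ne_zero
  let eΩ : G.Ω ≃ Fin (n + 1) := Fintype.equivFinOfCardEq hn
  refine ⟨finrank (ZMod 2) G.V, n, fun x => eK (G.Fb (eV.symm x)),
    fun ω => (eK (G.a (eΩ.symm ω)).1, eV (G.a (eΩ.symm ω)).2), ?_, fun Z _ _ _ Γ hΓ => ?_⟩
  · refine le_of_eq_of_le ?_ h1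
    rw [← expect_equiv' eV.toEquiv]
    refine expect_congr rfl fun x _ => ?_
    rw [← expect_equiv' eΩ]
    refine expect_congr rfl fun ω _ => ind_congr (not_congr ?_)
    simp only [LinearEquiv.coe_toEquiv, Equiv.symm_apply_apply, ← map_add,
      LinearEquiv.symm_apply_apply, EmbeddingLike.apply_eq_iff_eq]
  · refine le_of_eq_of_le ?_ (h2 Z (Γ ∘ₗ (eK.prodCongr eV).toLinearMap) ?_)
    · rw [← expect_equiv' eΩ]
      refine expect_congr rfl fun ω _ => ind_congr ?_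
      simp only [Equiv.symm_apply_apply]
      rfl
    · have h3 : (Γ ∘ₗ (eK.prodCongr eV).toLinearMap) ∘ₗ LinearMap.inl (ZMod 2) K G.V =
          (Γ ∘ₗ LinearMap.inl (ZMod 2) _ _) ∘ₗ eK.toLinearMap := by
        ext k
        simp
      rw [h3, LinearMap.range_comp_of_range_eq_top _ eK.range]
      exact hΓ

end Vale.Agent.P325.Gd

namespace Vale.Agent.P325

theorem gadget : GadgetStmt := by
  intro η δ hη hδ
  obtain ⟨s, j, hamp⟩ := Gd.amp hδ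
  obtain ⟨r₀, h⟩ := Gd.pre (η := η / (s + 1)) (by positivity)
  refine ⟨r₀ + j, fun l₀ => ?_⟩
  obtain ⟨K, _, _, _, G, hl, h1, h2⟩ := h l₀
  have h3 : (G.lazy s).err ≤ η := by
    refine (Gd.err_lazy G s).trans ?_
    calc (s : ℝ) * G.err ≤ (s + 1) * (η / (s + 1)) :=
          mul_le_mul (by linarith) h1 (Gd.err_nonneg G) (by positivity)
      _ = η := by field_simp
  obtain ⟨D, n, Fb, a, h4, h5⟩ := Gd.transport (G.lazy s) h3 (hamp K G r₀ h2)
  exact ⟨_, D, n, Fb, a, hl, h4, h5⟩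

end Vale.Agent.P325
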