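import Vale.Agent.P325.Defs

/-!
# The noise gadget: definitions (see the section GADGET of notes/P325.md)

`Gad K`: a function `(k, x) ↦ k + Fb x` on `K × V` and a noise `a : Ω → K × V`.
`Core K`: the data of one recursion step; `Core.step` is the step.  `core F` is the core over a finite
field `F` of characteristic two with `K = Y = F³`.
-/

namespace Vale.Agent.P325.Gd

open Finset Module
open scoped BigOperators

noncomputable scoped instance homFintype {A B : Type} [AddCommGroup A] [Module (ZMod 2) A]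
    [Finite A] [AddCommGroup B] [Module (ZMod 2) B] [Finite B] : Fintype (A →ₗ[ZMod 2] B) :=
  haveI : Finite (A →ₗ[ZMod 2] B) := Finite.of_injective _ DFunLike.coe_injective
  Fintype.ofFinite _

/-- A function `(k, x) ↦ k + Fb x` on `K × V` with a noise `a`. -/
structure Gad (K : Type) where
  V : Type
  [acg : AddCommGroup V]
  [mod : Module (ZMod 2) V]
  [fin : Fintype V]
  Ω : Type
  [finΩ : Fintype Ω]
  [neΩ : Nonempty Ω]
  Fb : V → K
  a : Ω → K × V

attribute [instance] Gad.acg Gad.mod Gad.fin Gad.finΩ Gad.neΩ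

/-- The data of one recursion step. -/
structure Core (K : Type) [AddCommGroup K] [Module (ZMod 2) K] where
  Y : Type
  [acgY : AddCommGroup Y]
  [modY : Module (ZMod 2) Y]
  [finY : Fintype Y]
  P : Type
  [acgP : AddCommGroup P]
  [modP : Module (ZMod 2) P]
  [finP : Fintype P]
  W : Type
  [finW : Fintype W]
  [neW : Nonempty W]
  J : W → P →ₗ[ZMod 2] K × Y
  g : Y → K

attribute [instance] Core.acgY Core.modY Core.finY Core.acgP Core.modP Core.finP Core.finW Core.neW

/-- Harmonic numbers. -/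
noncomputable def Hn (r : ℕ) : ℝ := ∑ i ∈ range r, 1 / ((i : ℝ) + 1)

section Abstract

variable {K : Type} [AddCommGroup K] [Module (ZMod 2) K]

/-- Probability that the noise changes the value of the function. -/
noncomputable def Gad.err (G : Gad K) : ℝ :=
  𝔼 x : G.V, 𝔼 ω : G.Ω, ind ((G.a ω).1 + G.Fb (x + (G.a ω).2) ≠ G.Fb x)

/-- Probability that the linear map `(c, μ)` notices the noise. -/
noncomputable def Gad.det (G : Gad K) {r : ℕ} (c : K →ₗ[ZMod 2] F2 r) (μ : G.V →ₗ[ZMod 2] F2 r) :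
    ℝ :=
  𝔼 ω : G.Ω, ind (c (G.a ω).1 + μ (G.a ω).2 ≠ 0)

/-- The least detection probability of a lift of `c`. -/
noncomputable def Gad.phi (G : Gad K) {r : ℕ} (c : K →ₗ[ZMod 2] F2 r) : ℝ :=
  ⨅ μ : G.V →ₗ[ZMod 2] F2 r, G.det c μ

/-- Average of `phi` over uniform `c`. -/
noncomputable def Gad.LL [Fintype K] (G : Gad K) (r : ℕ) : ℝ := 𝔼 c : K →ₗ[ZMod 2] F2 r, G.phi c

/-- Every linear map of rank at least `r` on `K` misses the noise with probability at most `δ`. -/
def Gad.Sound (G : Gad K) (r : ℕ) (δ : ℝ) : Prop :=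
  ∀ (Z : Type) [AddCommGroup Z] [Module (ZMod 2) Z] [Fintype Z] (Γ : (K × G.V) →ₗ[ZMod 2] Z),
    r ≤ finrank (ZMod 2) (LinearMap.range (Γ ∘ₗ LinearMap.inl (ZMod 2) K G.V)) →
    (𝔼 ω, ind (Γ (G.a ω) = 0)) ≤ δ

/-- The noise is the sum of `s` lazy copies. -/
noncomputable def Gad.lazy (G : Gad K) (s : ℕ) : Gad K where
  V := G.V
  Ω := Fin s → Bool × G.Ω
  Fb := G.Fb
  a z := ∑ i, if (z i).1 then G.a (z i).2 else 0

/-- Index set of the children. -/
abbrev Core.I (C : Core K) : Type := C.W × (K →ₗ[ZMod 2] C.P)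

noncomputable instance Core.decI (C : Core K) : DecidableEq C.I := Classical.decEq _

/-- The linear map attached to a child. -/
noncomputable def Core.A (C : Core K) (i : C.I) : K →ₗ[ZMod 2] K × C.Y := C.J i.1 ∘ₗ i.2

/-- Probability that a uniform error survives the step. -/
noncomputable def Core.surv (C : Core K) : ℝ :=
  𝔼 v : C.W, 𝔼 p : C.P, 𝔼 y : C.Y, ind ((C.J v p).1 + C.g (y + (C.J v p).2) ≠ C.g y)

/-- Rank of the pull-back of `(c, η)` along `J v`. -/
noncomputable def Core.rk (C : Core K) {r : ℕ} (c : K →ₗ[ZMod 2] F2 r) (η : C.Y →ₗ[ZMod 2] F2 r)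
    (v : C.W) : ℕ :=
  finrank (ZMod 2) (LinearMap.range (c.coprod η ∘ₗ C.J v))

variable [Fintype K]

/-- The contribution of the children. -/
noncomputable def Core.S (C : Core K) (G : Gad K) (xb : C.I → G.V) : K × C.Y :=
  ∑ i, C.A i (G.Fb (xb i))

/-- One recursion step. -/
noncomputable def Core.step (C : Core K) (G : Gad K) : Gad K where
  V := C.Y × (C.I → G.V)
  Ω := C.I × G.Ω
  Fb z := (C.S G z.2).1 + C.g (z.1 + (C.S G z.2).2)
  a z := ((C.A z.1 (G.a z.2).1).1, (C.A z.1 (G.a z.2).1).2, Pi.single z.1 (G.a z.2).2)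

end Abstract

section FieldCore

variable {F : Type} [Field F]

/-- The quadratic map. -/
def gq (y : Fin 3 → F) : Fin 3 → F := ![y 1 * y 2, y 0 * y 2, y 0 * y 1]

/-- The cross product in characteristic two. -/
def cr (w v : Fin 3 → F) : Fin 3 → F :=
  ![w 1 * v 2 + w 2 * v 1, w 0 * v 2 + w 2 * v 0, w 0 * v 1 + w 1 * v 0]

/-- Dangerous pairs. -/
def Dang (c η : Fin 3 → F) : Prop := c 0 * c 1 * c 2 = (η ⬝ᵥ c) ^ 2

variable [Algebra (ZMod 2) F]

theorem two_eq_zero' : (2 : F) = 0 := by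
  have h : (2 : F) = algebraMap (ZMod 2) F 2 := (map_ofNat _ 2).symm
  rw [h, show (2 : ZMod 2) = 0 from rfl, map_zero]

theorem add_sq' (a b : F) : (a + b) ^ 2 = a ^ 2 + b ^ 2 := by
  linear_combination (a * b) * (two_eq_zero' (F := F))

/-- `J v (t, w) = (t² g v + w × v, t v)`. -/
def Jf (v : Fin 3 → F) : F × (Fin 3 → F) →ₗ[ZMod 2] (Fin 3 → F) × (Fin 3 → F) :=
  AddMonoidHom.toZModLinearMap 2 <| AddMonoidHom.mk' (fun p => (p.1 ^ 2 • gq v + cr p.2 v, p.1 • v))
    fun p p' => by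
      refine Prod.ext ?_ (add_smul _ _ _)
      funext i
      fin_cases i <;> simp [gq, cr, add_sq'] <;> ring

theorem Jf_apply (v : Fin 3 → F) (p : F × (Fin 3 → F)) :
    Jf v p = (p.1 ^ 2 • gq v + cr p.2 v, p.1 • v) := rfl

/-- Combination of `r` vectors with coefficients in `ZMod 2`. -/
def comb {r : ℕ} (c : Fin r → Fin 3 → F) (s : F2 r) : Fin 3 → F := ∑ j, s j • c j

/-- No nontrivial combination vanishes. -/
def Indep {r : ℕ} (c : Fin r → Fin 3 → F) : Prop := ∀ s : F2 r, s ≠ 0 → comb c s ≠ 0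

open Classical in
/-- Generic tuples. -/
def Generic {r : ℕ} (c : Fin r → Fin 3 → F) : Prop :=
  (∀ s s' : F2 r, s ≠ 0 → s' ≠ 0 → s ≠ s' → cr (comb c s) (comb c s') ≠ 0) ∧
    ∀ η : Fin r → Fin 3 → F,
      (univ.filter fun s : F2 r => s ≠ 0 ∧ Dang (comb c s) (comb η s)).card ≤ 3 * r

/-- The functional `x ↦ Tr (c · x)`. -/
noncomputable def tf (c : Fin 3 → F) : (Fin 3 → F) →ₗ[ZMod 2] ZMod 2 :=
  AddMonoidHom.toZModLinearMap 2 <| AddMonoidHom.mk' (fun x => Algebra.trace (ZMod 2) F (c ⬝ᵥ x))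
    fun x x' => by rw [dotProduct_add, map_add]

theorem tf_apply (c x : Fin 3 → F) : tf c x = Algebra.trace (ZMod 2) F (c ⬝ᵥ x) := rfl

/-- The linear map with components `tf (c j)`. -/
noncomputable def tfs {r : ℕ} (c : Fin r → Fin 3 → F) : (Fin 3 → F) →ₗ[ZMod 2] F2 r :=
  LinearMap.pi fun j => tf (c j)

variable (F) [Fintype F]

/-- The core over `F`. -/
noncomputable def core : Core (Fin 3 → F) where
  Y := Fin 3 → F
  P := F × (Fin 3 → F)
  W := Fin 3 → F
  J := Jf
  g := gq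

end FieldCore

end Vale.Agent.P325.Gd
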