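import Vale.Agent.P325.GadgetUnif

/-!
# Completeness of one step and of the lazy sum  (TASK)

`err_step`: write `(C.step G).V = C.Y × (C.I → G.V)`, `Ω = C.I × G.Ω` (`expect_prod'`, `expect_comm`).
Fix `i, ω`, `(k, x) = G.a ω`, `xb`; put `d = k + Fb (xb i + x) + Fb (xb i)`.  In characteristic two
(`add_self_eq`) `S (xb + single i x) + A i k = S xb + A i d` (`S_single`), so after the translation
`y ↦ y + (S xb).2` (`expect_add_right`) the event is `(A i d).1 + g (y + (A i d).2) ≠ g y`.  It depends on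
`xb` only through `xb i` (`expect_apply`).  For `d = 0` the event is empty; for `d ≠ 0` the average over
`i = (v, R)` is `surv` (`expect_hom_apply`).  And `d ≠ 0 ↔ k + Fb (x' + x) ≠ Fb x'`.
`err_lazy`: for fixed `z : Fin s → Bool × Ω` and elements `b i` of `K × V`, telescoping gives
`𝔼 x, ind (bad (∑ b) x) ≤ ∑ i, 𝔼 x, ind (bad (b i) x)` (induction on a finset with
`bad (b + b') x → bad b x ∨ bad b' (x + b.2)` and `expect_add_right`); then `expect_apply`, and
`bad 0 x` is false.
-/

namespace Vale.Agent.P325.Gd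

open Finset Module
open scoped BigOperators
variable {K : Type} [AddCommGroup K] [Module (ZMod 2) K]

theorem err_nonneg (G : Gad K) : 0 ≤ G.err :=
  expect_nonneg fun _ _ => expect_nonneg fun _ _ => ind_nonneg _

theorem err_le_one (G : Gad K) : G.err ≤ 1 :=
  expect_le_const fun _ => expect_le_const fun _ => ind_le_one _

theorem err_tele (G : Gad K) {ι : Type} (t : Finset ι) (b : ι → K × G.V) :
    𝔼 x : G.V, ind ((∑ i ∈ t, b i).1 + G.Fb (x + (∑ i ∈ t, b i).2) ≠ G.Fb x) ≤
      ∑ i ∈ t, 𝔼 x : G.V, ind ((b i).1 + G.Fb (x + (b i).2) ≠ G.Fb x) := by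
  classical
  induction t using Finset.induction_on with
  | empty => exact expect_le_const fun x => by rw [ind_neg (by simp)]; simp
  | insert j t hj ih =>
    rw [sum_insert hj, sum_insert hj]
    refine le_trans ?_ (add_le_add_right ih _)
    rw [← expect_add_right (fun x => ind ((∑ i ∈ t, b i).1 + G.Fb (x + (∑ i ∈ t, b i).2) ≠ G.Fb x))
      (b j).2, ← expect_add_distrib]
    refine expect_mono fun x => le_trans (ind_mono fun h => ?_) (ind_or_le _ _)
    by_contra hc
    push Not at hc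
    apply h
    rw [Prod.fst_add, Prod.snd_add, ← add_assoc x, add_assoc (b j).1, hc.2, hc.1]

theorem err_lazy (G : Gad K) (s : ℕ) : (G.lazy s).err ≤ s * G.err := by
  have h1 : (G.lazy s).err = 𝔼 z : Fin s → Bool × G.Ω, 𝔼 x : G.V,
      ind ((∑ i, if (z i).1 then G.a (z i).2 else 0).1 +
        G.Fb (x + (∑ i, if (z i).1 then G.a (z i).2 else 0).2) ≠ G.Fb x) := expect_comm _ _ _
  rw [h1]
  refine le_trans (expect_mono fun z => err_tele G univ _) ?_
  rw [expect_sum_comm]
  refine le_trans (sum_le_card_nsmul _ _ G.err fun i _ => ?_) (by simp)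
  rw [expect_apply i fun q : Bool × G.Ω => 𝔼 x : G.V,
    ind ((if q.1 then G.a q.2 else 0).1 + G.Fb (x + (if q.1 then G.a q.2 else 0).2) ≠ G.Fb x),
    expect_prod']
  refine expect_le_const fun t => ?_
  cases t
  · refine le_trans (expect_le_const fun ω => expect_le_const fun x => ?_) (err_nonneg G)
    rw [ind_neg (by simp)]
  · exact le_of_eq (expect_comm _ _ _)

variable [Fintype K]

theorem S_single (C : Core K) (G : Gad K) (xb : C.I → G.V) (i : C.I) (k : K) (x : G.V) :
    C.S G (xb + Pi.single i x) + C.A i k =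
      C.S G xb + C.A i (k + G.Fb (xb i + x) + G.Fb (xb i)) := by
  unfold Core.S
  rw [← add_sum_erase _ _ (mem_univ i), ← add_sum_erase _ (fun j => C.A j (G.Fb (xb j))) (mem_univ i),
    sum_congr rfl (g := fun j => C.A j (G.Fb (xb j))) fun j hj => by
      rw [Pi.add_apply, Pi.single_eq_of_ne (ne_of_mem_erase hj), add_zero]]
  simp only [Pi.add_apply, Pi.single_eq_same, map_add]
  have h := add_self_eq (C.A i (G.Fb (xb i)))
  generalize C.A i (G.Fb (xb i)) = p at h ⊢
  generalize C.A i (G.Fb (xb i + x)) = q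
  generalize C.A i k = r
  generalize (∑ j ∈ univ.erase i, C.A j (G.Fb (xb j))) = t
  calc q + t + r = q + t + r + (p + p) := by rw [h, add_zero]
    _ = _ := by abel

theorem err_avg (C : Core K) (d : K) :
    𝔼 i : C.I, 𝔼 y : C.Y, ind ((C.A i d).1 + C.g (y + (C.A i d).2) ≠ C.g y) =
      C.surv * ind (d ≠ 0) := by
  by_cases hd : d = 0
  · rw [ind_neg (not_not.2 hd), mul_zero]
    refine expect_eq_zero fun i _ => expect_eq_zero fun y _ => ind_neg ?_
    simp [hd]
  · rw [ind_pos hd, mul_one, expect_prod']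
    exact expect_congr rfl fun v _ => expect_hom_apply hd fun p =>
      𝔼 y : C.Y, ind ((C.J v p).1 + C.g (y + (C.J v p).2) ≠ C.g y)

theorem err_event {Y : Type} [AddCommGroup Y] (g : Y → K) (p q s t : K × Y) (h : s + p = t + q)
    (y : Y) : p.1 + (s.1 + g (y + p.2 + s.2)) ≠ t.1 + g (y + t.2) ↔
      q.1 + g (y + t.2 + q.2) ≠ g (y + t.2) := by
  have e1 : s.1 + p.1 = t.1 + q.1 := congrArg Prod.fst h
  have e2 : s.2 + p.2 = t.2 + q.2 := congrArg Prod.snd h
  rw [← add_assoc, add_comm p.1, e1, add_assoc y, add_comm p.2, e2, ← add_assoc y, add_assoc t.1,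
    ne_eq, add_right_inj]

/-- conditional error of the step -/
noncomputable def errPsi (C : Core K) (G : Gad K) (i : C.I) (ω : G.Ω) (x : G.V) : ℝ :=
  𝔼 y : C.Y, ind ((C.A i ((G.a ω).1 + G.Fb (x + (G.a ω).2) + G.Fb x)).1 +
    C.g (y + (C.A i ((G.a ω).1 + G.Fb (x + (G.a ω).2) + G.Fb x)).2) ≠ C.g y)

theorem err_step_eq (C : Core K) (G : Gad K) :
    (C.step G).err = 𝔼 z : C.I × G.Ω, 𝔼 xb : C.I → G.V, errPsi C G z.1 z.2 (xb z.1) := by
  refine (expect_comm _ _ _).trans (expect_congr rfl fun (z : C.I × G.Ω) _ => ?_)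
  refine (expect_prod' (α := C.Y) (β := C.I → G.V) _).trans ?_
  refine (expect_comm _ _ _).trans (expect_congr rfl fun xb _ => ?_)
  refine Eq.trans ?_ (expect_add_right _ (C.S G xb).2)
  exact expect_congr rfl fun y _ => ind_congr
    (err_event C.g _ _ _ _ (S_single C G xb z.1 (G.a z.2).1 (G.a z.2).2) y)

theorem err_step (C : Core K) (G : Gad K) : (C.step G).err ≤ C.surv * G.err := by
  have h2 : ∀ z : C.I × G.Ω, 𝔼 xb : C.I → G.V, errPsi C G z.1 z.2 (xb z.1) =
      𝔼 x, errPsi C G z.1 z.2 x := fun z => expect_apply z.1 (errPsi C G z.1 z.2)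
  have h3 : ∀ ω : G.Ω, 𝔼 i : C.I, 𝔼 x, errPsi C G i ω x = 𝔼 x, 𝔼 i : C.I, errPsi C G i ω x :=
    fun ω => expect_comm _ _ _
  rw [err_step_eq, expect_congr rfl fun z _ => h2 z, expect_prod', expect_comm,
    expect_congr rfl fun ω _ => h3 ω, expect_comm, Gad.err, mul_expect]
  refine expect_mono fun x => ?_
  rw [mul_expect]
  refine expect_mono fun ω => le_of_eq ((err_avg C _).trans ?_)
  congr 1
  refine ind_congr (not_congr ⟨fun h => ?_, fun h => by rw [h, add_self_eq]⟩)
  rw [← add_zero (_ + _), ← add_self_eq (G.Fb x), ← add_assoc, h, zero_add]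

end Vale.Agent.P325.Gd
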