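import Vale.Agent.P325.GadgetUnif

/-!
# The core over a finite field of characteristic two  (TASK)

`surv_le`: `(J v (t, w)).1 + g (y + t v) = g y + cr (w + t y) v` (`two_eq_zero'`, `linear_combination`).
For fixed `v, t, y` at least `q` of the `q³` vectors `w` have `cr (w + t y) v = 0` (after the translation
`expect_add_right`: `w = a • v` is injective in `a` if `v ≠ 0`; every `w` if `v = 0`).
`tfs_bijective`: `tf` is injective (`traceForm_nondegenerate`, test on `Pi.single`), hence bijective: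
`Nat.card` of the dual of a finite `ZMod 2`-space equals the card of the space (`Subspace.dual_finrank_eq`,
`Module.natCard_eq_pow_finrank`; or `tf` as a linear map to the dual and
`LinearMap.injective_iff_surjective_of_finrank_eq_finrank`); then componentwise (`LinearMap.proj j ∘ c`).
`vanish`: with `c' = comb c s`, `η' = comb η s` the hypothesis reads (`dot_tfs`)
`Tr (c' · (t² g v + cr w v)) + Tr (η' · (t v)) = 0` for all `t, w`.  `t = 0`: `c' · cr w v = w · cr v c'`, so
`cr v c' = 0`.  `w = 0`: `Tr x = Tr x²` (`Algebra.trace_eq_of_algEquiv` with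
`FiniteField.frobeniusAlgEquivOfAlgebraic (ZMod 2) F`) gives `Tr (t² (c' · g v + (η' · v)²)) = 0` for all
`t`, squaring is onto, so `c' · g v = (η' · v)²`.  `cr v c' = 0`, `c' ≠ 0` give `v = a • c'`, and then
`a² (3 c'₀ c'₁ c'₂) = a² (η' · c')²`.
-/

namespace Vale.Agent.P325.Gd

open Finset Module
open scoped BigOperators
variable {F : Type} [Field F] [Algebra (ZMod 2) F]

theorem exists_smul_of_cr {v c : Fin 3 → F} (hc : c ≠ 0) (h : cr v c = 0) : ∃ a : F, v = a • c := by
  have h0 : v 1 * c 2 + v 2 * c 1 = 0 := congrFun h 0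
  have h1 : v 0 * c 2 + v 2 * c 0 = 0 := congrFun h 1
  have h2 : v 0 * c 1 + v 1 * c 0 = 0 := congrFun h 2
  have t := two_eq_zero' (F := F)
  have g0 : v 1 * c 2 = v 2 * c 1 := by linear_combination h0 - v 2 * c 1 * t
  have g1 : v 0 * c 2 = v 2 * c 0 := by linear_combination h1 - v 2 * c 0 * t
  have g2 : v 0 * c 1 = v 1 * c 0 := by linear_combination h2 - v 1 * c 0 * t
  have key : ∀ i j, v i * c j = v j * c i := by
    simp only [Fin.forall_fin_succ, Fin.succ_zero_eq_one, Fin.succ_one_eq_two, IsEmpty.forall_iff,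
      g0, g1, g2, and_self]
  obtain ⟨j, hj⟩ := Function.ne_iff.mp hc
  refine ⟨v j / c j, funext fun i => ?_⟩
  rw [Pi.smul_apply, smul_eq_mul, div_mul_eq_mul_div, ← key i j, mul_div_cancel_right₀ _ hj]

theorem dot_tfs {r : ℕ} (c : Fin r → Fin 3 → F) (s : F2 r) (x : Fin 3 → F) :
    s ⬝ᵥ tfs c x = Algebra.trace (ZMod 2) F (comb c s ⬝ᵥ x) := by
  rw [comb, sum_dotProduct, map_sum]
  refine sum_congr rfl fun j _ => ?_
  rw [smul_dotProduct, map_smul]
  rfl

theorem gfield_shift (v y w : Fin 3 → F) (t : F) :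
    t ^ 2 • gq v + cr w v + gq (y + t • v) = gq y + cr (w + t • y) v := by
  have h := two_eq_zero' (F := F)
  funext i
  fin_cases i
  · simp [gq, cr]
    linear_combination t ^ 2 * v 1 * v 2 * h
  · simp [gq, cr]
    linear_combination t ^ 2 * v 0 * v 2 * h
  · simp [gq, cr]
    linear_combination t ^ 2 * v 0 * v 1 * h

theorem gfield_cr_self (v : Fin 3 → F) (a : F) : cr (a • v) v = 0 := by
  have h := two_eq_zero' (F := F)
  funext i
  fin_cases i
  · simp [cr]
    linear_combination a * v 1 * v 2 * h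
  · simp [cr]
    linear_combination a * v 0 * v 2 * h
  · simp [cr]
    linear_combination a * v 0 * v 1 * h

variable [Fintype F]

theorem gfield_ker (v : Fin 3 → F) :
    𝔼 w : Fin 3 → F, ind (cr w v ≠ 0) ≤ 1 - 1 / (Fintype.card F : ℝ) ^ 2 := by
  classical
  obtain ⟨φ, h1, h2⟩ : ∃ φ : F → Fin 3 → F, Function.Injective φ ∧ ∀ a, cr (φ a) v = 0 := by
    by_cases hv : v = 0
    · refine ⟨fun a _ => a, fun a b h => congrFun h 0, fun a => ?_⟩
      funext i
      fin_cases i <;> simp [cr, hv]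
    · exact ⟨fun a => a • v, smul_left_injective F hv, gfield_cr_self v⟩
  have hq : (0 : ℝ) < Fintype.card F := Nat.cast_pos.mpr Fintype.card_pos
  simp only [ne_eq, ind_not]
  rw [expect_sub_distrib, expect_const univ_nonempty, expect_ind]
  refine sub_le_sub_left ?_ 1
  have h3 : Fintype.card F ≤ (univ.filter fun w => cr w v = 0).card :=
    card_le_card_of_injOn φ (fun a _ => by simp [h2 a]) h1.injOn
  have h4 : (Fintype.card F : ℝ) ≤ (univ.filter fun w => cr w v = 0).card := Nat.cast_le.mpr h3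
  rw [Fintype.card_fun, Fintype.card_fin, Nat.cast_pow, le_div_iff₀ (by positivity)]
  refine le_trans (le_of_eq ?_) (h4.trans (le_of_eq ?_))
  · field_simp
  · exact congrArg _ (congrArg card (filter_congr_decidable ..).symm)

theorem surv_le : (core F).surv ≤ 1 - 1 / (Fintype.card F : ℝ) ^ 2 := by
  refine expect_le_const fun v : Fin 3 → F => ?_
  refine (expect_prod' (α := F) (β := Fin 3 → F) _).trans_le (expect_le_const fun t => ?_)
  refine (expect_comm _ _ _).trans_le (expect_le_const fun y : Fin 3 → F => ?_)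
  refine le_trans (le_of_eq ?_) (gfield_ker v)
  rw [← expect_add_right (fun w => ind (cr w v ≠ 0)) (t • y)]
  refine expect_congr rfl fun w _ => ind_congr (not_congr ?_)
  exact (Eq.congr_left (gfield_shift v y w t)).trans add_eq_left

theorem gfield_nondeg {a : F} (h : ∀ x, Algebra.trace (ZMod 2) F (a * x) = 0) : a = 0 :=
  (traceForm_nondegenerate (ZMod 2) F).1 a h

theorem gfield_dot {c : Fin 3 → F} (h : ∀ x, Algebra.trace (ZMod 2) F (c ⬝ᵥ x) = 0) : c = 0 :=
  funext fun i => gfield_nondeg fun x => by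
    rw [← dotProduct_single]
    exact h _

theorem tfs_bijective (r : ℕ) :
    Function.Bijective (tfs : (Fin r → Fin 3 → F) → (Fin 3 → F) →ₗ[ZMod 2] F2 r) := by
  refine Function.Injective.bijective_of_nat_card_le (fun c c' h => funext fun j => ?_) (le_of_eq ?_)
  · refine sub_eq_zero.mp (gfield_dot fun x => ?_)
    rw [sub_dotProduct, map_sub, sub_eq_zero]
    exact congrFun (LinearMap.congr_fun h x) j
  · rw [Nat.card_fun, Module.natCard_eq_pow_finrank (K := ZMod 2),
      Module.natCard_eq_pow_finrank (K := ZMod 2) (V := Fin 3 → F), Module.finrank_linearMap,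
      pow_mul]
    simp

omit [Fintype F] in
theorem gfield_indep {r : ℕ} {c : Fin r → Fin 3 → F} (h : Function.Surjective (tfs c)) :
    Indep c := by
  intro s hs h0
  refine hs (funext fun j => ?_)
  obtain ⟨x, hx⟩ := h (Pi.single j 1)
  have h1 := dot_tfs c s x
  rwa [hx, h0, zero_dotProduct, map_zero, dotProduct_single, mul_one] at h1

theorem indep_of_surjective {r : ℕ} {c : Fin r → Fin 3 → F} (h : Function.Surjective (tfs c)) :
    Indep c := gfield_indep h

theorem gfield_trace_sq (x : F) :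
    Algebra.trace (ZMod 2) F (x ^ 2) = Algebra.trace (ZMod 2) F x := by
  have h := Algebra.trace_eq_of_algEquiv (FiniteField.frobeniusAlgEquivOfAlgebraic (ZMod 2) F) x
  rwa [FiniteField.coe_frobeniusAlgEquivOfAlgebraic, ZMod.card] at h

theorem gfield_sq_surj (x : F) : ∃ t : F, t ^ 2 = x := by
  obtain ⟨t, ht⟩ := (FiniteField.frobeniusAlgEquivOfAlgebraic (ZMod 2) F).surjective x
  rw [FiniteField.coe_frobeniusAlgEquivOfAlgebraic, ZMod.card] at ht
  exact ⟨t, ht⟩

theorem vanish {r : ℕ} (c η : Fin r → Fin 3 → F) (v : Fin 3 → F) (s : F2 r) (hs : comb c s ≠ 0)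
    (h : ∀ p, s ⬝ᵥ ((tfs c).coprod (tfs η) ∘ₗ Jf v) p = 0) :
    (∃ a : F, v = a • comb c s) ∧ (v ≠ 0 → Dang (comb c s) (comb η s)) := by
  have h' : ∀ (t : F) (w : Fin 3 → F),
      Algebra.trace (ZMod 2) F (comb c s ⬝ᵥ (t ^ 2 • gq v + cr w v)) +
        Algebra.trace (ZMod 2) F (comb η s ⬝ᵥ (t • v)) = 0 := fun t w => by
    rw [← dot_tfs, ← dot_tfs, ← dotProduct_add]
    exact h (t, w)
  generalize comb c s = c' at hs h' ⊢
  generalize comb η s = η' at h' ⊢
  have h1 : cr v c' = 0 := gfield_dot fun w => by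
    have h2 := h' 0 w
    have e : c' ⬝ᵥ cr w v = cr v c' ⬝ᵥ w := by
      simp [cr, dotProduct, Fin.sum_univ_three]
      ring
    rwa [zero_pow two_ne_zero, zero_smul, zero_smul, zero_add, dotProduct_zero, map_zero, add_zero,
      e] at h2
  have h2 : c' ⬝ᵥ gq v + (η' ⬝ᵥ v) ^ 2 = 0 := gfield_nondeg fun x => by
    obtain ⟨t, rfl⟩ := gfield_sq_surj x
    have h3 := h' t 0
    have e : cr 0 v = 0 := by
      funext i
      fin_cases i <;> simp [cr]
    rw [e, add_zero, ← gfield_trace_sq (η' ⬝ᵥ _), ← map_add, dotProduct_smul, dotProduct_smul,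
      smul_eq_mul, smul_eq_mul] at h3
    rw [← h3]
    exact congrArg _ (by ring)
  obtain ⟨a, rfl⟩ := exists_smul_of_cr hs h1
  refine ⟨⟨a, rfl⟩, fun hv => ?_⟩
  have ha : a ≠ 0 := fun h => hv (by rw [h, zero_smul])
  have e : c' ⬝ᵥ gq (a • c') = a ^ 2 * (3 * (c' 0 * c' 1 * c' 2)) := by
    simp [gq, dotProduct, Fin.sum_univ_three]
    ring
  rw [e, dotProduct_smul, smul_eq_mul] at h2
  refine mul_left_cancel₀ (pow_ne_zero 2 ha) ?_
  linear_combination h2 - (a ^ 2 * (c' 0 * c' 1 * c' 2) + (a * (η' ⬝ᵥ c')) ^ 2) * two_eq_zero' (F := F)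

end Vale.Agent.P325.Gd
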