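import Vale.Agent.P325.GadgetUnif

/-!
# Few combinations of a generic tuple are dangerous  (TASK)

`R = MvPolynomial (Fin r × Fin 3) (ZMod 2)`, `L = FractionRing R`, functions `T → L`.  Write `sⱼ` for the
function `s ↦ algebraMap (s j)` (so `sⱼ² = sⱼ`), `col j a = sⱼ * ∑ i, sᵢ * X (i, a)`, `W` = the `L`-span of
the `3 r` columns.  `exists_mono`: some `sᵢ sⱼ sₗ ∉ W`.  Otherwise `W` is closed under multiplication by
every `sₗ` (`span_induction`: `sₗ * col j a` is a combination of the `sₗ sⱼ sᵢ`), contains `sⱼ = sⱼ sⱼ sⱼ`,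
hence contains `sⱼ * ∏ i, (sᵢ + (1 + tᵢ))`, which is the indicator of `t ∈ T` when `t j = 1`; so `W = ⊤` and
`card T ≤ 3 r` (`finrank_range_le_card`).
`exists_orth`: a functional vanishing on `W` but not on `sᵢ sⱼ sₗ` (`Submodule.exists_dual_map_eq_bot_of_notMem`
or `Submodule.exists_le_ker_of_notMem`), its values on the basis vectors, denominators cleared
(`IsLocalization.exist_integer_multiples_of_finite`), give `y`.
`exists_poly`: `σ i j l = ∑ s, y s * sᵢ sⱼ sₗ`, `p = ∑ i j l, X (i,0) X (j,1) X (l,2) * expand 2 (σ i j l)`.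
`p ≠ 0`: the coefficient of `p` at `2 • m + e (i,0) + e (j,1) + e (l,2)` is the coefficient of `σ i j l` at `m`
(`coeff_X_mul'` or `coeff_monomial_mul'`, `coeff_expand_smul`, `coeff_expand_of_not_dvd`: parity of the
exponent of `(i',0)` etc.).  Evaluation at `c`, with `Y s = aeval (c²) (y s) = aeval c (expand 2 (y s))`:
`aeval c p = ∑ s, Y s * (c_s 0 * c_s 1 * c_s 2) = ∑ s, Y s * ∑ j a, sⱼ (η j a)² (c_s a)² = 0` because
`(c_s a)² = ∑ i, sᵢ (c i a)²` (`sum_pow_char` or `add_sq'`) and `y` is orthogonal to the columns.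
-/

namespace Vale.Agent.P325.Gd

open Finset Module
open scoped BigOperators
open MvPolynomial

theorem gg_mono {L : Type} [Field L] (φ : ZMod 2 →+* L) {r : ℕ} (T : Finset (F2 r))
    (h0 : (0 : F2 r) ∉ T) (hT : 3 * r < T.card) (x : Fin r × Fin 3 → L) :
    ∃ i j l, (fun s : T => φ (s.1 i) * φ (s.1 j) * φ (s.1 l)) ∉ Submodule.span L (Set.range
      fun (z : Fin r × Fin 3) (s : T) => φ (s.1 z.1) * ∑ i, φ (s.1 i) * x (i, z.2)) := by
  classical
  by_contra H
  push Not at H
  set W := Submodule.span L (Set.range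
    fun (z : Fin r × Fin 3) (s : T) => φ (s.1 z.1) * ∑ i, φ (s.1 i) * x (i, z.2)) with hW
  have h1 : ∀ (l : Fin r), ∀ w ∈ W, (fun s : T => φ (s.1 l) * w s) ∈ W := by
    intro l w hw
    induction hw using Submodule.span_induction with
    | mem w hw =>
      obtain ⟨z, rfl⟩ := hw
      have := W.sum_mem fun i (_ : i ∈ univ) => W.smul_mem (x (i, z.2)) (H l z.1 i)
      convert this using 1
      funext s
      simp only [Finset.sum_apply, Pi.smul_apply, smul_eq_mul, Finset.mul_sum]
      exact Finset.sum_congr rfl fun i _ => by ring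
    | zero =>
      convert W.zero_mem using 1
      funext s
      simp
    | add u v _ _ hu hv =>
      convert W.add_mem hu hv using 1
      funext s
      simp only [Pi.add_apply, mul_add]
    | smul a u _ hu =>
      convert W.smul_mem a hu using 1
      funext s
      simp only [Pi.smul_apply, smul_eq_mul]
      ring
  have h2 : ∀ (t : F2 r) (j : Fin r) (u : Finset (Fin r)),
      (fun s : T => (∏ i ∈ u, φ (s.1 i + (1 + t i))) * φ (s.1 j)) ∈ W := by
    intro t j u
    induction u using Finset.induction_on with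
    | empty =>
      convert H j j j using 2 with s
      rw [prod_empty, one_mul, ← map_mul, ← map_mul, show ∀ u : ZMod 2, u * u * u = u by decide]
    | insert i u hi ih =>
      convert W.add_mem (h1 i _ ih) (W.smul_mem (φ (1 + t i)) ih) using 2 with s
      simp only [prod_insert hi, map_add φ (s.1 i), Pi.add_apply, Pi.smul_apply, smul_eq_mul]
      ring
  have h3 : W = ⊤ := by
    rw [eq_top_iff, ← (Pi.basisFun L T).span_eq, Submodule.span_le]
    rintro _ ⟨t, rfl⟩
    obtain ⟨j, hj⟩ := Function.ne_iff.1 fun e : t.1 = 0 => h0 (e ▸ t.2)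
    have hj1 : t.1 j = 1 := by
      revert hj
      exact (show ∀ u : ZMod 2, u ≠ 0 → u = 1 by decide) _
    refine (show _ = Pi.basisFun L T t from ?_) ▸ h2 t.1 j univ
    symm
    funext s
    rw [Pi.basisFun_apply]
    by_cases hs : s = t
    · subst hs
      simp only [Pi.single_eq_same, show ∀ u : ZMod 2, u + (1 + u) = 1 by decide, hj1, map_one,
        prod_const_one, mul_one]
    · obtain ⟨i, hi⟩ := Function.ne_iff.1 fun e : s.1 = t.1 => hs (Subtype.ext e)
      rw [Pi.single_eq_of_ne hs, Finset.prod_eq_zero (mem_univ i), zero_mul]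
      rw [(show ∀ u v : ZMod 2, u ≠ v → u + (1 + v) = 0 by decide) _ _ hi, map_zero]
  have h4 : finrank L W ≤ Fintype.card (Fin r × Fin 3) := finrank_range_le_card _
  rw [h3, finrank_top, finrank_fintype_fun_eq_card, Fintype.card_coe, Fintype.card_prod,
    Fintype.card_fin, Fintype.card_fin] at h4
  omega

theorem gg_sq_sum {F ι : Type} [Field F] [Algebra (ZMod 2) F] (s : Finset ι) (f : ι → F) :
    (∑ i ∈ s, f i) ^ 2 = ∑ i ∈ s, f i ^ 2 := by
  classical
  induction s using Finset.induction_on with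
  | empty => simp
  | insert a s ha ih => rw [sum_insert ha, sum_insert ha, add_sq', ih]

/-- Exponent vector of `X (i, 0) X (j, 1) X (l, 2)`. -/
noncomputable def ggE {r : ℕ} (z : Fin r × Fin r × Fin r) : Fin r × Fin 3 →₀ ℕ :=
  Finsupp.single (z.1, 0) 1 + Finsupp.single (z.2.1, 1) 1 + Finsupp.single (z.2.2, 2) 1

theorem ggE_monomial {r : ℕ} (z : Fin r × Fin r × Fin r) :
    (monomial (ggE z) 1 : MvPolynomial (Fin r × Fin 3) (ZMod 2)) =
      X (z.1, 0) * X (z.2.1, 1) * X (z.2.2, 2) := by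
  simp only [X, monomial_mul, mul_one, ggE]

theorem ggE_sep {r : ℕ} {z z₀ : Fin r × Fin r × Fin r} (h : z ≠ z₀) :
    ∃ v, ggE z₀ v = 1 ∧ ggE z v = 0 := by
  by_cases h1 : z.1 = z₀.1
  · by_cases h2 : z.2.1 = z₀.2.1
    · have h3 : z.2.2 ≠ z₀.2.2 := fun h3 => h (Prod.ext h1 (Prod.ext h2 h3))
      exact ⟨(z₀.2.2, 2), by simp [ggE], by simp [ggE, h3]⟩
    · exact ⟨(z₀.2.1, 1), by simp [ggE], by simp [ggE, h2]⟩
  · exact ⟨(z₀.1, 0), by simp [ggE], by simp [ggE, h1]⟩

theorem exists_orth {r : ℕ} (T : Finset (F2 r)) (h0 : (0 : F2 r) ∉ T) (hT : 3 * r < T.card) :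
    ∃ y : F2 r → MvPolynomial (Fin r × Fin 3) (ZMod 2),
      (∀ j a, ∑ s ∈ T, y s * (C (s j) * ∑ i, C (s i) * X (i, a)) = 0) ∧
      ∃ i j l, ∑ s ∈ T, y s * (C (s i) * C (s j) * C (s l)) ≠ 0 := by
  classical
  set R := MvPolynomial (Fin r × Fin 3) (ZMod 2)
  set ι := algebraMap R (FractionRing R) with hι
  have hinj : Function.Injective ι := IsFractionRing.injective R (FractionRing R)
  obtain ⟨i, j, l, h⟩ := gg_mono (ι.comp C) T h0 hT fun z => ι (X z)
  obtain ⟨f, hf, hW⟩ := Submodule.exists_dual_map_eq_bot_of_notMem h inferInstance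
  obtain ⟨b, hb⟩ := IsLocalization.exist_integer_multiples_of_finite (nonZeroDivisors R)
    fun t : T => f fun s => if t = s then 1 else 0
  choose y hy using hb
  have hb0 : ι b ≠ 0 := fun e => nonZeroDivisors.ne_zero b.2 (hinj (e.trans (map_zero _).symm))
  have key : ∀ g : F2 r → R, ι (∑ s ∈ T, (if h : s ∈ T then y ⟨s, h⟩ else 0) * g s) =
      ι b * f fun s : T => ι (g s) := fun g => by
    rw [LinearMap.pi_apply_eq_sum_univ, ← Finset.sum_coe_sort, map_sum, Finset.mul_sum]
    refine Finset.sum_congr rfl fun t _ => ?_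
    rw [dif_pos t.2, map_mul, hy, Algebra.smul_def, smul_eq_mul]
    ring
  refine ⟨fun s => if h : s ∈ T then y ⟨s, h⟩ else 0, fun j a => hinj ?_, i, j, l, fun e => ?_⟩
  · rw [key, map_zero]
    refine mul_eq_zero_of_right _ ?_
    rw [← Submodule.mem_bot (FractionRing R), ← hW]
    refine Submodule.mem_map_of_mem (Submodule.subset_span ⟨(j, a), ?_⟩)
    funext s
    simp only [map_mul, map_sum, RingHom.comp_apply]
  · have := congrArg ι e
    rw [key, map_zero] at this
    refine hf ((mul_eq_zero.1 this).resolve_left hb0 ▸ ?_)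
    simp only [map_mul, RingHom.comp_apply]

theorem exists_poly {r : ℕ} (T : Finset (F2 r)) (h0 : (0 : F2 r) ∉ T) (hT : 3 * r < T.card) :
    ∃ p : MvPolynomial (Fin r × Fin 3) (ZMod 2), p ≠ 0 ∧
      ∀ (F : Type) [Field F] [Algebra (ZMod 2) F] (c η : Fin r → Fin 3 → F),
        (∀ s ∈ T, Dang (comb c s) (comb η s)) → aeval (fun z => c z.1 z.2) p = 0 := by
  classical
  obtain ⟨y, hy, i, j, l, hσ⟩ := exists_orth T h0 hT
  set σ : Fin r × Fin r × Fin r → MvPolynomial (Fin r × Fin 3) (ZMod 2) := fun z =>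
    ∑ s ∈ T, y s * (C (s z.1) * C (s z.2.1) * C (s z.2.2)) with hσd
  refine ⟨∑ z, monomial (ggE z) 1 * expand 2 (σ z), fun e => ?_, fun F _ _ c η hD => ?_⟩
  · obtain ⟨m, hm⟩ := MvPolynomial.ne_zero_iff.1 hσ
    have h1 := congrArg (coeff (ggE (i, j, l) + 2 • m)) e
    rw [coeff_sum, Finset.sum_eq_single (i, j, l) ?_ (by simp), coeff_monomial_mul, one_mul,
      coeff_expand_smul _ (by norm_num), coeff_zero] at h1
    · exact hm h1
    · intro z _ hz
      obtain ⟨v, h2, h3⟩ := ggE_sep hz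
      rw [coeff_monomial_mul']
      split_ifs
      · rw [coeff_expand_of_not_dvd (i := v), mul_zero]
        simp only [Finsupp.coe_tsub, Finsupp.coe_add, Finsupp.coe_nsmul, Pi.sub_apply, Pi.add_apply,
          Pi.smul_apply, h2, h3, smul_eq_mul]
        omega
      · rfl
  · set φ := algebraMap (ZMod 2) F with hφ
    set Y : F2 r → F := fun s => aeval ((fun z : Fin r × Fin 3 => c z.1 z.2) ^ 2) (y s) with hY
    have hcomb : ∀ (c : Fin r → Fin 3 → F) (s : F2 r) (a : Fin 3),
        comb c s a = ∑ j, φ (s j) * c j a := fun c s a => by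
      rw [comb, Finset.sum_apply]
      exact Finset.sum_congr rfl fun j _ => Algebra.smul_def (s j) (c j a)
    have hsq : ∀ (c : Fin r → Fin 3 → F) (s : F2 r) (a : Fin 3),
        comb c s a ^ 2 = ∑ j, φ (s j) * c j a ^ 2 := fun c s a => by
      rw [hcomb, gg_sq_sum]
      refine Finset.sum_congr rfl fun j _ => ?_
      rw [mul_pow, ← map_pow, show ∀ u : ZMod 2, u ^ 2 = u by decide]
    have h1 : ∀ j a, ∑ s ∈ T, Y s * (φ (s j) * comb c s a ^ 2) = 0 := fun j a => by
      have := congrArg (aeval ((fun z : Fin r × Fin 3 => c z.1 z.2) ^ 2)) (hy j a)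
      simpa only [map_sum, map_mul, aeval_C, aeval_X, map_zero, Pi.pow_apply, hsq] using this
    have h2 : ∀ z : Fin r × Fin r × Fin r, aeval (fun z : Fin r × Fin 3 => c z.1 z.2)
        (monomial (ggE z) (1 : ZMod 2) * expand 2 (σ z)) = ∑ s ∈ T,
          Y s * (φ (s z.1) * c z.1 0 * (φ (s z.2.1) * c z.2.1 1 * (φ (s z.2.2) * c z.2.2 2))) := by
      intro z
      rw [map_mul, aeval_expand, ggE_monomial, hσd]
      simp only [map_sum, map_mul, aeval_C, aeval_X, Finset.mul_sum]
      exact Finset.sum_congr rfl fun s _ => by ring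
    rw [map_sum, Finset.sum_congr rfl fun z _ => h2 z, Finset.sum_comm]
    have h3 : ∀ s ∈ T, ∑ z : Fin r × Fin r × Fin r,
        Y s * (φ (s z.1) * c z.1 0 * (φ (s z.2.1) * c z.2.1 1 * (φ (s z.2.2) * c z.2.2 2))) =
        ∑ a, ∑ j, η j a ^ 2 * (Y s * (φ (s j) * comb c s a ^ 2)) := fun s hs => by
      have e1 : ∑ z : Fin r × Fin r × Fin r,
          φ (s z.1) * c z.1 0 * (φ (s z.2.1) * c z.2.1 1 * (φ (s z.2.2) * c z.2.2 2)) =
          comb c s 0 * comb c s 1 * comb c s 2 := by
        simp only [Fintype.sum_prod_type, ← Finset.mul_sum, ← Finset.sum_mul, hcomb, mul_assoc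
          (∑ j, φ (s j) * c j 0)]
      rw [← Finset.mul_sum, e1, hD s hs, dotProduct, gg_sq_sum, Finset.mul_sum]
      refine Finset.sum_congr rfl fun a _ => ?_
      rw [mul_pow, hsq η, Finset.sum_mul, Finset.mul_sum]
      exact Finset.sum_congr rfl fun j _ => by ring
    rw [Finset.sum_congr rfl h3, Finset.sum_comm]
    refine Finset.sum_eq_zero fun a _ => ?_
    rw [Finset.sum_comm]
    refine Finset.sum_eq_zero fun j _ => ?_
    rw [← Finset.mul_sum, h1, mul_zero]

end Vale.Agent.P325.Gd
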