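import Vale.Agent.P325.GadgetErr

/-!
# Soundness of one step and the recursion  (TASK)

`det_step`: let `η = μ ∘ inl`, `μ i = μ ∘ inr ∘ single i`, `ψ v = c.coprod η ∘ J v`.  The noise `(i, ω)`,
`i = (v, R)`, `(k, x) = G.a ω` is sent to `ψ v (R k) + μ i x`.  For fixed `v` take `π` with `π ∘ ψ v` onto
`F2 (rk v)` (`exists_proj`); `G.det (π ∘ ψ v ∘ R) (π ∘ μ i) ≥ G.phi (π ∘ ψ v ∘ R)` (`ciInf_le`), and
averaging over `R` gives `G.LL (rk v)` (`expect_hom_comp`).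
`base`: `V = F2 0`, `Fb = 0`, `Ω = K`, `a k = (k, 0)`; `det c μ = 𝔼 k, ind (c k ≠ 0)`; for `k ≠ 0`,
`𝔼 c, ind (c k ≠ 0) = 𝔼 p : F2 r, ind (p ≠ 0) = 1 - 2^(-r) ≥ 1/2` (`expect_hom_apply`).
`rec_main`: induction on `n`; for each `c` the infimum `phi c` is attained (`exists_eq_ciInf_of_finite`),
`det_step` gives `η c`, the induction hypothesis applies to `rk ≤ r ≤ r₀` (`rank_le`), then `hB`.
`top`: given `Γ` take `π` with `c = π ∘ Γ ∘ inl` onto (`exists_proj`), `μ = π ∘ Γ ∘ inr`;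
`ind (Γ a = 0) ≤ 1 - ind (c a.1 + μ a.2 ≠ 0)`; `det_step` and
`LL (rk v) ≥ (1 - ind (rk v ≠ r₀)) / 4`.
-/

namespace Vale.Agent.P325.Gd

open Finset Module
open scoped BigOperators
variable {K : Type} [AddCommGroup K] [Module (ZMod 2) K] [Fintype K]

theorem LL_nonneg (G : Gad K) (r : ℕ) : 0 ≤ G.LL r :=
  expect_nonneg fun _ _ => Real.iInf_nonneg fun _ => expect_nonneg fun _ _ => ind_nonneg _

omit [Fintype K] in
theorem grec_phi_le (G : Gad K) {r : ℕ} (c : K →ₗ[ZMod 2] F2 r) (μ : G.V →ₗ[ZMod 2] F2 r) :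
    G.phi c ≤ G.det c μ := ciInf_le (Finite.bddBelow_range _) μ

theorem grec_point {α : Type} [Fintype α] (a₀ : α) :
    𝔼 a, ind (a = a₀) = 1 / (Fintype.card α : ℝ) := by
  classical
  rw [Fintype.expect_eq_sum_div_card, Finset.sum_eq_single a₀ (fun a _ h => ind_neg h) (by simp),
    ind_pos rfl]

theorem det_step (C : Core K) (G : Gad K) {r : ℕ} (c : K →ₗ[ZMod 2] F2 r)
    (μ : (C.step G).V →ₗ[ZMod 2] F2 r) :
    ∃ η : C.Y →ₗ[ZMod 2] F2 r, 𝔼 v, G.LL (C.rk c η v) ≤ (C.step G).det c μ := by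
  let μ' : (C.Y × (C.I → G.V)) →ₗ[ZMod 2] F2 r := μ
  refine ⟨μ' ∘ₗ LinearMap.inl _ _ _, ?_⟩
  have h0 : (C.step G).det c μ = 𝔼 z : C.I × G.Ω, ind (c (C.A z.1 (G.a z.2).1).1 +
      μ' ((C.A z.1 (G.a z.2).1).2, Pi.single z.1 (G.a z.2).2) ≠ 0) := rfl
  rw [h0, expect_prod', expect_prod']
  refine expect_mono fun v => ?_
  obtain ⟨π, hπ⟩ := exists_proj (c.coprod (μ' ∘ₗ LinearMap.inl _ _ _) ∘ₗ C.J v)
    (r := C.rk c (μ' ∘ₗ LinearMap.inl _ _ _) v) le_rfl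
  rw [Gad.LL, ← expect_hom_comp _ hπ]
  refine expect_mono fun R => (grec_phi_le G _ (π ∘ₗ μ' ∘ₗ LinearMap.inr _ _ _ ∘ₗ
    LinearMap.single (ZMod 2) (fun _ : C.I => G.V) (v, R))).trans ?_
  refine expect_mono fun ω => ind_mono fun h h' => h ?_
  have e : μ' ((C.A (v, R) (G.a ω).1).2, Pi.single (v, R) (G.a ω).2) =
      μ' ((C.A (v, R) (G.a ω).1).2, 0) + μ' (0, Pi.single (v, R) (G.a ω).2) := by
    rw [← map_add, Prod.mk_add_mk, add_zero, zero_add]
  rw [e, ← add_assoc] at h'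
  change π (c (C.A (v, R) (G.a ω).1).1 + μ' ((C.A (v, R) (G.a ω).1).2, 0)) +
    π (μ' (0, Pi.single (v, R) (G.a ω).2)) = 0
  rw [← map_add, h', map_zero]

theorem base : ∃ G : Gad K, ∀ r, 1 ≤ r → (1 - 1 / (Fintype.card K : ℝ)) / 2 ≤ G.LL r := by
  refine ⟨{ V := F2 0, Ω := K, Fb := fun _ => 0, a := fun k => (k, 0) }, fun r hr => ?_⟩
  refine le_trans ?_ (expect_mono (f := fun c : K →ₗ[ZMod 2] F2 r => 𝔼 k, ind (c k ≠ 0))
    fun c => le_ciInf fun μ => le_of_eq ?_)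
  · rw [Finset.expect_comm]
    have h1 : ∀ k : K, (1 - ind (k = 0)) / 2 ≤ 𝔼 c : K →ₗ[ZMod 2] F2 r, ind (c k ≠ 0) := by
      intro k
      by_cases hk : k = 0
      · rw [ind_pos hk, sub_self, zero_div]
        exact expect_nonneg fun _ _ => ind_nonneg _
      · rw [ind_neg hk, expect_hom_apply hk fun p : F2 r => ind (p ≠ 0)]
        simp only [ne_eq, ind_not]
        rw [Finset.expect_sub_distrib, Fintype.expect_const, grec_point]
        have h2 : (2 : ℝ) ≤ Fintype.card (F2 r) := by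
          have : 2 ^ 1 ≤ 2 ^ r := Nat.pow_le_pow_right (by norm_num) hr
          simp only [Fintype.card_pi, ZMod.card, prod_const, card_univ, Fintype.card_fin]
          exact_mod_cast this
        have := one_div_le_one_div_of_le (by norm_num) h2
        linarith
    refine le_trans (le_of_eq ?_) (expect_mono h1)
    rw [← Finset.expect_div, Finset.expect_sub_distrib, Fintype.expect_const, grec_point]
  · unfold Gad.det
    simp only [map_zero, add_zero]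

theorem rec_main (C : Core K) {κ θ : ℝ} {r₀ : ℕ} (hr₀ : 1 ≤ r₀) (hθ : 0 ≤ θ) (hκ : κ ≤ 1)
    (hA : C.surv ≤ 1 - κ)
    (hB : ∀ r ≤ r₀, ∀ η : (K →ₗ[ZMod 2] F2 r) → C.Y →ₗ[ZMod 2] F2 r,
      𝔼 c, 𝔼 v, (Hn r - Hn (C.rk c (η c) v)) ≤ θ)
    (hD : Hn r₀ ≤ θ * Fintype.card K) (n : ℕ) :
    ∃ G : Gad K, G.err ≤ (1 - κ) ^ n ∧ ∀ r ≤ r₀, (Hn r - (n + 1) * θ) / (2 * Hn r₀) ≤ G.LL r := by
  have hH : 0 < Hn r₀ := lt_of_lt_of_le (by simp [Hn]) (Hn_mono hr₀)
  induction n with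
  | zero =>
    obtain ⟨G, hG⟩ := base (K := K)
    refine ⟨G, by simpa using err_le_one G, fun r hr => ?_⟩
    rcases Nat.eq_zero_or_pos r with rfl | h
    · refine le_trans (div_nonpos_of_nonpos_of_nonneg ?_ (by positivity)) (LL_nonneg G 0)
      rw [Hn_zero]
      simpa using hθ
    · refine le_trans ?_ (hG r h)
      have hK : (0 : ℝ) < Fintype.card K := Nat.cast_pos.2 Fintype.card_pos
      have h1 := Hn_mono hr
      have h2 : Hn r₀ * (1 / Fintype.card K) ≤ θ := by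
        rw [mul_one_div, div_le_iff₀ hK]; exact hD
      rw [div_le_iff₀ (by positivity)]
      push_cast
      nlinarith
  | succ n ih =>
    obtain ⟨G, h1, h2⟩ := ih
    refine ⟨C.step G, (err_step C G).trans ?_, fun r hr => ?_⟩
    · rw [pow_succ']
      exact mul_le_mul hA h1 (err_nonneg G) (by linarith)
    · have key : ∀ c : K →ₗ[ZMod 2] F2 r, ∃ η : C.Y →ₗ[ZMod 2] F2 r,
          𝔼 v, G.LL (C.rk c η v) ≤ (C.step G).phi c := fun c => by
        obtain ⟨μ, hμ⟩ := exists_eq_ciInf_of_finite (f := (C.step G).det c)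
        obtain ⟨η, hη⟩ := det_step C G c μ
        exact ⟨η, hη.trans hμ.le⟩
      choose η hη using key
      have h3 : ∀ c v, (Hn r - (n + 1) * θ) / (2 * Hn r₀) -
          (Hn r - Hn (C.rk c (η c) v)) / (2 * Hn r₀) ≤ G.LL (C.rk c (η c) v) := fun c v => by
        refine le_trans (le_of_eq ?_) (h2 _ ((rank_le _).trans hr))
        unfold Core.rk
        ring
      refine le_trans ?_ (expect_mono fun c => (expect_mono (h3 c)).trans (hη c))
      simp only [Finset.expect_sub_distrib (f := fun _ => (Hn r - (n + 1) * θ) / (2 * Hn r₀)),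
        Fintype.expect_const, ← Finset.expect_div]
      rw [← sub_div]
      refine div_le_div_of_nonneg_right ?_ (by positivity)
      have := hB r hr η
      push_cast
      linarith

theorem top (C : Core K) (G : Gad K) {r₀ : ℕ}
    (hC : ∀ c : K →ₗ[ZMod 2] F2 r₀, Function.Surjective c → ∀ η : C.Y →ₗ[ZMod 2] F2 r₀,
      𝔼 v, ind (C.rk c η v ≠ r₀) ≤ 1 / 2) (hL : 1 / 4 ≤ G.LL r₀) :
    (C.step G).Sound r₀ (7 / 8) := by
  intro Z _ _ _ Γ hΓ
  obtain ⟨π, hπ⟩ := exists_proj _ hΓ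
  obtain ⟨η, hη⟩ := det_step C G (π ∘ₗ Γ ∘ₗ LinearMap.inl _ _ _) (π ∘ₗ Γ ∘ₗ LinearMap.inr _ _ _)
  have h1 := hC _ hπ η
  have h2 : ∀ v, (1 - ind (C.rk (π ∘ₗ Γ ∘ₗ LinearMap.inl _ _ _) η v ≠ r₀)) / 4 ≤
      G.LL (C.rk (π ∘ₗ Γ ∘ₗ LinearMap.inl _ _ _) η v) := fun v => by
    by_cases h : C.rk (π ∘ₗ Γ ∘ₗ LinearMap.inl _ _ _) η v = r₀
    · rw [ind_neg (not_not.2 h), h, sub_zero]
      exact hL
    · rw [ind_pos h, sub_self, zero_div]
      exact LL_nonneg _ _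
  have h3 := (expect_mono h2).trans hη
  rw [← Finset.expect_div, Finset.expect_sub_distrib, Fintype.expect_const] at h3
  have h4 : ∀ ω, ind (Γ ((C.step G).a ω) = 0) ≤ 1 - ind ((π ∘ₗ Γ ∘ₗ LinearMap.inl _ _ _)
      ((C.step G).a ω).1 + (π ∘ₗ Γ ∘ₗ LinearMap.inr _ _ _) ((C.step G).a ω).2 ≠ 0) := fun ω => by
    rw [← ind_not]
    refine ind_mono fun h => not_not.2 ?_
    change π (Γ (((C.step G).a ω).1, 0)) + π (Γ (0, ((C.step G).a ω).2)) = 0
    rw [← map_add, ← map_add, Prod.mk_add_mk, add_zero, zero_add, Prod.mk.eta, h, map_zero]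
  refine (expect_mono h4).trans ?_
  rw [Finset.expect_sub_distrib, Fintype.expect_const]
  unfold Gad.det at h3
  linarith

end Vale.Agent.P325.Gd
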