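import Vale.Agent.P325.GadgetDefs

/-!
# Expectations, uniform linear maps, ranks
-/

namespace Vale.Agent.P325.Gd

open Finset Module
open scoped BigOperators
theorem ind_pos {p : Prop} (h : p) : ind p = 1 := if_pos h

theorem ind_neg {p : Prop} (h : ¬ p) : ind p = 0 := if_neg h

theorem ind_nonneg (p : Prop) : 0 ≤ ind p := by
  unfold ind; split_ifs <;> norm_num

theorem ind_le_one (p : Prop) : ind p ≤ 1 := by
  unfold ind; split_ifs <;> norm_num

theorem ind_mono {p q : Prop} (h : p → q) : ind p ≤ ind q := by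
  by_cases hp : p
  · rw [ind_pos hp, ind_pos (h hp)]
  · rw [ind_neg hp]; exact ind_nonneg q

theorem ind_congr {p q : Prop} (h : p ↔ q) : ind p = ind q := by rw [propext h]

theorem ind_not (p : Prop) : ind (¬ p) = 1 - ind p := by
  by_cases hp : p
  · rw [ind_pos hp, ind_neg (not_not.2 hp), sub_self]
  · rw [ind_neg hp, ind_pos hp, sub_zero]

theorem ind_or_le (p q : Prop) : ind (p ∨ q) ≤ ind p + ind q := by
  by_cases hp : p
  · rw [ind_pos hp]; linarith [ind_le_one (p ∨ q), ind_nonneg q]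
  · rw [ind_neg hp, zero_add]; exact ind_mono fun h => h.resolve_left hp

theorem ind_exists_le {ι : Type} (s : Finset ι) (p : ι → Prop) :
    ind (∃ i ∈ s, p i) ≤ ∑ i ∈ s, ind (p i) := by
  by_cases h : ∃ i ∈ s, p i
  · rw [ind_pos h]
    obtain ⟨i, hi, hp⟩ := h
    rw [← ind_pos hp]
    exact single_le_sum (f := fun i => ind (p i)) (fun j _ => ind_nonneg _) hi
  · rw [ind_neg h]; exact sum_nonneg fun j _ => ind_nonneg _

open Classical in
theorem expect_ind {α : Type} [Fintype α] (p : α → Prop) :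
    𝔼 a, ind (p a) = ((univ.filter p).card : ℝ) / Fintype.card α := by
  rw [expect_eq_sum_div_card, card_univ, card_filter]
  push_cast
  rfl

theorem expect_mono {α : Type} [Fintype α] {f g : α → ℝ} (h : ∀ a, f a ≤ g a) :
    𝔼 a, f a ≤ 𝔼 a, g a := expect_le_expect fun a _ => h a

theorem expect_le_const {α : Type} [Fintype α] [Nonempty α] {f : α → ℝ} {c : ℝ}
    (h : ∀ a, f a ≤ c) : 𝔼 a, f a ≤ c := expect_le univ_nonempty fun a _ => h a

theorem const_le_expect {α : Type} [Fintype α] [Nonempty α] {f : α → ℝ} {c : ℝ}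
    (h : ∀ a, c ≤ f a) : c ≤ 𝔼 a, f a := le_expect univ_nonempty fun a _ => h a

theorem expect_prod' {α β : Type} [Fintype α] [Fintype β] (f : α × β → ℝ) :
    𝔼 z, f z = 𝔼 a, 𝔼 b, f (a, b) := by
  rw [← univ_product_univ, expect_product]

theorem expect_equiv' {α β : Type} [Fintype α] [Fintype β] (e : α ≃ β) (f : β → ℝ) :
    𝔼 a, f (e a) = 𝔼 b, f b := Fintype.expect_equiv e _ _ fun _ => rfl

theorem expect_add_right {A : Type} [AddCommGroup A] [Fintype A] (φ : A → ℝ) (c : A) :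
    𝔼 a, φ (a + c) = 𝔼 a, φ a := expect_equiv' (Equiv.addRight c) φ

theorem expect_apply {ι α : Type} [Fintype ι] [DecidableEq ι] [Fintype α] [Nonempty α] (i : ι)
    (φ : α → ℝ) : 𝔼 x : ι → α, φ (x i) = 𝔼 a, φ a := by
  rw [← expect_equiv' (Equiv.funSplitAt i α).symm, expect_prod']
  refine expect_congr rfl fun a _ => ?_
  simp [Equiv.funSplitAt, Equiv.piSplitAt]

theorem expect_comp_surj {A B : Type} [AddCommGroup A] [AddCommGroup B] [Fintype A] [Fintype B]
    (f : A →+ B) (hf : Function.Surjective f) (φ : B → ℝ) : 𝔼 a, φ (f a) = 𝔼 b, φ b := by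
  classical
  obtain ⟨σ, hσ⟩ := hf.hasRightInverse
  have h1 : ∀ b : B, 𝔼 a, φ (f a) = 𝔼 a, φ (f a + b) := fun b => by
    rw [← expect_add_right (fun a => φ (f a)) (σ b)]
    simp only [map_add, hσ b]
  calc 𝔼 a, φ (f a) = 𝔼 b : B, 𝔼 a, φ (f a + b) := by
        rw [expect_congr rfl fun b _ => (h1 b).symm, expect_const univ_nonempty]
    _ = 𝔼 a : A, 𝔼 b, φ (f a + b) := expect_comm _ _ _
    _ = 𝔼 _a : A, 𝔼 b, φ b := expect_congr rfl fun a _ => by
        simpa only [add_comm] using expect_add_right φ (f a)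
    _ = 𝔼 b, φ b := expect_const univ_nonempty _

section Lin

variable {K P Z : Type} [AddCommGroup K] [Module (ZMod 2) K] [AddCommGroup P] [Module (ZMod 2) P]
  [AddCommGroup Z] [Module (ZMod 2) Z]

theorem add_self_eq (k : K) : k + k = 0 := by
  rw [← two_smul (ZMod 2) k, show (2 : ZMod 2) = 0 from rfl, zero_smul]

theorem expect_hom_apply [Fintype K] [Fintype P] {d : K} (hd : d ≠ 0) (φ : P → ℝ) :
    𝔼 R : K →ₗ[ZMod 2] P, φ (R d) = 𝔼 p, φ p := by
  refine expect_comp_surj (A := K →ₗ[ZMod 2] P)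
    (AddMonoidHom.mk' (fun R => R d) fun _ _ => rfl) (fun p => ?_) φ
  obtain ⟨χ, hχ⟩ := Module.Projective.exists_dual_eq_one (ZMod 2) hd
  exact ⟨χ.smulRight p, by simp [hχ]⟩

theorem expect_hom_comp [Fintype K] [Fintype P] [Fintype Z] (σ : P →ₗ[ZMod 2] Z)
    (hσ : Function.Surjective σ) (φ : (K →ₗ[ZMod 2] Z) → ℝ) :
    𝔼 R : K →ₗ[ZMod 2] P, φ (σ ∘ₗ R) = 𝔼 c, φ c := by
  refine expect_comp_surj (A := K →ₗ[ZMod 2] P)
    (AddMonoidHom.mk' (fun R => σ ∘ₗ R) fun _ _ => LinearMap.comp_add _ _ _) (fun c => ?_) φ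
  obtain ⟨τ, hτ⟩ := σ.exists_rightInverse_of_surjective (LinearMap.range_eq_top.2 hσ)
  exact ⟨τ ∘ₗ c, by
    change σ ∘ₗ τ ∘ₗ c = c
    rw [← LinearMap.comp_assoc, hτ, LinearMap.id_comp]⟩

theorem exists_proj [Finite Z] (ψ : P →ₗ[ZMod 2] Z) {r : ℕ}
    (h : r ≤ finrank (ZMod 2) (LinearMap.range ψ)) :
    ∃ π : Z →ₗ[ZMod 2] F2 r, Function.Surjective (π ∘ₗ ψ) := by
  let b := Module.finBasis (ZMod 2) (LinearMap.range ψ)
  let f : LinearMap.range ψ →ₗ[ZMod 2] F2 r :=
    LinearMap.funLeft (ZMod 2) (ZMod 2) (Fin.castLE h) ∘ₗ b.equivFun.toLinearMap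
  have hf : Function.Surjective f :=
    (LinearMap.funLeft_surjective_of_injective (ZMod 2) (ZMod 2) _
      (Fin.castLE_injective h)).comp b.equivFun.surjective
  obtain ⟨π, hπ⟩ := f.exists_extend
  refine ⟨π, fun z => ?_⟩
  obtain ⟨⟨_, p, rfl⟩, hp⟩ := hf z
  exact ⟨p, by rw [← hp, ← hπ]; rfl⟩

theorem rank_le {r : ℕ} (ψ : P →ₗ[ZMod 2] F2 r) : finrank (ZMod 2) (LinearMap.range ψ) ≤ r := by
  simpa using Submodule.finrank_le (LinearMap.range ψ)

open Classical in
theorem rank_ge_of_card {r : ℕ} (ψ : P →ₗ[ZMod 2] F2 r) (k : ℕ)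
    (h : (univ.filter fun s : F2 r => ∀ p, s ⬝ᵥ ψ p = 0).card ≤ 2 ^ k) :
    r ≤ finrank (ZMod 2) (LinearMap.range ψ) + k := by
  let D : F2 r →ₗ[ZMod 2] Module.Dual (ZMod 2) (LinearMap.range ψ) :=
    (LinearMap.range ψ).subtype.dualMap ∘ₗ (dotProductEquiv (ZMod 2) (Fin r)).toLinearMap
  have hk : (univ.filter fun s : F2 r => ∀ p, s ⬝ᵥ ψ p = 0).card =
      2 ^ finrank (ZMod 2) (LinearMap.ker D) := by
    have h1 := Module.natCard_eq_pow_finrank (K := ZMod 2) (V := LinearMap.ker D)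
    rw [Nat.card_zmod] at h1
    rw [← h1]
    refine (Nat.subtype_card _ fun s => ?_).symm
    simp only [mem_filter, mem_univ, true_and, LinearMap.mem_ker]
    constructor
    · intro hs
      ext ⟨_, p, rfl⟩
      simpa [D] using hs p
    · intro hs p
      simpa [D] using LinearMap.congr_fun hs ⟨ψ p, p, rfl⟩
  rw [hk] at h
  have h2 := (Nat.pow_le_pow_iff_right (by norm_num)).1 h
  have h3 := D.finrank_range_add_finrank_ker
  have h4 := (LinearMap.range D).finrank_le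
  rw [Subspace.dual_finrank_eq] at h4
  simp only [finrank_fintype_fun_eq_card, Fintype.card_fin] at h3
  omega

end Lin

theorem Hn_nonneg (r : ℕ) : 0 ≤ Hn r := sum_nonneg fun i _ => by positivity

theorem Hn_zero : Hn 0 = 0 := by simp [Hn]

theorem Hn_succ (r : ℕ) : Hn (r + 1) = Hn r + 1 / ((r : ℝ) + 1) := sum_range_succ _ _

theorem Hn_mono : Monotone Hn := monotone_nat_of_le_succ fun r => by
  rw [Hn_succ]; exact le_add_of_nonneg_right (by positivity)

theorem Hn_large (x : ℝ) : ∃ r : ℕ, 1 ≤ r ∧ x ≤ Hn r := by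
  obtain ⟨r, hr⟩ := ((Real.tendsto_sum_range_one_div_nat_succ_atTop.eventually_ge_atTop x).and
    (Filter.eventually_ge_atTop 1)).exists
  exact ⟨r, hr.2, hr.1⟩

end Vale.Agent.P325.Gd
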