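import Vale.Agent.P325.Four

/-!
HAS, analysis of the test on one edge (toolbox: `Four.lean`).

`has_noise`: `chi (S ⬝ᵥ noise z) = ∏ a, chi (S a * noise z a)` (`chi_sum`); the mean over `z` of a product is the product of the
means (`Fintype.expect_eq_sum_div_card`, `Finset.prod_univ_sum` / `Fintype.piFinset_univ`); a factor is `1` if `S a = 0` and
`1 - 2 / (q + 1)` otherwise.
`has_bias`: expand `γ` by `Perf.inversion`; `S ⬝ᵥ (x ∘ π + y + η) = pi2 π S ⬝ᵥ x + S ⬝ᵥ y + S ⬝ᵥ η` (`dot_pi2`, by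
`Finset.sum_fiberwise`), `chi_add`, `Finset.expect_sum_comm`, `mul_expect`.
`has_rho`: with `t = 2 / (q + 1) ≤ 1`, Bernoulli `1 + s t ≤ (1 + t) ^ s` and `(1 - t) (1 + t) ≤ 1` give `s t (1 - t) ^ s ≤ 1`.
`hnu_sum`: exchange the sums; every `S ≠ 0` contributes `wt S * (hat ^ 2 / wt S)`; Parseval.  `hmu_sum`: `sum_fiberwise`.
`has_sq`: Cauchy-Schwarz (`Finset.sum_mul_sq_le_sq_mul_sq`, `parseval_chi` for `γ`) bounds the square of the bias by
`∑ S, hat α (pi2 π S) ^ 2 * hat β S ^ 2 * ρ ^ (2 wt S)`.  Folding gives `hat α 0 = 0` (`expect_add_right'` with `k = 1`).  If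
`T = pi2 π S ≠ 0` then `T (pick T) ≠ 0`, so some `a₀` has `S a₀ ≠ 0` and `π a₀ = pick T`; hence
`hat α T ^ 2 ≤ hmu α (π a₀) ≤ ∑ a with S a ≠ 0, hmu α (π a)`, and `ρ ^ (2 s) ≤ ρ ^ s ≤ (q + 1) / (2 s)`.  Finally
`∑ a, hnu β a * hmu α (π a) = ∑ S, hat β S ^ 2 / wt S * ∑ a with S a ≠ 0, hmu α (π a)`.
-/

namespace Vale.Agent.P325

open Finset
open scoped BigOperators

variable {A B : Type} [Fintype A] [DecidableEq A] [Fintype B] [DecidableEq B]

/-- Push forward of a vector, modulo two. -/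
def pi2 (π : A → B) (S : A → ZMod 2) : B → ZMod 2 := fun b => ∑ a with π a = b, S a

/-- Hamming weight. -/
def wt (S : A → ZMod 2) : ℕ := (univ.filter fun a => S a ≠ 0).card

/-- The noise vector. -/
def noise {q : ℕ} (z : A → Fin (q + 1)) : A → ZMod 2 := fun a => if z a = 0 then 1 else 0

open Classical in
/-- A point of the support. -/
noncomputable def pick [Nonempty B] (T : B → ZMod 2) : B :=
  if h : ∃ b, T b ≠ 0 then h.choose else Classical.arbitrary B

/-- Random label of the big side. -/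
noncomputable def hnu (β : (A → ZMod 2) → ℝ) (a : A) : ℝ :=
  ∑ S : A → ZMod 2 with S a ≠ 0, hat β S ^ 2 / wt S

/-- Random label of the small side. -/
noncomputable def hmu [Nonempty B] (α : (B → ZMod 2) → ℝ) (b : B) : ℝ :=
  ∑ T : B → ZMod 2 with pick T = b, hat α T ^ 2

theorem dot_pi2 (π : A → B) (S : A → ZMod 2) (x : B → ZMod 2) :
    S ⬝ᵥ (x ∘ π) = pi2 π S ⬝ᵥ x := by
  simp only [dotProduct, pi2, Finset.sum_mul, Function.comp]
  rw [← Finset.sum_fiberwise univ π fun a => S a * x (π a)]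
  refine Finset.sum_congr rfl fun b _ => Finset.sum_congr rfl fun a ha => ?_
  rw [(Finset.mem_filter.1 ha).2]

theorem hc_expect_prod {I : Type} [Fintype I] (f : A → I → ℝ) :
    (𝔼 z : A → I, ∏ a, f a (z a)) = ∏ a, 𝔼 i, f a i := by
  simp only [Fintype.expect_eq_sum_div_card]
  rw [Finset.prod_div_distrib, Finset.prod_univ_sum, Fintype.piFinset_univ, prod_const,
    Fintype.card_fun, card_univ]
  push_cast
  rfl

theorem has_noise (q : ℕ) (S : A → ZMod 2) :
    (𝔼 z : A → Fin (q + 1), chi (S ⬝ᵥ noise z)) = (1 - 2 / (q + 1 : ℝ)) ^ wt S := by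
  have h1 : ∀ z : A → Fin (q + 1), chi (S ⬝ᵥ noise z) =
      ∏ a, chi (S a * (if z a = 0 then 1 else 0)) := fun z => chi_sum _ _
  simp only [h1]
  rw [hc_expect_prod fun a (i : Fin (q + 1)) => chi (S a * (if i = 0 then 1 else 0))]
  have h2 : ∀ a, (𝔼 i : Fin (q + 1), chi (S a * (if i = 0 then 1 else 0))) =
      if S a ≠ 0 then 1 - 2 / (q + 1 : ℝ) else 1 := fun a => by
    rcases z2_cases (S a) with h | h
    · simp [h]
    · rw [h, if_pos (by decide), Fintype.expect_eq_sum_div_card, Fin.sum_univ_succ]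
      simp only [Fin.succ_ne_zero, if_true, if_false, mul_one, mul_zero, chi_one, chi_zero,
        sum_const, card_univ, Fintype.card_fin, nsmul_eq_mul]
      push_cast
      field_simp
      ring
  simp only [h2]
  rw [Finset.prod_ite, prod_const, prod_const_one, mul_one, wt]

theorem has_bias (q : ℕ) (π : A → B) (α : (B → ZMod 2) → ℝ) (β γ : (A → ZMod 2) → ℝ) :
    (𝔼 x, 𝔼 y, 𝔼 z : A → Fin (q + 1), α x * β y * γ (x ∘ π + y + noise z)) =
      ∑ S, hat α (pi2 π S) * hat β S * hat γ S * (1 - 2 / (q + 1 : ℝ)) ^ wt S := by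
  have h1 : ∀ (x : B → ZMod 2) (y : A → ZMod 2) (z : A → Fin (q + 1)),
      α x * β y * γ (x ∘ π + y + noise z) = ∑ S, (α x * chi (pi2 π S ⬝ᵥ x)) *
        (β y * chi (S ⬝ᵥ y)) * hat γ S * chi (S ⬝ᵥ noise z) := fun x y z => by
    rw [perf_dot.inversion γ (x ∘ π + y + noise z), Finset.mul_sum]
    refine Finset.sum_congr rfl fun S _ => ?_
    rw [dotProduct_add, dotProduct_add, chi_add, chi_add, dot_pi2]
    ring
  simp only [h1, Finset.expect_sum_comm]
  refine Finset.sum_congr rfl fun S _ => ?_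
  simp only [← Finset.mul_expect, ← Finset.expect_mul, has_noise]
  rfl

theorem has_rho {q : ℕ} (hq : 1 ≤ q) (s : ℕ) :
    s * (1 - 2 / (q + 1 : ℝ)) ^ s ≤ (q + 1) / 2 := by
  have hq' : (1 : ℝ) ≤ q := by exact_mod_cast hq
  have hp : (0 : ℝ) < q + 1 := by linarith
  set t : ℝ := 2 / (q + 1) with ht
  have t0 : 0 < t := by positivity
  have t1 : t ≤ 1 := by rw [ht, div_le_one hp]; linarith
  have h1 : 1 + s * t ≤ (1 + t) ^ s := one_add_mul_le_pow (by linarith) s
  have h2 : (1 + t) ^ s * (1 - t) ^ s ≤ 1 := by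
    rw [← mul_pow]
    exact pow_le_one₀ (mul_nonneg (by linarith) (by linarith)) (by nlinarith)
  have h3 : 0 ≤ (1 - t) ^ s := pow_nonneg (by linarith) s
  have h4 := mul_le_mul_of_nonneg_right h1 h3
  have h5 : (q + 1 : ℝ) / 2 * t = 1 := by rw [ht]; field_simp
  refine le_of_mul_le_mul_right ?_ t0
  rw [h5]
  nlinarith

theorem hnu_nonneg (β : (A → ZMod 2) → ℝ) (a : A) : 0 ≤ hnu β a := by
  exact Finset.sum_nonneg fun S _ => by positivity

theorem hmu_nonneg [Nonempty B] (α : (B → ZMod 2) → ℝ) (b : B) : 0 ≤ hmu α b := by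
  exact Finset.sum_nonneg fun S _ => by positivity

theorem hc_swap (β : (A → ZMod 2) → ℝ) (m : A → ℝ) :
    ∑ a, hnu β a * m a = ∑ S, hat β S ^ 2 / wt S * ∑ a with S a ≠ 0, m a := by
  simp only [hnu, Finset.sum_mul, Finset.mul_sum, Finset.sum_filter]
  rw [Finset.sum_comm]
  refine Finset.sum_congr rfl fun S _ => Finset.sum_congr rfl fun a _ => ?_
  split_ifs <;> simp

theorem hnu_sum (F : (A → ZMod 2) → ZMod 2) : ∑ a, hnu (fun y => chi (F y)) a ≤ 1 := by
  have h1 := hc_swap (fun y => chi (F y)) fun _ => 1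
  simp only [mul_one, sum_const, nsmul_eq_mul] at h1
  rw [h1, ← perf_dot.parseval_chi F]
  refine Finset.sum_le_sum fun S _ => ?_
  rw [div_mul_eq_mul_div, mul_div_assoc]
  exact mul_le_of_le_one_right (sq_nonneg _) (div_self_le_one _)

theorem hmu_sum [Nonempty B] (F : (B → ZMod 2) → ZMod 2) :
    ∑ b, hmu (fun x => chi (F x)) b ≤ 1 := by
  rw [← perf_dot.parseval_chi F]
  exact (Finset.sum_fiberwise univ pick fun T => hat (fun x => chi (F x)) T ^ 2).le

theorem has_sq [Nonempty B] {q : ℕ} (hq : 1 ≤ q) (π : A → B) (F₀ : (B → ZMod 2) → ZMod 2)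
    (F₁ F₂ : (A → ZMod 2) → ZMod 2) (hfold : ∀ x, F₀ (x + 1) = F₀ x + 1) :
    (𝔼 x, 𝔼 y, 𝔼 z : A → Fin (q + 1),
        chi (F₀ x) * chi (F₁ y) * chi (F₂ (x ∘ π + y + noise z))) ^ 2 ≤
      (q + 1) / 2 * ∑ a, hnu (fun y => chi (F₁ y)) a * hmu (fun x => chi (F₀ x)) (π a) := by
  rw [has_bias q π (fun x => chi (F₀ x)) (fun y => chi (F₁ y)) fun y => chi (F₂ y), hc_swap,
    Finset.mul_sum]
  set α : (B → ZMod 2) → ℝ := fun x => chi (F₀ x) with hα
  set β : (A → ZMod 2) → ℝ := fun y => chi (F₁ y) with hβ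
  set ρ : ℝ := 1 - 2 / (q + 1 : ℝ) with hρ
  have hq' : (1 : ℝ) ≤ q := by exact_mod_cast hq
  have r0 : 0 ≤ ρ := by
    rw [hρ, sub_nonneg, div_le_one (by linarith)]; linarith
  have r1 : ρ ≤ 1 := sub_le_self _ (by positivity)
  have h0 : hat α 0 = 0 := by
    have h := expect_add_right' (fun x => chi (F₀ x)) 1
    simp only [hfold, chi_add, chi_one, mul_neg_one] at h
    rw [Finset.expect_neg_distrib] at h
    simp only [hatB, zero_dotProduct, chi_zero, mul_one, hα]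
    linarith
  have h1 := Finset.sum_mul_sq_le_sq_mul_sq univ
    (fun S => hat α (pi2 π S) * hat β S * ρ ^ wt S) fun S => hat (fun y => chi (F₂ y)) S
  rw [perf_dot.parseval_chi F₂, mul_one] at h1
  refine le_trans (le_of_eq ?_) (h1.trans (Finset.sum_le_sum fun S _ => ?_))
  · congr 1
    exact Finset.sum_congr rfl fun S _ => by ring
  have hm : 0 ≤ ∑ a with S a ≠ 0, hmu α (π a) := Finset.sum_nonneg fun a _ => hmu_nonneg α _
  by_cases hT : pi2 π S = 0
  · rw [hT, h0]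
    simp only [zero_mul, ne_eq, OfNat.ofNat_ne_zero, not_false_eq_true, zero_pow]
    positivity
  have h2 : ∃ b, pi2 π S b ≠ 0 := Function.ne_iff.1 hT
  have h3 : pi2 π S (pick (pi2 π S)) ≠ 0 := by
    rw [pick, dif_pos h2]
    exact h2.choose_spec
  obtain ⟨a₀, ha₀, ha₁⟩ := Finset.exists_ne_zero_of_sum_ne_zero h3
  have ha₂ : a₀ ∈ univ.filter fun a => S a ≠ 0 := by simpa using ha₁
  have h4 : hat α (pi2 π S) ^ 2 ≤ ∑ a with S a ≠ 0, hmu α (π a) := by
    refine le_trans ?_ (Finset.single_le_sum (f := fun a => hmu α (π a))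
      (fun a _ => hmu_nonneg α _) ha₂)
    rw [(Finset.mem_filter.1 ha₀).2]
    exact Finset.single_le_sum (f := fun T => hat α T ^ 2) (fun T _ => sq_nonneg _) (by simp)
  have h5 : (0 : ℝ) < wt S := by exact_mod_cast Finset.card_pos.2 ⟨a₀, ha₂⟩
  have h6 : (ρ ^ wt S) ^ 2 ≤ (q + 1) / 2 / wt S := by
    rw [le_div_iff₀ h5]
    have h7 := has_rho hq (wt S)
    have h8 : (ρ ^ wt S) ^ 2 ≤ ρ ^ wt S :=
      pow_le_of_le_one (pow_nonneg r0 _) (pow_le_one₀ r0 r1) two_ne_zero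
    nlinarith
  calc (hat α (pi2 π S) * hat β S * ρ ^ wt S) ^ 2
      = hat β S ^ 2 * (hat α (pi2 π S) ^ 2 * (ρ ^ wt S) ^ 2) := by ring
    _ ≤ hat β S ^ 2 * ((∑ a with S a ≠ 0, hmu α (π a)) * ((q + 1) / 2 / wt S)) :=
      mul_le_mul_of_nonneg_left (mul_le_mul h4 h6 (sq_nonneg _) hm) (sq_nonneg _)
    _ = _ := by ring

end Vale.Agent.P325
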