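import Vale.Agent.P325.Alph
import Vale.Agent.P325.HasCore

/-! HAS: from label cover to linear equations in three variables. -/

namespace Vale.Agent.P325

open Vale.Agent.Lib.H23 Finset
open scoped BigOperators

/-- Derandomization of one side. -/
theorem has_greedy {δ A : Type} [Fintype A] [Nonempty A] (l : List δ) (key : δ → ℕ)
    (w : δ → A → ℝ) (hw : ∀ c a, 0 ≤ w c a) (ν : ℕ → A → ℝ) (h0 : ∀ n a, 0 ≤ ν n a)
    (h1 : ∀ n, ∑ a, ν n a ≤ 1) : ∃ f : ℕ → A,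
      avg l (fun c => ∑ a, ν (key c) a * w c a) ≤ avg l fun c => w c (f (key c)) := by
  set W : ℕ → A → ℝ := fun n a => ∑ i : Fin l.length with key (l.get i) = n, w (l.get i) a with hW
  choose f hf using fun n => Finite.exists_max (W n)
  refine ⟨f, ?_⟩
  rw [avg_eq_expect, avg_eq_expect, Fintype.expect_eq_sum_div_card, Fintype.expect_eq_sum_div_card]
  refine div_le_div_of_nonneg_right ?_ (Nat.cast_nonneg _)
  have hm : ∀ i ∈ (univ : Finset (Fin l.length)),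
      key (l.get i) ∈ univ.image fun i : Fin l.length => key (l.get i) :=
    fun i hi => mem_image_of_mem _ hi
  rw [← Finset.sum_fiberwise_of_maps_to hm, ← Finset.sum_fiberwise_of_maps_to hm]
  refine Finset.sum_le_sum fun n _ => ?_
  have e1 : ∑ i : Fin l.length with key (l.get i) = n, ∑ a, ν (key (l.get i)) a * w (l.get i) a =
      ∑ a, ν n a * W n a := by
    rw [Finset.sum_comm]
    refine Finset.sum_congr rfl fun a _ => ?_
    rw [hW, Finset.mul_sum]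
    exact Finset.sum_congr rfl fun i hi => by rw [(mem_filter.1 hi).2]
  have e2 : ∑ i : Fin l.length with key (l.get i) = n, w (l.get i) (f (key (l.get i))) =
      W n (f n) := Finset.sum_congr rfl fun i hi => by rw [(mem_filter.1 hi).2]
  have hp : 0 ≤ W n (f n) := Finset.sum_nonneg fun i _ => hw _ _
  rw [e1, e2]
  calc ∑ a, ν n a * W n a ≤ ∑ a, ν n a * W n (f n) :=
        Finset.sum_le_sum fun a _ => mul_le_mul_of_nonneg_left (hf n a) (h0 n a)
    _ = (∑ a, ν n a) * W n (f n) := by rw [Finset.sum_mul]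
    _ ≤ _ := mul_le_of_le_one_left hp (h1 n)

variable {A B : Type} [Fintype A] [DecidableEq A] [Fintype B] [DecidableEq B]

omit [DecidableEq A] in
theorem has_derand [Nonempty A] [Nonempty B] {l : List (CP A B)} {δ : ℝ}
    (h : ∀ f g, avg l (fun c => ind (satP f g c)) ≤ δ) (ν : ℕ → A → ℝ) (μ : ℕ → B → ℝ)
    (hν0 : ∀ n a, 0 ≤ ν n a) (hν1 : ∀ n, ∑ a, ν n a ≤ 1) (hμ0 : ∀ n b, 0 ≤ μ n b)
    (hμ1 : ∀ n, ∑ b, μ n b ≤ 1) :
    avg l (fun c => ∑ a, ν (c.1 0) a * μ (c.1 1) (c.2.val a)) ≤ δ := by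
  obtain ⟨f, hf⟩ := has_greedy l (fun c => c.1 0) (fun c a => μ (c.1 1) (c.2.val a))
    (fun _ _ => hμ0 _ _) ν hν0 hν1
  obtain ⟨g, hg⟩ := has_greedy l (fun c => c.1 1) (fun c b => ind (c.2.val (f (c.1 0)) = b))
    (fun _ _ => ind_nonneg _) μ hμ0 hμ1
  refine hf.trans (le_trans (le_of_eq (avg_congr fun c _ => ?_)) (hg.trans (h f g)))
  simp only [ind_eq_ite, mul_ite, mul_one, mul_zero, Finset.sum_ite_eq, mem_univ, if_true]

/-- Random seeds of the test. -/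
abbrev HSeed (A B : Type) (q : ℕ) : Type := (B → ZMod 2) × (A → ZMod 2) × (A → Fin (q + 1))

/-- The test. -/
noncomputable def htest (b₀ : B) {q : ℕ} (c : CP A B) (ω : HSeed A B q) : C3 :=
  (![anm (c.1 1) fun b => ω.1 b + ω.1 b₀, anm (c.1 0) ω.2.1,
    anm (c.1 0) (ω.1 ∘ c.2.val + ω.2.1 + noise ω.2.2)], ⟨ω.1 b₀⟩)

theorem pt_htest {α : Type} [Enc α] (b₀ : B) {q : ℕ} {c : α → CP A B} (hc : PT c)
    (ω : HSeed A B q) : PT fun x => htest b₀ (c x) ω :=
  PT.pair (pt_vec3 (pt_pair (pt_apply hc.fst 1) (PT.const _))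
    (pt_pair (pt_apply hc.fst 0) (PT.const _))
    (pt_anm (pt_apply hc.fst 0) hc.snd fun π : A → B => ω.1 ∘ π + ω.2.1 + noise ω.2.2))
    (PT.const _)

theorem htest_sat (b₀ : B) {q : ℕ} (c : CP A B) (ω : HSeed A B q) (a : Fin 3 → ℕ → ZMod 2) :
    ind (sat3 a (htest b₀ c ω)) = (1 + chi (a 0 (anm (c.1 1) fun b => ω.1 b + ω.1 b₀) + ω.1 b₀) *
      chi (a 1 (anm (c.1 0) ω.2.1)) *
        chi (a 2 (anm (c.1 0) (ω.1 ∘ c.2.val + ω.2.1 + noise ω.2.2)))) / 2 := by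
  rw [sat3, ind_eq_chi, Fin.sum_univ_three, chi_add, chi_add, chi_add]
  change (1 + chi (a 0 (anm (c.1 1) fun b => ω.1 b + ω.1 b₀)) * chi (a 1 (anm (c.1 0) ω.2.1)) *
    chi (a 2 (anm (c.1 0) (ω.1 ∘ c.2.val + ω.2.1 + noise ω.2.2))) * chi (ω.1 b₀)) / 2 = _
  ring

theorem expect_half {Ω : Type} [Fintype Ω] [Nonempty Ω] (F : Ω → ℝ) :
    𝔼 ω, (1 + F ω) / 2 = (1 + 𝔼 ω, F ω) / 2 := by
  rw [← Finset.expect_div, Finset.expect_add_distrib, Fintype.expect_const]

theorem htest_complete (b₀ : B) (q : ℕ) (f : ℕ → A) (g : ℕ → B) : ∃ a : Fin 3 → ℕ → ZMod 2,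
    ∀ c : CP A B, satP f g c →
      (𝔼 ω : HSeed A B q, ind (sat3 a (htest b₀ c ω))) = 1 - 1 / (q + 1 : ℝ) := by
  obtain ⟨a0, h0⟩ := anm_exists fun n (x : B → ZMod 2) => x (g n)
  obtain ⟨a1, h1⟩ := anm_exists fun n (y : A → ZMod 2) => y (f n)
  refine ⟨![a0, a1, a1], fun c hc => ?_⟩
  have e : ∀ ω : HSeed A B q, ind (sat3 ![a0, a1, a1] (htest b₀ c ω)) =
      (1 + chi (Pi.single (f (c.1 0)) 1 ⬝ᵥ noise ω.2.2)) / 2 := fun ω => by
    rw [htest_sat, ← chi_add, ← chi_add, single_dotProduct, one_mul]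
    change (1 + chi (a0 _ + _ + a1 _ + a1 _)) / 2 = _
    rw [h0, h1, h1, Pi.add_apply, Pi.add_apply, Function.comp_apply, hc]
    generalize ω.1 (g (c.1 1)) = u
    generalize ω.1 b₀ = v
    generalize ω.2.1 (f (c.1 0)) = w
    generalize noise ω.2.2 (f (c.1 0)) = t
    rw [show ∀ u v w t : ZMod 2, u + v + v + w + (u + w + t) = t by decide]
  have hw : wt (Pi.single (f (c.1 0)) 1 : A → ZMod 2) = 1 := by
    rw [wt, Finset.card_eq_one]
    refine ⟨f (c.1 0), Finset.ext fun a => ?_⟩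
    by_cases h : a = f (c.1 0) <;> simp [h]
  simp only [e]
  rw [expect_half]
  simp only [expect_prod, Fintype.expect_const]
  rw [has_noise, hw]
  ring

theorem htest_sound [Nonempty B] (b₀ : B) {q : ℕ} (hq : 1 ≤ q) (a : Fin 3 → ℕ → ZMod 2)
    (c : CP A B) : (𝔼 ω : HSeed A B q, ind (sat3 a (htest b₀ c ω))) ≤ 5 / 8 + (q + 1) / 4 *
      ∑ s, hnu (fun y => chi (a 1 (anm (c.1 0) y))) s *
        hmu (fun x => chi (a 0 (anm (c.1 1) fun b => x b + x b₀) + x b₀)) (c.2.val s) := by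
  have h := has_sq hq c.2.val (fun x => a 0 (anm (c.1 1) fun b => x b + x b₀) + x b₀)
    (fun y => a 1 (anm (c.1 0) y)) (fun y => a 2 (anm (c.1 0) y)) fun x => by
      have e : (fun b => (x + 1 : B → ZMod 2) b + (x + 1 : B → ZMod 2) b₀) =
          fun b => x b + x b₀ := by
        funext b
        rw [Pi.add_apply, Pi.add_apply, Pi.one_apply, Pi.one_apply,
          show ∀ u v : ZMod 2, u + 1 + (v + 1) = u + v by decide]
      rw [e, Pi.add_apply, Pi.one_apply, add_assoc]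
  simp only [htest_sat]
  rw [expect_half]
  simp only [expect_prod]
  have key : ∀ t u : ℝ, t ^ 2 ≤ (q + 1) / 2 * u → (1 + t) / 2 ≤ 5 / 8 + (q + 1) / 4 * u :=
    fun t u h => by nlinarith [sq_nonneg (t - 1 / 2)]
  exact key _ _ h

theorem has (hLC : LCStmt) : HasStmt := by
  intro ε hε
  obtain ⟨q, hq⟩ := exists_nat_one_div_lt hε
  have hq1 : (1 : ℝ) / ((q + 1 : ℕ) + 1) ≤ ε := by
    refine le_trans ?_ hq.le
    push_cast
    exact one_div_le_one_div_of_le (by positivity) (by linarith)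
  generalize hq' : q + 1 = n at hq1
  have hn : 1 ≤ n := by omega
  obtain ⟨A, B, _, _, _, _, _, _, r, hr, H⟩ := hLC (1 / (2 * (n + 1))) (by positivity)
  obtain ⟨b₀⟩ : Nonempty B := inferInstance
  refine ⟨fun φ => locMap (r φ) (htest (q := n) b₀),
    pt_locMap (g := fun _ => htest (q := n) b₀) hr fun ω => pt_htest b₀ PT.snd' ω, fun φ =>
    ⟨locMap_ne_nil (H φ).1 _, fun hs => ?_, fun hs a => ?_⟩⟩
  · obtain ⟨f, g, hfg⟩ := (H φ).2.1 hs
    obtain ⟨a, ha⟩ := htest_complete b₀ n f g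
    refine ⟨a, ?_⟩
    rw [avg_locMap, avg_congr fun c hc => ha c (hfg c hc), avg_const (H φ).1]
    linarith
  · have h := has_derand ((H φ).2.2 hs) (fun m => hnu fun y => chi (a 1 (anm m y)))
      (fun m => hmu fun x => chi (a 0 (anm m fun b => x b + x b₀) + x b₀))
      (fun _ _ => hnu_nonneg _ _) (fun _ => hnu_sum _) (fun _ _ => hmu_nonneg _ _)
      fun _ => hmu_sum _
    rw [avg_locMap]
    refine (avg_mono fun c _ => htest_sound b₀ hn a c).trans ?_
    rw [avg_add, avg_const (H φ).1, avg_mul_left]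
    have h2 := mul_le_mul_of_nonneg_left h (by positivity : (0 : ℝ) ≤ (n + 1) / 4)
    have h3 : ((n : ℝ) + 1) / 4 * (1 / (2 * (n + 1))) = 1 / 8 := by field_simp; norm_num
    linarith

end Vale.Agent.P325
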