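import Vale.Agent.P325.InnerAux

/-!
Completeness of the inner test.
Plan.  `Fv v = v.1 + Fb v.2`.  Table
`T v = Fv (∑ p, α p.2 (v.2 p) • v.1.1 p + (0, v.1.2))`.  If `sat3 α (U i)` for all `i` then
`fU T U M = Fv (∑ j, z0 j • M j)` with `z0 none = 1`, `z0 (some p) = α p.2 ((U p.1).1 p.2)`:
`α p.2 (nms U M p) • red M p = z0 (some p) • red M p` (trivial if `red M p = 0`),
`∑ p, z0 p • red M p = ∑ p, z0 p • M p + ∑ i, b i • anc (blk M i)` (the slot values of equation `i`
add up to `b i`), so `∑ p, z0 p • red M p + cen U M = ∑ j, z0 j • M j` (characteristic two), and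
`Fv (w + (0, c.2)) + c.1 = Fv (w + c)`.
Put `P M = ∑ j, z0 j • M j`; `P (M + rk1 y v) = P M + (y ⬝ᵥ z0) • v`; if `y ⬝ᵥ z0 = 0` the test accepts,
otherwise it rejects iff `v.1 + Fb ((P M).2 + v.2) ≠ Fb (P M).2`.  `P M` is uniform: for `G : VV → ℝ`,
`𝔼 M, G (P M) = 𝔼 v, G v` (translate `M` by `Pi.single none v`, average over `v`, `expect_add_left'`).
So `1 - η ≤ acc a T U` for such `U`.  In general `acc ≥ 0`, so
`acc a T U ≥ 1 - η - ∑ i, ind (¬ sat3 α (U i))` (if some `i` fails the right side is `≤ -η ≤ 0`; note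
`0 ≤ η` from `hη`); average over `t` with `expect_eval`.
-/

namespace Vale.Agent.P325

open Finset
open scoped BigOperators

theorem comp_add_self {V : Type} [AddCommGroup V] [Module (ZMod 2) V] (x : V) : x + x = 0 := by
  rw [← one_smul (ZMod 2) x, ← add_smul, z2_add_self, zero_smul]

section comp

variable {k l D : ℕ}

def comp_Fv (Fb : F2 D → F2 l) (v : VV l D) : F2 l := v.1 + Fb v.2

def comp_T (Fb : F2 D → F2 l) (α : Fin 3 → ℕ → ZMod 2) (v : Vert k l D) : F2 l :=
  comp_Fv Fb (∑ p, α p.2 (v.2 p) • v.1.1 p + (0, v.1.2))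

def comp_z (α : Fin 3 → ℕ → ZMod 2) (U : Fin k → C3) : Zi k → ZMod 2
  | none => 1
  | some p => α p.2 ((U p.1).1 p.2)

def comp_P (z : Zi k → ZMod 2) (M : Zi k → VV l D) : VV l D := ∑ j, z j • M j

theorem comp_P_add (z : Zi k → ZMod 2) (M N : Zi k → VV l D) :
    comp_P z (M + N) = comp_P z M + comp_P z N := by
  simp only [comp_P, Pi.add_apply, smul_add, sum_add_distrib]

theorem comp_P_rk1 (z y : Zi k → ZMod 2) (v : VV l D) :
    comp_P z (rk1 y v) = (∑ j, z j * y j) • v := by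
  simp only [comp_P, rk1, smul_smul, sum_smul]

theorem comp_P_single (z : Zi k → ZMod 2) (hz : z none = 1) (v : VV l D) :
    comp_P z (Pi.single none v) = v := by
  rw [comp_P, Finset.sum_eq_single none (fun j _ hj => by simp [hj]) (by simp), hz]
  simp

theorem comp_fU (Fb : F2 D → F2 l) {α : Fin 3 → ℕ → ZMod 2} {U : Fin k → C3}
    (hU : ∀ i, sat3 α (U i)) (M : Zi k → VV l D) :
    fU (comp_T Fb α) U M = comp_Fv Fb (comp_P (comp_z α U) M) := by
  have h1 : ∑ p : Fin k × Fin 3, α p.2 (nms U M p) • red M p =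
      ∑ p : Fin k × Fin 3, comp_z α U (some p) • red M p := by
    refine sum_congr rfl fun p _ => ?_
    by_cases h : red M p = 0
    · rw [h, smul_zero, smul_zero]
    · rw [nms, if_neg h]; rfl
  have h2 : ∑ p : Fin k × Fin 3, comp_z α U (some p) • red M p =
      ∑ p : Fin k × Fin 3, comp_z α U (some p) • M (some p) +
        ∑ i, (U i).2.val • anc (blk M i) := by
    simp only [red, smul_add, sum_add_distrib]
    congr 1
    rw [Fintype.sum_prod_type]
    refine sum_congr rfl fun i _ => ?_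
    rw [← hU i, sum_smul]
    rfl
  have h3 : ∑ p : Fin k × Fin 3, α p.2 (nms U M p) • red M p + cen U M =
      comp_P (comp_z α U) M := by
    rw [h1, h2, cen, comp_P, Fintype.sum_option]
    have h4 := comp_add_self (∑ i, (U i).2.val • anc (blk M i))
    have h5 : comp_z α U none • M none = M none := one_smul _ _
    rw [h5, add_add_add_comm, h4, add_zero, add_comm]
  rw [← h3]
  simp only [fU, comp_T, comp_Fv, vert, Prod.fst_add, Prod.snd_add]
  abel

theorem comp_unif (z : Zi k → ZMod 2) (hz : z none = 1) (G : VV l D → ℝ) :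
    (𝔼 M : Zi k → VV l D, G (comp_P z M)) = 𝔼 v, G v := by
  have h1 : ∀ v : VV l D, (𝔼 M : Zi k → VV l D, G (comp_P z M)) =
      𝔼 M : Zi k → VV l D, G (comp_P z M + v) := fun v => by
    rw [← expect_add_right' (fun M => G (comp_P z M)) (Pi.single none v)]
    simp only [comp_P_add, comp_P_single z hz]
  rw [← Finset.expect_const (univ_nonempty (α := VV l D)) (𝔼 M : Zi k → VV l D, G (comp_P z M)),
    Finset.expect_congr rfl fun v _ => h1 v, Finset.expect_comm,
    Finset.expect_congr rfl fun M _ => expect_add_left' G (comp_P z M),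
    Finset.expect_const univ_nonempty]

theorem comp_test (Fb : F2 D → F2 l) (P v : VV l D) (c : ZMod 2) :
    1 - ind (v.1 + Fb (P.2 + v.2) ≠ Fb P.2) ≤ ind (comp_Fv Fb P = comp_Fv Fb (P + c • v)) := by
  rw [← ind_not']
  refine ind_mono' fun h => ?_
  rcases z2_cases c with rfl | rfl
  · rw [zero_smul, add_zero]
  · rw [not_not] at h
    simp only [comp_Fv, one_smul, Prod.fst_add, Prod.snd_add]
    rw [← h, add_assoc]

theorem comp_acc {Ω : Type} [Fintype Ω] [Nonempty Ω] (Fb : F2 D → F2 l) (a : Ω → VV l D) {η : ℝ}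
    (hη : (𝔼 x : F2 D, 𝔼 ω, ind ((a ω).1 + Fb (x + (a ω).2) ≠ Fb x)) ≤ η)
    {α : Fin 3 → ℕ → ZMod 2} {U : Fin k → C3} (hU : ∀ i, sat3 α (U i)) :
    1 - η ≤ acc a (comp_T Fb α) U := by
  have h1 := comp_unif (comp_z α U) rfl
    fun v : VV l D => 𝔼 ω, ind ((a ω).1 + Fb (v.2 + (a ω).2) ≠ Fb v.2)
  rw [expect_prod'] at h1
  simp only [Finset.expect_const univ_nonempty] at h1
  rw [← h1] at hη
  refine (sub_le_sub_left hη 1).trans ?_
  rw [← Finset.expect_const (univ_nonempty (α := Zi k → VV l D)) (1 : ℝ),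
    ← Finset.expect_sub_distrib]
  refine expect_mono' fun M => ?_
  rw [← Finset.expect_const (univ_nonempty (α := Ω)) (1 : ℝ), ← Finset.expect_sub_distrib]
  refine expect_mono' fun ω => ?_
  refine Finset.le_expect univ_nonempty fun y _ => ?_
  rw [comp_fU Fb hU, comp_fU Fb hU, comp_P_add, comp_P_rk1]
  exact comp_test Fb _ _ _

end comp

theorem inner_complete {l D : ℕ} (k : ℕ) {Ω E : Type} [Fintype Ω] [Nonempty Ω] [Fintype E]
    [Nonempty E] (Fb : F2 D → F2 l) (a : Ω → VV l D) {η ε₀ : ℝ}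
    (hη : (𝔼 x : F2 D, 𝔼 ω, ind ((a ω).1 + Fb (x + (a ω).2) ≠ Fb x)) ≤ η) (eqn : E → C3)
    (α : Fin 3 → ℕ → ZMod 2) (hα : 1 - ε₀ ≤ 𝔼 e, ind (sat3 α (eqn e))) :
    ∃ T : Vert k l D → F2 l, 1 - k * ε₀ - η ≤ 𝔼 t : Fin k → E, acc a T fun i => eqn (t i) := by
  refine ⟨comp_T Fb α, ?_⟩
  have hη0 : 0 ≤ η := le_trans (Finset.expect_nonneg fun x _ =>
    Finset.expect_nonneg fun ω _ => ind_nonneg' _) hη
  have h1 : ∀ U : Fin k → C3, 1 - η - ∑ i, ind (¬ sat3 α (U i)) ≤ acc a (comp_T Fb α) U := by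
    intro U
    by_cases hU : ∀ i, sat3 α (U i)
    · refine le_trans (sub_le_self _ (sum_nonneg fun i _ => ind_nonneg' _)) (comp_acc Fb a hη hU)
    · obtain ⟨i, hi⟩ := not_forall.1 hU
      have h2 : ind (¬ sat3 α (U i)) ≤ ∑ i, ind (¬ sat3 α (U i)) :=
        single_le_sum (f := fun i => ind (¬ sat3 α (U i))) (fun i _ => ind_nonneg' _) (mem_univ i)
      rw [ind_pos hi] at h2
      have h3 : 0 ≤ acc a (comp_T Fb α) U := Finset.expect_nonneg fun _ _ =>
        Finset.expect_nonneg fun _ _ => Finset.expect_nonneg fun _ _ => ind_nonneg' _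
      linarith
  refine le_trans ?_ (expect_mono' fun t => h1 fun i => eqn (t i))
  rw [Finset.expect_sub_distrib, Finset.expect_const univ_nonempty, Finset.expect_sum_comm]
  have h4 : ∀ i : Fin k, (𝔼 t : Fin k → E, ind (¬ sat3 α (eqn (t i)))) ≤ ε₀ := fun i => by
    rw [expect_eval i fun e => ind (¬ sat3 α (eqn e))]
    simp only [ind_not']
    rw [Finset.expect_sub_distrib, Finset.expect_const univ_nonempty]
    linarith
  have h5 := sum_le_sum fun i (_ : i ∈ (univ : Finset (Fin k))) => h4 i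
  simp only [sum_const, card_univ, Fintype.card_fin, nsmul_eq_mul] at h5
  linarith

end Vale.Agent.P325
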