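import Vale.Agent.P325.InnerAux

/-!
The reduction as a polynomial time map.
Plan.  `nm v = Nat.pair (Fintype.equivFin _ v.1) (natI v.2)` is injective (`Nat.pair_eq_pair`,
`natI_injective`).  `r L = locRed k L g` with seeds `(M, ω, y)`, `M' = M + rk1 y (a ω)` and
`g U (M, ω, y) = (![nm (vert U M), nm (vert U M')], ⟨(cen U M).1 + (cen U M').1⟩)`.
`satU b (g ..)` says `b (nm (vert U M')) = b (nm (vert U M)) + (c + c')`, equivalent to
`fU T U M = fU T U M'` for `T v = b (nm v)` (characteristic two).  `avg_locRed`, `expect_prod'`.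
Polynomial time (`pt_locRed`, `pt_vec2`, `PT.pair`, `pt_pair`): for fixed `M` the finite data
`(red M, (cen U M).2)` and the shift are functions of the codes `(U i).2` (`pt_mkF` with
`c i p = (p.2 i).2`, `pt_apply`, `pt_codeNum`); `nms U M p` is `0` or `(U p.1).1 p.2` according to the
constant condition `red M p = 0` (`pt_natI`, `by_cases`).
-/

namespace Vale.Agent.P325

open Vale.Agent.Lib.H23 Finset
open scoped BigOperators

/-- Names of vertices. -/
noncomputable def ipt_nm {k l D : ℕ} (v : Vert k l D) : ℕ :=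
  Nat.pair (Fintype.equivFin _ v.1 : ℕ) (natI v.2)

theorem ipt_inj {k l D : ℕ} : Function.Injective (ipt_nm : Vert k l D → ℕ) := fun _ _ h =>
  Prod.ext ((Fintype.equivFin _).injective (Fin.ext (Nat.pair_eq_pair.mp h).1))
    (natI_injective (Nat.pair_eq_pair.mp h).2)

theorem ipt_code {k : ℕ} (i : Fin k) : PT fun p : List C3 × (Fin k → C3) => (p.2 i).2 :=
  (pt_apply PT.snd' i).snd

theorem ipt_pt {k l D : ℕ} (M : Zi k → VV l D) :
    PT fun p : List C3 × (Fin k → C3) => ipt_nm (vert p.2 M) := by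
  refine pt_pair (pt_codeNum (pt_mkF (fun s : Fin k → ZMod 2 =>
    (red M, (M none + ∑ i, s i • anc (blk M i)).2)) ipt_code)) (pt_natI fun q => ?_)
  by_cases h : red M q = 0
  · exact (PT.const 0).congr fun x => if_pos h
  · exact (pt_apply (pt_apply PT.snd' q.1).fst q.2).congr fun x => if_neg h

theorem ipt_iff {l : ℕ} (x x' c c' : F2 l) : x' = x + (c + c') ↔ x + c = x' + c' := by
  have h : c' + c' = 0 := funext fun i => z2_add_self _
  constructor
  · rintro rfl
    rw [add_assoc, add_assoc, h, add_zero]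
  · intro e
    rw [← add_assoc, e, add_assoc, h, add_zero]

theorem inner_red (k l D : ℕ) {Ω : Type} [Fintype Ω] [Nonempty Ω] (a : Ω → VV l D) :
    ∃ (nm : Vert k l D → ℕ) (r : List C3 → List (CU l)), Function.Injective nm ∧ PT r ∧
      ∀ L, L ≠ [] → r L ≠ [] ∧ ∀ b : ℕ → F2 l, avg (r L) (fun c => ind (satU b c)) =
        𝔼 t : Fin k → Fin L.length, acc a (fun v => b (nm v)) fun i => L.get (t i) := by
  refine ⟨ipt_nm, fun L => locRed k L
    fun U (s : (Zi k → VV l D) × Ω × (Zi k → ZMod 2)) =>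
      (![ipt_nm (vert U s.1), ipt_nm (vert U (s.1 + rk1 s.2.2 (a s.2.1)))],
        ⟨(cen U s.1).1 + (cen U (s.1 + rk1 s.2.2 (a s.2.1))).1⟩),
    ipt_inj, pt_locRed k PT.id fun s => PT.pair (pt_vec2 (ipt_pt _) (ipt_pt _)) ?_,
    fun L hL => ⟨locRed_ne_nil k hL _, fun b => ?_⟩⟩
  · generalize s.1 + rk1 s.2.2 (a s.2.1) = M'
    exact pt_mkF (fun c : Fin k → ZMod 2 => (s.1 none + ∑ i, c i • anc (blk s.1 i)).1 +
      (M' none + ∑ i, c i • anc (blk M' i)).1) ipt_code
  · rw [avg_locRed]
    refine expect_congr rfl fun t _ => ?_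
    simp only [expect_prod', acc]
    exact expect_congr rfl fun M _ => expect_congr rfl fun ω _ => expect_congr rfl fun y _ =>
      ind_congr (ipt_iff _ _ _ _)

end Vale.Agent.P325
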