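import Vale.Agent.P325.InnerAux

/-!
Choice of the parameters: `Q = q ^ 2`, `k = q ^ 3` with `q` large.
`(1 + b / q ^ 4) ^ (q ^ 3) ≤ exp (b / q)` (`Real.add_one_le_exp`), which is `≤ 1 + (τ/2) ^ 2` for large
`q`, and `(1 - θ / q ^ 2) ^ (q ^ 3) ≤ exp (-θ q) ≤ 1 / (1 + θ q) ≤ τ / 2`.
-/

namespace Vale.Agent.P325

theorem inner_par (b : ℕ) {θ τ : ℝ} (hθ : 0 < θ) (hθ1 : θ ≤ 1) (hτ : 0 < τ) :
    ∃ Q k : ℕ, 0 < Q ∧ 0 < k ∧
      √((1 + (b : ℝ) / (Q : ℝ) ^ 2) ^ k - 1) + (1 - θ / Q) ^ k ≤ τ := by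
  have h0 : 0 < Real.log (1 + (τ / 2) ^ 2) := Real.log_pos (lt_add_of_pos_right _ (by positivity))
  obtain ⟨q, hq⟩ := exists_nat_gt (b / Real.log (1 + (τ / 2) ^ 2) + 2 / (τ * θ))
  have p1 : 0 ≤ b / Real.log (1 + (τ / 2) ^ 2) := by positivity
  have p2 : 0 < 2 / (τ * θ) := by positivity
  have hq0 : (0 : ℝ) < q := by linarith
  have hq1 : 0 < q := Nat.cast_pos.mp hq0
  have hq2 : (1 : ℝ) ≤ (q : ℝ) ^ 2 := one_le_pow₀ (Nat.one_le_cast.mpr hq1)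
  refine ⟨q ^ 2, q ^ 3, pow_pos hq1 2, pow_pos hq1 3, ?_⟩
  rw [Nat.cast_pow]
  have h1 : (1 + (b : ℝ) / ((q : ℝ) ^ 2) ^ 2) ^ q ^ 3 ≤ 1 + (τ / 2) ^ 2 := by
    refine (pow_le_pow_left₀ (by positivity)
      ((add_comm _ _).trans_le (Real.add_one_le_exp _)) _).trans ?_
    rw [← Real.exp_nat_mul, ← Real.le_log_iff_exp_le (by positivity), Nat.cast_pow]
    have e : (q : ℝ) ^ 3 * (b / ((q : ℝ) ^ 2) ^ 2) = b / q := by field_simp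
    rw [e, div_le_comm₀ hq0 h0]
    linarith
  have h2 : (1 - θ / (q : ℝ) ^ 2) ^ q ^ 3 ≤ τ / 2 := by
    refine (pow_le_pow_left₀ (sub_nonneg.mpr ((div_le_one (by positivity)).mpr (hθ1.trans hq2)))
      (Real.one_sub_le_exp_neg _) _).trans ?_
    rw [← Real.exp_nat_mul, Nat.cast_pow]
    have e : (q : ℝ) ^ 3 * -(θ / (q : ℝ) ^ 2) = -(θ * q) := by field_simp
    rw [e, Real.exp_neg, inv_le_comm₀ (Real.exp_pos _) (by positivity), inv_div]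
    have h3 : 2 / (τ * θ) ≤ q := by linarith
    rw [← div_div, div_le_iff₀ hθ] at h3
    linarith [Real.add_one_le_exp (θ * q)]
  have h3 : √((1 + (b : ℝ) / ((q : ℝ) ^ 2) ^ 2) ^ q ^ 3 - 1) ≤ τ / 2 :=
    Real.sqrt_le_iff.mpr ⟨by positivity, by linarith⟩
  linarith

end Vale.Agent.P325
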