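import Vale.Agent.P325.InnerAux

/-!
Step (3): a dense zoom gives a large Fourier coefficient along one direction of `K`.
Plan.  Let `(z, φ)` be the dense zoom, `y = g N`, `H0 = zoom 0 φ` (best as the submodule
`{B | ∀ i, vecMul (φ i) B = 0}`, with `𝔼 B ∈ zoom (fun _ => 0) φ, F B = 𝔼 B : H0, F B`),
`K0 = {κ | ∀ i, φ i ⬝ᵥ κ = 0}` (a submodule; `vecMulVec κ n ∈ H0` for `κ ∈ K0`),
`q B = ind (∀ i, B.mulVec (z i) = 0)`, `S B = ind (g (N + B) = y)`, `μ = 𝔼 B : H0, q B`.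
(a) `zoom z φ` is the filter of `H0` by `q`, so density `> ε` means `𝔼 B : H0, q B * S B > ε * μ`.
(b) `μ ≥ 2 ^ (-(l * r))` by `prob_ker` for `B ↦ fun i => B.mulVec (z i)` into `Fin r → F2 l`, and
`card K0 ≥ 2 ^ l / 2 ^ r` by `prob_ker` for `κ ↦ fun i => φ i ⬝ᵥ κ`; so `1 / card K0 ≤ ε / 2`.
(c) For `lam : Fin r → F2 l` put `L lam B = ∑ i, lam i ⬝ᵥ B.mulVec (z i)` (additive in `B` and in
`lam`), `s lam = 𝔼 B : H0, S B * chi (L lam B)`.  `q B = 𝔼 lam, chi (L lam B)` (`expect_pi_prod`,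
`chi_sum`, `perf_dot.flip.orth`), so `𝔼 lam, s lam = 𝔼 B, q B * S B`.
(d) `e κ = vecMulVec κ (Pi.single t 1)`, `p lam = 𝔼 κ : K0, chi (L lam (e κ))` is `1` if
`L lam (e κ) = 0` for all `κ ∈ K0` and `0` otherwise (`expect_chi_eq_zero`).
`𝔼 lam, p lam * s lam = 𝔼 κ, 𝔼 B, S B * q (B + e κ) = 𝔼 B, q B * 𝔼 κ : K0, S (B + e κ)`
(translate `B` by `e κ ∈ H0`, `e κ + e κ = 0`) and `S (B + e κ) = ind (g (N + B) + κ = y)` by `hg`,
whose mean over `κ : K0` is `≤ 1 / card K0`.  So `𝔼 lam, p lam * s lam ≤ μ * ε / 2`.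
(e) Hence `𝔼 lam, (1 - p lam) * s lam > ε * μ / 2 ≥ τ`, so some `lam` has `p lam = 0` (else the term
is `0 < τ`) and `s lam > τ`.  Take `κ ∈ K0` with `L lam (e κ) = 1` and `w = ∑ i, (lam i ⬝ᵥ κ) • z i`.
Then `L lam (vecMulVec κ n) = w ⬝ᵥ n` for all `n`, so `w t = 1` (take `n = Pi.single t 1`).
(f) Translating `B` by `vecMulVec κ n ∈ H0` and averaging over `n`:
`s lam = 𝔼 B, chi (L lam B) * hat (fun n => S (B + vecMulVec κ n)) w ≤ 𝔼 B, beta ..` (`le_beta`).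
-/

namespace Vale.Agent.P325

open Finset
open scoped BigOperators

/-- The abstract form of steps (c), (d), (e). -/
theorem s3_abs {H K Λ : Type} [AddCommGroup H] [Fintype H] [AddCommGroup K] [Fintype K]
    [Fintype Λ] [Nonempty Λ] (L : Λ → H → ZMod 2)
    (hL : ∀ lam x y, L lam (x + y) = L lam x + L lam y) (q S : H → ℝ)
    (hq : ∀ B, q B = 𝔼 lam, chi (L lam B)) (hq0 : ∀ B, 0 ≤ q B) (e : K → H)
    (he : ∀ a b, e (a + b) = e a + e b) (h2 : ∀ κ, e κ + e κ = 0) {c τ : ℝ} (hτ : 0 ≤ τ)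
    (hS : ∀ B, (𝔼 κ, S (B + e κ)) ≤ c) (h : c * (𝔼 B, q B) + τ < 𝔼 B, q B * S B) :
    ∃ lam κ, L lam (e κ) ≠ 0 ∧ τ ≤ 𝔼 B, S B * chi (L lam B) := by
  by_contra hcon
  have : Nonempty K := ⟨0⟩
  have h1 : ∀ lam, (𝔼 B, S B * chi (L lam B)) ≤
      τ + (𝔼 κ, chi (L lam (e κ))) * 𝔼 B, S B * chi (L lam B) := by
    intro lam
    by_cases hk : ∃ κ, L lam (e κ) ≠ 0
    · obtain ⟨κ, hκ⟩ := hk
      rw [expect_chi_eq_zero (L := fun κ => L lam (e κ)) (fun a b => by rw [he, hL]) hκ, zero_mul,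
        add_zero]
      exact (not_le.1 fun h3 => hcon ⟨lam, κ, hκ, h3⟩).le
    · have h3 : ∀ κ, L lam (e κ) = 0 := fun κ => not_not.1 fun h3 => hk ⟨κ, h3⟩
      simp only [h3, chi_zero]
      rw [Fintype.expect_const, one_mul]
      linarith
  have h3 : (𝔼 lam, 𝔼 B, S B * chi (L lam B)) = 𝔼 B, q B * S B := by
    rw [Finset.expect_comm]
    refine Finset.expect_congr rfl fun B _ => ?_
    rw [← Finset.mul_expect, ← hq, mul_comm]
  have h4 : (𝔼 lam, (𝔼 κ, chi (L lam (e κ))) * 𝔼 B, S B * chi (L lam B)) =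
      𝔼 B, q B * 𝔼 κ, S (B + e κ) := by
    calc (𝔼 lam, (𝔼 κ, chi (L lam (e κ))) * 𝔼 B, S B * chi (L lam B))
        = 𝔼 lam, 𝔼 κ, 𝔼 B, S (B + e κ) * chi (L lam B) := by
          refine Finset.expect_congr rfl fun lam _ => ?_
          rw [Finset.expect_mul]
          refine Finset.expect_congr rfl fun κ _ => ?_
          rw [Finset.mul_expect,
            ← expect_add_right' (fun B => chi (L lam (e κ)) * (S B * chi (L lam B))) (e κ)]
          refine Finset.expect_congr rfl fun B _ => ?_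
          rw [hL, chi_add]
          calc chi (L lam (e κ)) * (S (B + e κ) * (chi (L lam B) * chi (L lam (e κ))))
              = chi (L lam (e κ)) * chi (L lam (e κ)) * (S (B + e κ) * chi (L lam B)) := by ring
            _ = _ := by rw [chi_mul_self, one_mul]
      _ = 𝔼 κ, 𝔼 B, 𝔼 lam, S (B + e κ) * chi (L lam B) := by
          rw [Finset.expect_comm]
          exact Finset.expect_congr rfl fun κ _ => Finset.expect_comm _ _ _
      _ = 𝔼 B, q B * 𝔼 κ, S (B + e κ) := by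
          rw [Finset.expect_comm]
          refine Finset.expect_congr rfl fun B _ => ?_
          rw [Finset.mul_expect]
          refine Finset.expect_congr rfl fun κ _ => ?_
          rw [← Finset.mul_expect, ← hq, mul_comm]
  have h5 : (𝔼 B, q B * 𝔼 κ, S (B + e κ)) ≤ c * 𝔼 B, q B := by
    rw [Finset.mul_expect]
    refine expect_mono' fun B => ?_
    rw [mul_comm c]
    exact mul_le_mul_of_nonneg_left (hS B) (hq0 B)
  have h6 := expect_mono' h1
  rw [Finset.expect_add_distrib, Fintype.expect_const, h3, h4] at h6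
  linarith

theorem s3_prod_ind {ι : Type} [Fintype ι] (p : ι → Prop) : ∏ i, ind (p i) = ind (∀ i, p i) := by
  by_cases h : ∀ i, p i
  · rw [ind_pos h]
    exact Finset.prod_eq_one fun i _ => ind_pos (h i)
  · rw [ind_neg h]
    obtain ⟨i, hi⟩ := not_forall.1 h
    exact Finset.prod_eq_zero (mem_univ i) (ind_neg hi)

theorem s3_q {r l : ℕ} (v : Fin r → F2 l) :
    ind (∀ i, v i = 0) = 𝔼 lam : Fin r → F2 l, chi (∑ i, lam i ⬝ᵥ v i) := by
  simp only [chi_sum]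
  rw [expect_pi_prod fun i (a : F2 l) => chi (a ⬝ᵥ v i), ← s3_prod_ind]
  exact Finset.prod_congr rfl fun i _ => (perf_dot.flip.orth (v i)).symm

/-- The matrices killed by the covectors. -/
def s3H {m : Type} [Fintype m] (n : Type) {r : ℕ} (φ : Fin r → m → ZMod 2) :
    AddSubgroup (Matrix m n (ZMod 2)) where
  carrier := {B | ∀ i, Matrix.vecMul (φ i) B = 0}
  zero_mem' := fun i => Matrix.vecMul_zero _
  add_mem' := fun ha hb i => by rw [Matrix.vecMul_add, ha i, hb i, add_zero]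
  neg_mem' := fun ha i => by rw [Matrix.vecMul_neg, ha i, neg_zero]

/-- The vectors killed by the covectors. -/
def s3K {m : Type} [Fintype m] {r : ℕ} (φ : Fin r → m → ZMod 2) : AddSubgroup (m → ZMod 2) where
  carrier := {κ | ∀ i, φ i ⬝ᵥ κ = 0}
  zero_mem' := fun i => dotProduct_zero _
  add_mem' := fun ha hb i => by rw [dotProduct_add, ha i, hb i, add_zero]
  neg_mem' := fun ha i => by rw [dotProduct_neg, ha i, neg_zero]

/-- Rank one elements. -/
def s3v {m n : Type} [Fintype m] {r : ℕ} {φ : Fin r → m → ZMod 2} (κ : s3K φ) (y : n → ZMod 2) :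
    s3H n φ :=
  ⟨Matrix.vecMulVec κ.1 y, fun i => by rw [Matrix.vecMul_vecMulVec, κ.2 i, zero_smul]⟩

theorem s3_sum {m n : Type} [Fintype m] [DecidableEq m] [Fintype n] [DecidableEq n] {r : ℕ}
    (z : Fin r → n → ZMod 2) (φ : Fin r → m → ZMod 2) [Fintype (s3H n φ)]
    (F : Matrix m n (ZMod 2) → ℝ) :
    ∑ B ∈ zoom z φ, F B = ∑ B : s3H n φ, ind (∀ i, B.1.mulVec (z i) = 0) * F B.1 := by
  classical
  rw [← Finset.sum_subtype (univ.filter fun B => B ∈ s3H n φ) (p := fun B => B ∈ s3H n φ)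
    (by simp) fun B => ind (∀ i, B.mulVec (z i) = 0) * F B]
  symm
  refine Finset.sum_bij_ne_zero (fun B _ _ => B) (fun B h1 h2 => ?_) (fun _ _ _ _ _ _ h => h)
    (fun B h1 h2 => ?_) fun B h1 h2 => ?_
  · refine mem_zoom.2 ⟨?_, (mem_filter.1 h1).2⟩
    by_contra h3
    exact h2 (by rw [ind_neg h3, zero_mul])
  · exact ⟨B, mem_filter.2 ⟨mem_univ _, (mem_zoom.1 h1).2⟩,
      by rwa [ind_pos (mem_zoom.1 h1).1, one_mul], rfl⟩
  · rw [ind_pos, one_mul]
    by_contra h3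
    exact h2 (by rw [ind_neg h3, zero_mul])

theorem s3_zoom {m n : Type} [Fintype m] [DecidableEq m] [Fintype n] [DecidableEq n] {r : ℕ}
    (z : Fin r → n → ZMod 2) (φ : Fin r → m → ZMod 2) [Fintype (s3H n φ)]
    (F : Matrix m n (ZMod 2) → ℝ) :
    (𝔼 B : s3H n φ, ind (∀ i, B.1.mulVec (z i) = 0) * F B.1) =
      (𝔼 B : s3H n φ, ind (∀ i, B.1.mulVec (z i) = 0)) * 𝔼 B ∈ zoom z φ, F B := by
  have h1 := s3_sum z φ fun _ => 1
  simp only [mul_one, sum_const, nsmul_eq_mul] at h1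
  have h2 : ((zoom z φ).card : ℝ) ≠ 0 := by
    have : (0 : Matrix m n (ZMod 2)) ∈ zoom z φ := mem_zoom.2 ⟨by simp, by simp⟩
    exact_mod_cast Finset.card_ne_zero_of_mem this
  rw [Fintype.expect_eq_sum_div_card, Fintype.expect_eq_sum_div_card,
    Finset.expect_eq_sum_div_card, ← s3_sum, ← h1]
  field_simp

theorem s3_zoom0 {m n : Type} [Fintype m] [DecidableEq m] [Fintype n] [DecidableEq n] {r : ℕ}
    (φ : Fin r → m → ZMod 2) [Fintype (s3H n φ)] (F : Matrix m n (ZMod 2) → ℝ) :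
    (𝔼 B ∈ zoom (fun _ => (0 : n → ZMod 2)) φ, F B) = 𝔼 B : s3H n φ, F B.1 := by
  have : Nonempty (s3H n φ) := ⟨0⟩
  have h := s3_zoom (fun _ => (0 : n → ZMod 2)) φ F
  have h1 : ∀ B : s3H n φ, ind (∀ _i : Fin r, B.1.mulVec (0 : n → ZMod 2) = 0) = 1 := fun B =>
    ind_pos fun _ => Matrix.mulVec_zero _
  simp only [h1, one_mul] at h
  rw [h, Fintype.expect_const, one_mul]

theorem s3_card {l r : ℕ} (φ : Fin r → F2 l) [Fintype (s3K φ)] :
    (Fintype.card (s3K φ) : ℝ)⁻¹ ≤ 2 ^ r / 2 ^ l := by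
  classical
  let ψ : F2 l →+ (Fin r → ZMod 2) :=
    { toFun := fun κ i => φ i ⬝ᵥ κ
      map_zero' := funext fun i => dotProduct_zero _
      map_add' := fun a b => funext fun i => dotProduct_add _ _ _ }
  have h1 := prob_ker ψ
  have h2 : ∑ κ, ind (ψ κ = 0) = (Fintype.card (s3K φ) : ℝ) := by
    simp only [ind_eq_ite]
    rw [Finset.sum_boole, Fintype.card_subtype]
    congr 2
    ext κ
    simp only [mem_filter, mem_univ, true_and]
    exact funext_iff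
  have h3 : (0 : ℝ) < Fintype.card (s3K φ) := by
    have : Nonempty (s3K φ) := ⟨0⟩
    exact_mod_cast Fintype.card_pos
  rw [Fintype.expect_eq_sum_div_card, h2] at h1
  simp only [Fintype.card_fun, ZMod.card, Fintype.card_fin, Nat.cast_pow, Nat.cast_ofNat] at h1
  rw [inv_eq_one_div, div_le_div_iff₀ (by positivity) (by positivity)] at h1
  rw [inv_eq_one_div, div_le_div_iff₀ h3 (by positivity)]
  linarith

theorem s3_mu {l r : ℕ} {Z : Type} [Fintype Z] (z : Fin r → Z → ZMod 2) (φ : Fin r → F2 l)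
    [Fintype (s3H Z φ)] :
    ((2 : ℝ) ^ (l * r))⁻¹ ≤ 𝔼 B : s3H Z φ, ind (∀ i, B.1.mulVec (z i) = 0) := by
  let ψ : s3H Z φ →+ (Fin r → F2 l) :=
    { toFun := fun B i => B.1.mulVec (z i)
      map_zero' := funext fun i => Matrix.zero_mulVec _
      map_add' := fun a b => funext fun i => Matrix.add_mulVec _ _ _ }
  have h1 := prob_ker ψ
  simp only [Fintype.card_fun, ZMod.card, Fintype.card_fin, Nat.cast_pow, Nat.cast_ofNat] at h1
  rw [← pow_mul] at h1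
  exact h1.trans (le_of_eq (Finset.expect_congr rfl fun B _ => ind_congr funext_iff))

theorem s3_one {l r : ℕ} (φ : Fin r → F2 l) [Fintype (s3K φ)] (a y : F2 l) :
    (𝔼 κ : s3K φ, ind (a + κ.1 = y)) ≤ (Fintype.card (s3K φ) : ℝ)⁻¹ := by
  by_cases h : ∃ κ : s3K φ, a + κ.1 = y
  · obtain ⟨κ0, rfl⟩ := h
    rw [← expect_ind_eq κ0]
    exact expect_mono' fun κ => ind_mono fun h => Subtype.ext (add_left_cancel h)
  · rw [Finset.expect_eq_zero fun κ _ => ind_neg fun h' => h ⟨κ, h'⟩]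
    positivity

theorem s3_L {l r : ℕ} {Z : Type} [Fintype Z] (z : Fin r → Z → ZMod 2) (lam : Fin r → F2 l)
    (κ : F2 l) (n : Z → ZMod 2) :
    ∑ i, lam i ⬝ᵥ (Matrix.vecMulVec κ n).mulVec (z i) = (∑ i, (lam i ⬝ᵥ κ) • z i) ⬝ᵥ n := by
  rw [sum_dotProduct]
  refine Finset.sum_congr rfl fun i _ => ?_
  rw [Matrix.vecMulVec_mulVec, op_smul_eq_smul, dotProduct_smul, smul_dotProduct, smul_eq_mul,
    smul_eq_mul, mul_comm, dotProduct_comm n]

theorem step3 {l r : ℕ} {ε : ℝ} (hε : 0 < ε) (hl : 2 * 2 ^ r ≤ ε * 2 ^ l) {Z : Type} [Fintype Z]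
    [DecidableEq Z] (t : Z) (g : Matrix (Fin l) Z (ZMod 2) → F2 l)
    (hg : ∀ N κ, g (N + Matrix.vecMulVec κ (Pi.single t 1)) = g N + κ)
    {N : Matrix (Fin l) Z (ZMod 2)} (hN : Dense r ε g N) :
    ∃ (φ : Fin r → F2 l) (κ : F2 l), ε / (2 * 2 ^ (l * r)) ≤
      𝔼 B ∈ zoom (fun _ => (0 : Z → ZMod 2)) φ,
        beta t fun n => ind (g (N + B + Matrix.vecMulVec κ n) = g N) := by
  obtain ⟨z, φ, hz⟩ := hN
  let _ : Fintype (s3H Z φ) := Fintype.ofFinite _
  let _ : Fintype (s3K φ) := Fintype.ofFinite _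
  have hmu := s3_mu z φ
  have hmu0 : (0 : ℝ) < (2 ^ (l * r))⁻¹ := by positivity
  have hc : (Fintype.card (s3K φ) : ℝ)⁻¹ ≤ ε / 2 := by
    refine (s3_card φ).trans ?_
    rw [div_le_div_iff₀ (by positivity) (by positivity)]
    linarith
  have hL : ∀ (lam : Fin r → F2 l) (x y : s3H Z φ), ∑ i, lam i ⬝ᵥ (x + y).1.mulVec (z i) =
      ∑ i, lam i ⬝ᵥ x.1.mulVec (z i) + ∑ i, lam i ⬝ᵥ y.1.mulVec (z i) := fun lam x y => by
    simp only [AddSubgroup.coe_add, Matrix.add_mulVec, dotProduct_add, sum_add_distrib]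
  obtain ⟨lam, κ, h1, h2⟩ := s3_abs (H := s3H Z φ) (K := s3K φ)
    (fun (lam : Fin r → F2 l) B => ∑ i, lam i ⬝ᵥ B.1.mulVec (z i)) hL
    (fun B => ind (∀ i, B.1.mulVec (z i) = 0)) (fun B => ind (g (N + B.1) = g N))
    (fun B => s3_q fun i => B.1.mulVec (z i)) (fun B => ind_nonneg _)
    (fun κ => s3v κ (Pi.single t 1))
    (fun a b => Subtype.ext (Matrix.add_vecMulVec _ _ _))
    (fun κ => Subtype.ext (perf_trace.add_self _)) (c := ε / 2) (τ := ε / (2 * 2 ^ (l * r)))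
    (by positivity) (fun B => by
      refine le_trans (le_of_eq ?_) ((s3_one φ (g (N + B.1)) (g N)).trans hc)
      refine Finset.expect_congr rfl fun κ _ => ?_
      rw [← hg, add_assoc]
      rfl) (by
      rw [s3_zoom z φ fun B => ind (g (N + B) = g N)]
      have h3 := mul_lt_mul_of_pos_left hz (hmu0.trans_le hmu)
      have h4 := mul_le_mul_of_nonneg_left hmu (half_pos hε).le
      have h5 : ε / (2 * 2 ^ (l * r)) = ε / 2 * (2 ^ (l * r))⁻¹ := by field_simp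
      rw [h5]
      linarith)
  refine ⟨φ, κ.1, h2.trans ?_⟩
  rw [s3_zoom0]
  have hw : ∀ n : Z → ZMod 2, ∑ i, lam i ⬝ᵥ (s3v κ n).1.mulVec (z i) =
      (∑ i, (lam i ⬝ᵥ κ.1) • z i) ⬝ᵥ n := fun n => s3_L z lam κ.1 n
  generalize ∑ i, (lam i ⬝ᵥ κ.1) • z i = w at hw
  have hwt : w t = 1 := by
    have h3 := z2_ne_zero.1 h1
    rwa [hw, dotProduct_single, mul_one] at h3
  have h3 : ∀ n : Z → ZMod 2,
      (𝔼 B : s3H Z φ, ind (g (N + B.1) = g N) * chi (∑ i, lam i ⬝ᵥ B.1.mulVec (z i))) =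
      𝔼 B : s3H Z φ, chi (∑ i, lam i ⬝ᵥ B.1.mulVec (z i)) *
        (ind (g (N + B.1 + Matrix.vecMulVec κ.1 n) = g N) * chi (w ⬝ᵥ n)) := fun n => by
    rw [← expect_add_right' (fun B : s3H Z φ =>
      ind (g (N + B.1) = g N) * chi (∑ i, lam i ⬝ᵥ B.1.mulVec (z i))) (s3v κ n)]
    refine Finset.expect_congr rfl fun B _ => ?_
    rw [hL, hw, chi_add, add_assoc, mul_left_comm]
    rfl
  rw [← Fintype.expect_const (ι := Z → ZMod 2)
    (𝔼 B : s3H Z φ, ind (g (N + B.1) = g N) * chi (∑ i, lam i ⬝ᵥ B.1.mulVec (z i))),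
    Finset.expect_congr rfl fun n _ => h3 n, Finset.expect_comm]
  refine expect_mono' fun B => ?_
  rw [← Finset.mul_expect]
  refine le_trans (le_abs_self _) ?_
  rw [abs_mul, abs_chi, one_mul]
  exact le_beta (fun n => ind (g (N + B.1 + Matrix.vecMulVec κ.1 n) = g N)) hwt

end Vale.Agent.P325
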