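import Vale.Agent.P325.InnerS2
import Vale.Agent.P325.InnerS3

/-!
Steps (2) and (3) combined, for functions of points `M : Z → VV l D`.
Plan.  `step3avg`: with `β y κ N = beta t fun n => ind (g (N + vecMulVec κ n) = y) ≥ 0`, `step3`
gives pointwise `τ * ind (Dense N) ≤ ∑ φ, ∑ y, ∑ κ, 𝔼 B ∈ zoom 0 φ, β y κ (N + B)`
(`Finset.single_le_sum` three times, all terms are nonnegative).  Average over `N`:
`𝔼 N, 𝔼 B ∈ zoom 0 φ, β y κ (N + B) = 𝔼 N, β y κ N` (`Finset.expect_comm`, `expect_add_right'`,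
`0 ∈ zoom 0 φ`), and there are `2 ^ (l * r)` choices of `φ : Fin r → F2 l`.
`step23`: the equivalence `(Z → F2 D) × Matrix (Fin l) Z (ZMod 2) ≃ (Z → VV l D)`,
`(Mb, N) ↦ fun j => (fun a => N a j, Mb j)`, turns `M + rk1 y (κ, 0)` into
`(Mb, N + vecMulVec κ y)`.  Apply `step2` and `step3avg` to `g N = f (e (Mb, N))` for every `Mb`
and average over `Mb` (`expect_equiv'`, `expect_prod'`, `Finset.expect_sum_comm`).
-/

namespace Vale.Agent.P325

open Finset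
open scoped BigOperators

theorem step3avg {l r : ℕ} {ε : ℝ} (hε : 0 < ε) (hl : 2 * 2 ^ r ≤ ε * 2 ^ l) {Z : Type}
    [Fintype Z] [DecidableEq Z] (t : Z) (g : Matrix (Fin l) Z (ZMod 2) → F2 l)
    (hg : ∀ N κ, g (N + Matrix.vecMulVec κ (Pi.single t 1)) = g N + κ) :
    (𝔼 N : Matrix (Fin l) Z (ZMod 2), ind (Dense r ε g N)) ≤
      2 * 2 ^ (2 * (l * r)) / ε * ∑ y : F2 l, ∑ κ : F2 l, 𝔼 N : Matrix (Fin l) Z (ZMod 2),
        beta t fun n => ind (g (N + Matrix.vecMulVec κ n) = y) := by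
  obtain ⟨β, hβ⟩ : ∃ β : F2 l → F2 l → Matrix (Fin l) Z (ZMod 2) → ℝ, ∀ y κ N,
      (beta t fun n => ind (g (N + Matrix.vecMulVec κ n) = y)) = β y κ N := ⟨_, fun _ _ _ => rfl⟩
  have β0 : ∀ y κ (N : Matrix (Fin l) Z (ZMod 2)) (φ : Fin r → F2 l),
      0 ≤ 𝔼 B ∈ zoom (fun _ => (0 : Z → ZMod 2)) φ, β y κ (N + B) := fun y κ N φ =>
    expect_nonneg fun B _ => hβ y κ (N + B) ▸ beta_nonneg _ _
  have h1 : ∀ N, ε / (2 * 2 ^ (l * r)) * ind (Dense r ε g N) ≤ ∑ φ : Fin r → F2 l, ∑ y, ∑ κ,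
      𝔼 B ∈ zoom (fun _ => (0 : Z → ZMod 2)) φ, β y κ (N + B) := fun N => by
    by_cases hN : Dense r ε g N
    · obtain ⟨φ, κ, h⟩ := step3 hε hl t g hg hN
      simp only [hβ] at h
      rw [ind_of hN, mul_one]
      refine h.trans (le_trans ?_ (single_le_sum (fun φ _ => sum_nonneg fun y _ =>
        sum_nonneg fun κ _ => β0 y κ N φ) (mem_univ φ)))
      exact le_trans (single_le_sum (fun κ _ => β0 (g N) κ N φ) (mem_univ κ))
        (single_le_sum (f := fun y => ∑ κ, 𝔼 B ∈ zoom (fun _ => (0 : Z → ZMod 2)) φ, β y κ (N + B))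
          (fun y _ => sum_nonneg fun κ _ => β0 y κ N φ) (mem_univ (g N)))
    · rw [ind_of_not hN, mul_zero]
      exact sum_nonneg fun φ _ => sum_nonneg fun y _ => sum_nonneg fun κ _ => β0 y κ N φ
  have h2 : ∀ y κ (φ : Fin r → F2 l), 𝔼 N : Matrix (Fin l) Z (ZMod 2),
      𝔼 B ∈ zoom (fun _ => (0 : Z → ZMod 2)) φ, β y κ (N + B) = 𝔼 N, β y κ N := fun y κ φ => by
    rw [expect_comm]
    simp only [expect_add_right']
    exact expect_const ⟨0, mem_zoom.mpr (by simp)⟩ _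
  have h3 := expect_mono' h1
  simp only [← mul_expect, expect_sum_comm, h2] at h3
  simp only [hβ]
  rw [sum_const, card_univ, nsmul_eq_mul, div_mul_eq_mul_div, div_le_iff₀ (by positivity),
    ← le_div_iff₀' hε] at h3
  refine h3.trans (le_of_eq ?_)
  simp only [Fintype.card_fun, ZMod.card, Fintype.card_fin, Nat.cast_pow, Nat.cast_ofNat]
  ring

/-- Points as pairs of a family and a matrix. -/
def s23_equiv (l D : ℕ) (Z : Type) : (Z → F2 D) × Matrix (Fin l) Z (ZMod 2) ≃ (Z → VV l D) where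
  toFun p := fun j => (fun a => p.2 a j, p.1 j)
  invFun M := (fun j => (M j).2, Matrix.of fun a j => (M j).1 a)
  left_inv _ := rfl
  right_inv _ := rfl

theorem s23_add {l D : ℕ} {Z : Type} (Mb : Z → F2 D) (N : Matrix (Fin l) Z (ZMod 2)) (κ : F2 l)
    (y : Z → ZMod 2) : s23_equiv l D Z (Mb, N) + rk1 y ((κ, 0) : VV l D) =
      s23_equiv l D Z (Mb, N + Matrix.vecMulVec κ y) := by
  funext j
  refine Prod.ext (funext fun a => ?_) ?_
  · exact congrArg (N a j + ·) (mul_comm (y j) (κ a))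
  · exact (congrArg (Mb j + ·) (smul_zero (y j))).trans (add_zero _)

theorem step23 {l D r : ℕ} {ξ ε : ℝ} (hξ : 0 ≤ ξ) (hε : 0 < ε) (hS : SSEat ξ r ε)
    (hl : 2 * 2 ^ r ≤ ε * 2 ^ l) {Z : Type} [Fintype Z] [DecidableEq Z] (t : Z)
    (f : (Z → VV l D) → F2 l)
    (hf : ∀ M κ, f (M + rk1 (Pi.single t (1 : ZMod 2) : Z → ZMod 2) ((κ, 0) : VV l D)) = f M + κ) :
    (𝔼 M : Z → VV l D, 𝔼 κ : F2 l, 𝔼 y : Z → ZMod 2,
        ind (f M = f (M + rk1 y ((κ, 0) : VV l D)))) ≤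
      ξ + 4 * 2 ^ (2 * (l * r)) / ε *
        ∑ y : F2 l, ∑ κ : F2 l, 𝔼 M : Z → VV l D, beta t (lin f y κ M) := by
  have h1 : ∀ F : (Z → VV l D) → ℝ, (𝔼 M, F M) =
      𝔼 Mb : Z → F2 D, 𝔼 N : Matrix (Fin l) Z (ZMod 2), F (s23_equiv l D Z (Mb, N)) := fun F => by
    rw [← expect_equiv' (s23_equiv l D Z), expect_prod']
  have h2 : ∀ Mb : Z → F2 D, (𝔼 N : Matrix (Fin l) Z (ZMod 2), 𝔼 κ : F2 l, 𝔼 y : Z → ZMod 2,
      ind (f (s23_equiv l D Z (Mb, N)) = f (s23_equiv l D Z (Mb, N) + rk1 y ((κ, 0) : VV l D)))) ≤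
      ξ + 4 * 2 ^ (2 * (l * r)) / ε * ∑ y : F2 l, ∑ κ : F2 l, 𝔼 N : Matrix (Fin l) Z (ZMod 2),
        beta t (lin f y κ (s23_equiv l D Z (Mb, N))) := fun Mb => by
    have h3 := step2 hξ hε.le hS fun N => f (s23_equiv l D Z (Mb, N))
    have h4 := step3avg hε hl t (fun N => f (s23_equiv l D Z (Mb, N))) fun N κ => by
      rw [← s23_add, hf]
    unfold lin
    simp only [s23_add]
    have e : (4 : ℝ) * 2 ^ (2 * (l * r)) / ε = 2 * (2 * 2 ^ (2 * (l * r)) / ε) := by ring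
    rw [e, mul_assoc]
    linarith
  rw [h1]
  refine (expect_mono' h2).trans (le_of_eq ?_)
  simp only [expect_add_distrib, ← mul_expect, expect_sum_comm, expect_const univ_nonempty]
  simp only [h1]

end Vale.Agent.P325
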