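import Vale.Agent.P325.InnerAux

/-!
The chi-square bound for the collapsed law, and the generating function of the number of collapsed
positions.
Plan for `chi_bound`.  One coordinate: `R = Fin Q × B × S`, `μ (c, x, s) = if c = 0 then σ s else x`,
density `d b = card B * 𝔼 ρ : R, ind (μ ρ = b) = (1 - 1/Q) + (1/Q) * e b` with
`e b = card B * 𝔼 s, ind (σ s = b) ∈ [0, card B]`, `𝔼 b, e b = 1`; so `𝔼 b, d b = 1` and
`𝔼 b, d b ^ 2 = 1 + (𝔼 b, e b ^ 2 - 1) / Q ^ 2 ≤ 1 + card B / Q ^ 2`.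
The triple expectation equals `𝔼 ρ : ι → R, Ψ (μ ∘ ρ)` (`expect_pi_pair` twice) and this is
`𝔼 X, Ψ X * ∏ i, d (X i)`: write `Ψ Y = ∑ X, ind (Y = X) * Ψ X` (`sum_ind_mul`),
`ind (μ ∘ ρ = X) = ∏ i, ind (μ (ρ i) = X i)` and use `expect_pi_prod`.
Then `𝔼 X, Ψ X * (1 - ∏ i, d (X i)) ≤ √(𝔼 X, (1 - ∏ d) ^ 2)` (Cauchy-Schwarz
`Finset.expect_mul_sq_le_sq_mul_sq`, `|Ψ| ≤ 1`, `Real.le_sqrt` / `abs_le_sqrt`) and
`𝔼 (1 - ∏ d) ^ 2 = ∏ 𝔼 d ^ 2 - 1` by `expect_pi_prod`.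
Plan for `expect_pow_card`: `(1 - θ) ^ card {i // c i = 0} = ∏ i, if c i = 0 then 1 - θ else 1`
(`Finset.prod_ite`, `Fintype.card_subtype`), `expect_pi_prod`, and
`𝔼 c : Fin Q, (if c = 0 then 1 - θ else 1) = 1 - θ * 𝔼 c, ind (c = 0)` (`expect_ind_eq`).
-/

namespace Vale.Agent.P325

open Finset
open scoped BigOperators

theorem chib_ind_pi {ι B : Type} [Fintype ι] (Y X : ι → B) :
    ind (Y = X) = ∏ i, ind (Y i = X i) := by
  by_cases h : Y = X
  · subst h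
    simp [ind_pos]
  · obtain ⟨i, hi⟩ := Function.ne_iff.1 h
    rw [ind_neg h, Finset.prod_eq_zero (mem_univ i) (ind_neg hi)]

theorem chib_one {B S : Type} [Fintype B] [Nonempty B] [Fintype S] [Nonempty S] {Q : ℕ} [NeZero Q]
    (σ : S → B) : (𝔼 b, (Fintype.card B : ℝ) * 𝔼 ρ : Fin Q × B × S,
      ind ((if ρ.1 = 0 then σ ρ.2.2 else ρ.2.1) = b)) = 1 ∧
    (𝔼 b, ((Fintype.card B : ℝ) * 𝔼 ρ : Fin Q × B × S,
      ind ((if ρ.1 = 0 then σ ρ.2.2 else ρ.2.1) = b)) ^ 2) ≤ 1 + Fintype.card B / (Q : ℝ) ^ 2 := by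
  have hB : (0 : ℝ) < Fintype.card B := Nat.cast_pos.2 Fintype.card_pos
  have hQ : (0 : ℝ) < Q := Nat.cast_pos.2 (NeZero.pos Q)
  set e : B → ℝ := fun b => Fintype.card B * 𝔼 s, ind (σ s = b) with he
  have h1 : ∀ b, (Fintype.card B : ℝ) * (𝔼 ρ : Fin Q × B × S,
      ind ((if ρ.1 = 0 then σ ρ.2.2 else ρ.2.1) = b)) = 1 + (Q : ℝ)⁻¹ * (e b - 1) := fun b => by
    have e1 : ∀ c : Fin Q, (𝔼 x : B, 𝔼 s : S, ind ((if c = 0 then σ s else x) = b)) =
        (Fintype.card B : ℝ)⁻¹ + ind (c = 0) *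
          ((𝔼 s, ind (σ s = b)) - (Fintype.card B : ℝ)⁻¹) := fun c => by
      by_cases hc : c = 0
      · simp only [hc, if_true, Fintype.expect_const, ind_pos trivial]
        ring
      · simp only [if_neg hc, Fintype.expect_const, ind_neg hc, expect_ind_eq]
        ring
    simp only [expect_prod', e1]
    rw [Finset.expect_add_distrib, ← Finset.expect_mul, expect_ind_eq, Fintype.expect_const,
      Fintype.card_fin, he]
    field_simp
  have h2 : (𝔼 b, e b) = 1 := by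
    rw [he, ← Finset.mul_expect, Fintype.card_mul_expect, ← Finset.expect_sum_comm]
    simp only [sum_ind_eq, Fintype.expect_const]
  have h3 : (𝔼 b, e b ^ 2) ≤ Fintype.card B := by
    have : ∀ b, e b ^ 2 ≤ Fintype.card B * e b := fun b => by
      have k0 : 0 ≤ e b := mul_nonneg hB.le (Finset.expect_nonneg fun _ _ => ind_nonneg _)
      have k1 : e b ≤ Fintype.card B :=
        mul_le_of_le_one_right hB.le (expect_le_of_le fun _ => ind_le_one _)
      nlinarith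
    refine (expect_mono' this).trans ?_
    rw [← Finset.mul_expect, h2, mul_one]
  simp only [h1]
  constructor
  · rw [Finset.expect_add_distrib, ← Finset.mul_expect, Finset.expect_sub_distrib, h2]
    simp
  · have e2 : ∀ b, (1 + (Q : ℝ)⁻¹ * (e b - 1)) ^ 2 = (1 - (Q : ℝ)⁻¹) ^ 2 +
        2 * (1 - (Q : ℝ)⁻¹) * (Q : ℝ)⁻¹ * e b + (Q : ℝ)⁻¹ ^ 2 * e b ^ 2 := fun b => by ring
    simp only [e2]
    rw [Finset.expect_add_distrib, Finset.expect_add_distrib, ← Finset.mul_expect, h2,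
      ← Finset.mul_expect, Fintype.expect_const, div_eq_mul_inv, ← inv_pow]
    nlinarith [mul_le_mul_of_nonneg_left h3 (sq_nonneg (Q : ℝ)⁻¹), sq_nonneg (Q : ℝ)⁻¹]

theorem chi_bound {ι B S : Type} [Fintype ι] [DecidableEq ι] [Fintype B] [Nonempty B] [Fintype S]
    [Nonempty S] {Q : ℕ} [NeZero Q] (σ : S → B) (Ψ : (ι → B) → ℝ) (hΨ : ∀ X, |Ψ X| ≤ 1) :
    (𝔼 X, Ψ X) ≤ √((1 + (Fintype.card B : ℝ) / (Q : ℝ) ^ 2) ^ Fintype.card ι - 1) +
      𝔼 c : ι → Fin Q, 𝔼 X : ι → B, 𝔼 s : ι → S, Ψ fun i => if c i = 0 then σ (s i) else X i := by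
  classical
  set μ : Fin Q × B × S → B := fun ρ => if ρ.1 = 0 then σ ρ.2.2 else ρ.2.1 with hμ
  set d : B → ℝ := fun b => Fintype.card B * 𝔼 ρ, ind (μ ρ = b) with hd
  have hB : (0 : ℝ) < Fintype.card B := Nat.cast_pos.2 Fintype.card_pos
  have h1 : (𝔼 c : ι → Fin Q, 𝔼 X : ι → B, 𝔼 s : ι → S,
      Ψ fun i => if c i = 0 then σ (s i) else X i) = 𝔼 X, Ψ X * ∏ i, d (X i) := by
    have e1 : (𝔼 ρ : ι → Fin Q × B × S, Ψ fun i => μ (ρ i)) = 𝔼 c : ι → Fin Q, 𝔼 X : ι → B,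
        𝔼 s : ι → S, Ψ fun i => if c i = 0 then σ (s i) else X i := by
      rw [expect_pi_pair]
      exact Finset.expect_congr rfl fun c _ => by rw [expect_pi_pair]
    have e2 : ∀ ρ : ι → Fin Q × B × S, (Ψ fun i => μ (ρ i)) =
        ∑ X, (∏ i, ind (μ (ρ i) = X i)) * Ψ X := fun ρ => by
      rw [← sum_ind_mul (fun i => μ (ρ i)) Ψ]
      exact Finset.sum_congr rfl fun X _ => by rw [chib_ind_pi]
    rw [← e1]
    simp only [e2]
    rw [Finset.expect_sum_comm, Fintype.expect_eq_sum_div_card, Finset.sum_div]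
    refine Finset.sum_congr rfl fun X _ => ?_
    rw [← Finset.expect_mul, expect_pi_prod fun i ρ => ind (μ ρ = X i), hd, Finset.prod_mul_distrib]
    simp only [prod_const, card_univ, Fintype.card_pi, Nat.cast_pow]
    field_simp
  obtain ⟨h2, h3⟩ : (𝔼 b, d b) = 1 ∧ (𝔼 b, d b ^ 2) ≤ 1 + Fintype.card B / (Q : ℝ) ^ 2 :=
    chib_one σ
  have h4 : (𝔼 X : ι → B, (1 - ∏ i, d (X i)) ^ 2) = (𝔼 b, d b ^ 2) ^ Fintype.card ι - 1 := by
    have e : ∀ X : ι → B, (1 - ∏ i, d (X i)) ^ 2 =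
        1 - 2 * ∏ i, d (X i) + ∏ i, d (X i) ^ 2 := fun X => by rw [Finset.prod_pow]; ring
    simp only [e]
    rw [Finset.expect_add_distrib, Finset.expect_sub_distrib, ← Finset.mul_expect,
      expect_pi_prod fun _ b => d b, expect_pi_prod fun _ b => d b ^ 2, h2, Fintype.expect_const]
    simp only [prod_const, card_univ, one_pow]
    ring
  have h5 := Finset.expect_mul_sq_le_sq_mul_sq univ Ψ fun X => 1 - ∏ i, d (X i)
  have h6 : (𝔼 X, Ψ X ^ 2) ≤ 1 := expect_le_of_le fun X => by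
    rw [← sq_abs]; exact pow_le_one₀ (abs_nonneg _) (hΨ X)
  have h7 : 0 ≤ 𝔼 X : ι → B, (1 - ∏ i, d (X i)) ^ 2 := Finset.expect_nonneg fun _ _ => sq_nonneg _
  have h8 := pow_le_pow_left₀ (Finset.expect_nonneg fun _ _ => sq_nonneg _) h3 (Fintype.card ι)
  have h9 : (𝔼 X, Ψ X * (1 - ∏ i, d (X i))) ≤
      √((1 + (Fintype.card B : ℝ) / (Q : ℝ) ^ 2) ^ Fintype.card ι - 1) := by
    refine Real.le_sqrt_of_sq_le (h5.trans ?_)
    refine (mul_le_of_le_one_left h7 h6).trans ?_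
    rw [h4]
    linarith
  simp only [mul_sub, mul_one] at h9
  rw [Finset.expect_sub_distrib] at h9
  rw [h1]
  linarith

theorem expect_pow_card {ι : Type} [Fintype ι] [DecidableEq ι] {Q : ℕ} [NeZero Q] (θ : ℝ) :
    (𝔼 c : ι → Fin Q, (1 - θ) ^ Fintype.card {i // c i = 0}) = (1 - θ / Q) ^ Fintype.card ι := by
  have e : ∀ c : ι → Fin Q, (1 - θ) ^ Fintype.card {i // c i = 0} =
      ∏ i, (1 - θ * ind (c i = 0)) := fun c => by
    have : ∀ i, 1 - θ * ind (c i = 0) = if c i = 0 then 1 - θ else 1 := fun i => by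
      rw [ind_eq_ite]; split_ifs <;> simp
    simp only [this]
    rw [Finset.prod_ite, prod_const, prod_const_one, mul_one, Fintype.card_subtype]
  simp only [e]
  rw [expect_pi_prod fun _ (c : Fin Q) => 1 - θ * ind (c = 0), Finset.expect_sub_distrib,
    ← Finset.mul_expect, expect_ind_eq, Fintype.expect_const, prod_const, card_univ,
    Fintype.card_fin, div_eq_mul_inv]

end Vale.Agent.P325
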