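import Vale.Agent.P325.InnerS4a
import Vale.Agent.P325.InnerChi

/-! Step (4): the largest coefficient is small on average. -/

namespace Vale.Agent.P325

open Finset
open scoped BigOperators

/-- Pairs (point, direction) in block form. -/
def asmE (k l D : ℕ) :
    (VV l D × ZMod 2) × (Fin k → Blk l D) ≃ (Zi k → VV l D) × (Zi k → ZMod 2) where
  toFun p := (asmM p.1 p.2, asmN p.1 p.2)
  invFun q := ((q.1 none, q.2 none), fun i j => (q.1 (some (i, j)), q.2 (some (i, j))))
  left_inv _ := rfl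
  right_inv q := by
    refine Prod.ext (funext fun j => ?_) (funext fun j => ?_) <;> cases j <;> rfl

theorem s4_expect {k l D : ℕ} (T : Vert k l D → F2 l) (y κ : F2 l) (U : Fin k → C3) :
    (𝔼 M : Zi k → VV l D, beta none (lin (fU T U) y κ M)) =
      𝔼 x0 : VV l D × ZMod 2, 𝔼 X : Fin k → Blk l D, psiU T y κ U x0 X := by
  simp only [← expect_psi]
  rw [← expect_prod' (fun q : (Zi k → VV l D) × (Zi k → ZMod 2) =>
    psi none (lin (fU T U) y κ q.1) q.2), ← expect_equiv' (asmE k l D), expect_prod']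
  rfl

theorem step4 (hR : RepStmt) {k l D Q : ℕ} (hQ : 0 < Q) {E : Type} [Fintype E] [Nonempty E]
    (eqn : E → C3) (hv : ∀ a, (𝔼 e, ind (sat3 a (eqn e))) ≤ 3 / 4) (T : Vert k l D → F2 l)
    (y κ : F2 l) :
    (𝔼 t : Fin k → E, 𝔼 M : Zi k → VV l D, beta none (lin (fU T fun i => eqn (t i)) y κ M)) ≤
      √((1 + (Fintype.card (Blk l D) : ℝ) / (Q : ℝ) ^ 2) ^ k - 1) + (1 - 1 / 4608 / Q) ^ k := by
  have : NeZero Q := ⟨hQ.ne'⟩
  simp only [s4_expect]
  have h1 : ∀ (U : Fin k → C3) (x0 : VV l D × ZMod 2),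
      (𝔼 X : Fin k → Blk l D, psiU T y κ U x0 X) ≤
        √((1 + (Fintype.card (Blk l D) : ℝ) / (Q : ℝ) ^ 2) ^ k - 1) +
        𝔼 c : Fin k → Fin Q, 𝔼 X : Fin k → Blk l D, 𝔼 s : Fin k → Sd,
          psiU T y κ U x0 fun i => if c i = 0 then col l D (s i) else X i := fun U x0 => by
    have h := chi_bound (Q := Q) (col l D) (psiU T y κ U x0)
      fun X => abs_psi_le _ (fun _ => abs_ind_le _) _
    rwa [Fintype.card_fin] at h
  refine (expect_mono' fun t => expect_mono' fun x0 => h1 _ x0).trans ?_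
  simp only [Finset.expect_add_distrib, Finset.expect_const univ_nonempty]
  gcongr
  have h2 := expect_pow_card (ι := Fin k) (Q := Q) (1 / 4608)
  rw [Fintype.card_fin] at h2
  rw [← h2, Finset.expect_comm]
  refine expect_le_of_le fun x0 => ?_
  rw [Finset.expect_comm]
  refine expect_mono' fun c => ?_
  rw [Finset.expect_comm]
  exact expect_le_of_le fun X => step4a hR eqn hv T y κ (fun i => c i = 0) x0 X

end Vale.Agent.P325
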