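import Vale.Agent.P325.InnerS1
import Vale.Agent.P325.InnerS23
import Vale.Agent.P325.InnerS4
import Vale.Agent.P325.InnerComp
import Vale.Agent.P325.InnerPT
import Vale.Agent.P325.InnerPar

/-! The inner reduction. -/

namespace Vale.Agent.P325

open Finset
open scoped BigOperators

theorem inner_l0 (r : ℕ) {ε : ℝ} (hε : 0 < ε) :
    ∃ l₀ : ℕ, 1 ≤ l₀ ∧ ∀ l, l₀ ≤ l → 2 * 2 ^ r ≤ ε * 2 ^ l := by
  obtain ⟨n, hn⟩ := pow_unbounded_of_one_lt (2 * 2 ^ r / ε) (by norm_num : (1 : ℝ) < 2)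
  refine ⟨n + 1, by omega, fun l hl => ?_⟩
  have h1 : (2 : ℝ) ^ n ≤ 2 ^ l := pow_le_pow_right₀ (by norm_num) (by omega)
  rw [div_lt_iff₀ hε] at hn
  nlinarith

theorem inner (hG : GadgetStmt) (hS : SSEStmt) (hR : RepStmt) : InnerStmt := by
  intro ε δ hε hδ
  obtain ⟨r1, hr1⟩ := hG (ε / 2) (δ / 2) (by positivity) (by positivity)
  set δ0 : ℝ := δ / 2 / 2 ^ r1 with hδ0
  have hδ0p : 0 < δ0 := by positivity
  obtain ⟨r, es, hes, hSS⟩ := sseat_of hS (ξ := δ0 / 2) (by positivity)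
  obtain ⟨l₀, hl₀, hl₀'⟩ := inner_l0 r hes
  obtain ⟨l, D, n, Fb, a, hl, hη, ha⟩ := hr1 l₀
  set C : ℝ := 4 * 2 ^ (2 * (l * r)) / es with hC
  have hCp : 0 < C := by positivity
  set c2 : ℝ := ((Fintype.card (F2 l) : ℕ) : ℝ) with hc2
  have hc2p : 0 < c2 := by rw [hc2]; exact_mod_cast Fintype.card_pos
  obtain ⟨Q, k, hQ, hk, hpar⟩ := inner_par (Fintype.card (Blk l D)) (θ := 1 / 4608)
    (τ := δ0 / 2 / (C * (c2 * c2))) (by norm_num) (by norm_num) (by positivity)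
  obtain ⟨nm, R, hnm, hPT, hRL⟩ := inner_red k l D a
  have hkp : (0 : ℝ) < k := by exact_mod_cast hk
  refine ⟨ε / (2 * k), l, R, by positivity, hl₀.trans hl, hPT, fun L hL => ⟨(hRL L hL).1, ?_, ?_⟩⟩
  · rintro ⟨α, hα⟩
    have : Nonempty (Fin L.length) := ⟨⟨0, List.length_pos_iff.mpr hL⟩⟩
    rw [avg_eq_expect] at hα
    obtain ⟨T, hT⟩ := inner_complete k Fb a hη (fun i => L.get i) α hα
    refine ⟨Function.extend nm T 0, ?_⟩
    rw [(hRL L hL).2]
    simp only [hnm.extend_apply]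
    refine le_trans (le_of_eq ?_) hT
    field_simp
    ring
  · intro hv b
    have : Nonempty (Fin L.length) := ⟨⟨0, List.length_pos_iff.mpr hL⟩⟩
    simp only [avg_eq_expect] at hv
    rw [(hRL L hL).2]
    set T : Vert k l D → F2 l := fun v => b (nm v)
    have h1 : ∀ U : Fin k → C3, acc a T U ≤ δ / 2 + 2 ^ r1 * (δ0 / 2 + C *
        ∑ y : F2 l, ∑ κ : F2 l, 𝔼 M : Zi k → VV l D, beta none (lin (fU T U) y κ M)) := fun U => by
      refine (step1 a (by positivity) (fun Γ hΓ => ha _ Γ hΓ) (fU T U)).trans ?_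
      gcongr
      exact step23 (by positivity) hes hSS (hl₀' l hl) none (fU T U) (fU_shiftK T U)
    refine (expect_mono' fun t => h1 _).trans ?_
    rw [Finset.expect_add_distrib, Finset.expect_const univ_nonempty, ← Finset.mul_expect,
      Finset.expect_add_distrib, Finset.expect_const univ_nonempty, ← Finset.mul_expect,
      Finset.expect_sum_comm]
    simp only [Finset.expect_sum_comm]
    have h2 : ∑ y : F2 l, ∑ κ : F2 l, (𝔼 t : Fin k → Fin L.length, 𝔼 M : Zi k → VV l D,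
        beta none (lin (fU T fun i => L.get (t i)) y κ M)) ≤
        c2 * (c2 * (δ0 / 2 / (C * (c2 * c2)))) := by
      calc _ ≤ ∑ _y : F2 l, ∑ _κ : F2 l, δ0 / 2 / (C * (c2 * c2)) :=
            Finset.sum_le_sum fun y _ => Finset.sum_le_sum fun κ _ =>
              (step4 hR hQ (fun i => L.get i) hv T y κ).trans hpar
        _ = _ := by simp only [Finset.sum_const, card_univ, nsmul_eq_mul, hc2]
    have h3 : C * (c2 * (c2 * (δ0 / 2 / (C * (c2 * c2))))) = δ0 / 2 := by field_simp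
    have h4 : (2 : ℝ) ^ r1 * δ0 = δ / 2 := by rw [hδ0]; field_simp
    calc _ ≤ δ / 2 + 2 ^ r1 * (δ0 / 2 + C * (c2 * (c2 * (δ0 / 2 / (C * (c2 * c2)))))) := by gcongr
      _ = δ := by rw [h3]; linarith

end Vale.Agent.P325
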