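import Vale.Agent.P325.InnerDefs

/-! General averaging lemmas for the inner reduction. -/

namespace Vale.Agent.P325

open Finset
open scoped BigOperators

theorem expect_ind_eq {A : Type} [Fintype A] (a : A) :
    (𝔼 x, ind (x = a)) = (Fintype.card A : ℝ)⁻¹ := by
  classical
  rw [Fintype.expect_eq_sum_div_card, Finset.sum_eq_single a (fun b _ hb => ind_neg hb) (by simp),
    ind_pos rfl, one_div]

theorem sum_ind_eq {A : Type} [Fintype A] (a : A) : ∑ y, ind (a = y) = 1 := by
  classical
  rw [Finset.sum_eq_single a (fun b _ hb => ind_neg (Ne.symm hb)) (by simp), ind_pos rfl]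

theorem sum_ind_mul {A : Type} [Fintype A] (a : A) (F : A → ℝ) : ∑ y, ind (a = y) * F y = F a := by
  classical
  rw [Finset.sum_eq_single a (fun b _ hb => by rw [ind_neg (Ne.symm hb), zero_mul]) (by simp),
    ind_pos rfl, one_mul]

theorem sum_ind_mul_ind {A : Type} [Fintype A] (a b : A) :
    ∑ y, ind (a = y) * ind (b = y) = ind (a = b) := by
  rw [sum_ind_mul a fun y => ind (b = y)]
  exact ind_congr eq_comm

theorem abs_ind_le (p : Prop) : |ind p| ≤ 1 := by
  rw [abs_of_nonneg (ind_nonneg p)]; exact ind_le_one p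

theorem expect_le_of_le {A : Type} [Fintype A] [Nonempty A] {f : A → ℝ} {c : ℝ}
    (h : ∀ a, f a ≤ c) : (𝔼 a, f a) ≤ c :=
  Finset.expect_le univ_nonempty fun a _ => h a

theorem expect_mono' {A : Type} [Fintype A] {f g : A → ℝ} (h : ∀ a, f a ≤ g a) :
    (𝔼 a, f a) ≤ 𝔼 a, g a := Finset.expect_le_expect fun a _ => h a

theorem expect_prod' {A B : Type} [Fintype A] [Fintype B] (f : A × B → ℝ) :
    (𝔼 p, f p) = 𝔼 a, 𝔼 b, f (a, b) := by
  rw [← Finset.expect_product', Finset.univ_product_univ]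

theorem expect_equiv' {A B : Type} [Fintype A] [Fintype B] (e : A ≃ B) (f : B → ℝ) :
    (𝔼 a, f (e a)) = 𝔼 b, f b := Finset.expect_equiv e (by simp) (by simp)

/-- The kernel of a homomorphism has density at least one over the size of the target. -/
theorem prob_ker {A C : Type} [AddCommGroup A] [Fintype A] [AddCommGroup C] [Fintype C]
    (ψ : A →+ C) : (Fintype.card C : ℝ)⁻¹ ≤ 𝔼 a, ind (ψ a = 0) := by
  classical
  have h1 : ∀ c, (𝔼 a, ind (ψ a = c)) ≤ 𝔼 a, ind (ψ a = 0) := fun c => by
    by_cases hc : ∃ a0, ψ a0 = c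
    · obtain ⟨a0, rfl⟩ := hc
      rw [← expect_add_right' (fun a => ind (ψ a = ψ a0)) a0]
      exact le_of_eq (Finset.expect_congr rfl fun a _ => ind_congr (by simp))
    · rw [Finset.expect_congr rfl (g := fun _ => (0 : ℝ)) fun a _ => ind_neg fun h => hc ⟨a, h⟩]
      simp only [Finset.expect_const_zero]
      exact Finset.expect_nonneg fun a _ => ind_nonneg _
  have h2 : (1 : ℝ) ≤ Fintype.card C * 𝔼 a, ind (ψ a = 0) := by
    calc (1 : ℝ) = 𝔼 a, ∑ c, ind (ψ a = c) := by
          simp only [sum_ind_eq]; rw [Finset.expect_const univ_nonempty]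
      _ = ∑ c, 𝔼 a, ind (ψ a = c) := Finset.expect_sum_comm _ _ _
      _ ≤ ∑ _c : C, 𝔼 a, ind (ψ a = 0) := Finset.sum_le_sum fun c _ => h1 c
      _ = _ := by simp
  have h3 : (0 : ℝ) < Fintype.card C := by exact_mod_cast Fintype.card_pos
  rwa [inv_le_iff_one_le_mul₀' h3]

/-- Expectation of a product over independent coordinates. -/
theorem expect_pi_prod {ι A : Type} [Fintype ι] [DecidableEq ι] [Fintype A] (g : ι → A → ℝ) :
    (𝔼 x : ι → A, ∏ i, g i (x i)) = ∏ i, 𝔼 a, g i a := by
  simp only [Fintype.expect_eq_sum_div_card]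
  rw [Finset.prod_div_distrib, Finset.prod_univ_sum, Fintype.piFinset_univ]
  simp

/-- A function of one coordinate. -/
theorem expect_eval {ι A : Type} [Fintype ι] [DecidableEq ι] [Fintype A] [Nonempty A] (i : ι)
    (g : A → ℝ) : (𝔼 x : ι → A, g (x i)) = 𝔼 a, g a := by
  have h := expect_pi_prod (fun j a => if j = i then g a else 1)
  simp only [Finset.prod_ite_eq', mem_univ, if_true] at h
  rw [h, Finset.prod_eq_single i (fun j _ hj => by simp [hj, Finset.expect_const univ_nonempty])
    (by simp)]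
  simp

/-- Resampling the coordinates in `J`. -/
theorem expect_resample {ι A : Type} [Fintype ι] [DecidableEq ι] [Fintype A] [Nonempty A]
    (J : ι → Prop) [DecidablePred J] (F : (ι → A) → ℝ) :
    (𝔼 t, F t) = 𝔼 t : ι → A, 𝔼 e : {i // J i} → A, F fun i => if h : J i then e ⟨i, h⟩ else t i := by
  let φ := Equiv.piEquivPiSubtypeProd J fun _ => A
  have h1 : ∀ G : (ι → A) → ℝ, (𝔼 t, G t) = 𝔼 p : {i // ¬ J i} → A, 𝔼 e : {i // J i} → A,
      G (φ.symm (e, p)) := fun G => by
    rw [← expect_equiv' φ.symm G, expect_prod', Finset.expect_comm]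
  rw [h1 F, h1]
  refine Finset.expect_congr rfl fun p _ => ?_
  symm
  refine (Finset.expect_congr rfl fun e' _ => ?_).trans (Finset.expect_const univ_nonempty _)
  refine Finset.expect_congr rfl fun e _ => ?_
  congr 1
  funext i
  by_cases h : J i <;> simp [φ, Equiv.piEquivPiSubtypeProd, h]

/-- Families of pairs. -/
theorem expect_pi_pair {ι A B : Type} [Fintype ι] [DecidableEq ι] [Fintype A] [Fintype B]
    (F : (ι → A × B) → ℝ) :
    (𝔼 x, F x) = 𝔼 a : ι → A, 𝔼 b : ι → B, F fun i => (a i, b i) := by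
  rw [← expect_equiv' (Equiv.arrowProdEquivProdArrow ι (fun _ => A) fun _ => B).symm F,
    expect_prod']
  rfl

end Vale.Agent.P325
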