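import Vale.Agent.P325.PTF
import Vale.Agent.P325.Four

/-!
Definitions for the inner reduction (part INNER of notes/P325.md, simplified, see notes/P325inner.md).
`K = F2 l`, `VV l D = K × F2 D`, `Zi k` indexes the coordinates: `none` is the coordinate `t`,
`some (i, j)` is slot `j` of the `i`-th equation.  A point is `M : Zi k → VV l D`.
-/

namespace Vale.Agent.P325

open Finset
open scoped BigOperators

abbrev Zi (k : ℕ) : Type := Option (Fin k × Fin 3)

abbrev VV (l D : ℕ) : Type := F2 l × F2 D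

/-- The rank one point `j ↦ y j • v`. -/
def rk1 {Z V : Type} [SMul (ZMod 2) V] (y : Z → ZMod 2) (v : V) : Z → V := fun j => y j • v

/-- The anchor of a block; it is shift equivariant and vanishes on blocks with at most one
nonzero entry. -/
def anc {V : Type} [DecidableEq V] (m : Fin 3 → V) : V := if m 0 = m 1 then m 0 else m 2

section vert

variable {k l D : ℕ}

def blk (M : Zi k → VV l D) (i : Fin k) : Fin 3 → VV l D := fun j => M (some (i, j))

/-- Reduced blocks. -/
def red (M : Zi k → VV l D) (p : Fin k × Fin 3) : VV l D := M (some p) + anc (blk M p.1)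

/-- The folded constant term. -/
def cen (U : Fin k → C3) (M : Zi k → VV l D) : VV l D :=
  M none + ∑ i, (U i).2.val • anc (blk M i)

/-- The variable names a vertex remembers. -/
def nms (U : Fin k → C3) (M : Zi k → VV l D) (p : Fin k × Fin 3) : ℕ :=
  if red M p = 0 then 0 else (U p.1).1 p.2

abbrev Vert (k l D : ℕ) : Type := ((Fin k × Fin 3 → VV l D) × F2 D) × (Fin k × Fin 3 → ℕ)

def vert (U : Fin k → C3) (M : Zi k → VV l D) : Vert k l D := ((red M, (cen U M).2), nms U M)

/-- The function read from the table `T`. -/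
def fU (T : Vert k l D → F2 l) (U : Fin k → C3) (M : Zi k → VV l D) : F2 l :=
  T (vert U M) + (cen U M).1

/-- Acceptance probability of the test for the tuple `U`. -/
noncomputable def acc {Ω : Type} [Fintype Ω] (a : Ω → VV l D) (T : Vert k l D → F2 l)
    (U : Fin k → C3) : ℝ :=
  𝔼 M : Zi k → VV l D, 𝔼 ω, 𝔼 y : Zi k → ZMod 2, ind (fU T U M = fU T U (M + rk1 y (a ω)))

/-- The indicator of the label `y` along the direction `κ`. -/
noncomputable def lin {Z : Type} (f : (Z → VV l D) → F2 l) (y κ : F2 l) (M : Z → VV l D) :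
    (Z → ZMod 2) → ℝ := fun n => ind (f (M + rk1 n ((κ, 0) : VV l D)) = y)

end vert

section best

variable {Z : Type} [Fintype Z] [DecidableEq Z]

theorem exists_best (t : Z) (h : (Z → ZMod 2) → ℝ) :
    ∃ z : Z → ZMod 2, z t = 1 ∧ ∀ z' : Z → ZMod 2, z' t = 1 → |hat h z'| ≤ |hat h z| := by
  obtain ⟨z, hz, hm⟩ := Finset.exists_max_image (univ.filter fun z : Z → ZMod 2 => z t = 1)
    (fun z => |hat h z|) ⟨fun _ => 1, by simp⟩
  exact ⟨z, (mem_filter.1 hz).2, fun z' h' => hm z' (by simp [h'])⟩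

/-- A largest Fourier coefficient among those with `z t = 1`. -/
noncomputable def best (t : Z) (h : (Z → ZMod 2) → ℝ) : Z → ZMod 2 := (exists_best t h).choose

noncomputable def beta (t : Z) (h : (Z → ZMod 2) → ℝ) : ℝ := |hat h (best t h)|

theorem best_apply (t : Z) (h : (Z → ZMod 2) → ℝ) : best t h t = 1 :=
  (exists_best t h).choose_spec.1

theorem le_beta {t : Z} (h : (Z → ZMod 2) → ℝ) {z : Z → ZMod 2} (hz : z t = 1) :
    |hat h z| ≤ beta t h := (exists_best t h).choose_spec.2 z hz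

theorem beta_nonneg (t : Z) (h : (Z → ZMod 2) → ℝ) : 0 ≤ beta t h := abs_nonneg _

/-- The signed integrand whose mean is `beta`. -/
noncomputable def psi (t : Z) (h : (Z → ZMod 2) → ℝ) (n : Z → ZMod 2) : ℝ :=
  Real.sign (hat h (best t h)) * (h n * chi (best t h ⬝ᵥ n))

theorem expect_psi (t : Z) (h : (Z → ZMod 2) → ℝ) : 𝔼 n, psi t h n = beta t h := by
  unfold psi beta
  rw [← Finset.mul_expect]
  change Real.sign (hat h (best t h)) * hat h (best t h) = _
  rcases lt_trichotomy (hat h (best t h)) 0 with h0 | h0 | h0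
  · rw [Real.sign_of_neg h0, abs_of_neg h0]; ring
  · rw [h0]; simp
  · rw [Real.sign_of_pos h0, abs_of_pos h0]; ring

theorem abs_sign_le (x : ℝ) : |Real.sign x| ≤ 1 := by
  rcases Real.sign_apply_eq x with h | h | h <;> rw [h] <;> norm_num

theorem abs_psi_le (t : Z) {h : (Z → ZMod 2) → ℝ} (hh : ∀ n, |h n| ≤ 1) (n : Z → ZMod 2) :
    |psi t h n| ≤ 1 := by
  unfold psi
  rw [abs_mul, abs_mul, abs_chi, mul_one]
  exact mul_le_one₀ (abs_sign_le _) (abs_nonneg _) (hh n)

end best

section zoom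

variable {m n : Type} [Fintype m] [DecidableEq m] [Fintype n] [DecidableEq n] {r : ℕ}

open Classical in
/-- The zoom subgroup. -/
noncomputable def zoom (z : Fin r → n → ZMod 2) (φ : Fin r → m → ZMod 2) :
    Finset (Matrix m n (ZMod 2)) :=
  univ.filter fun B : Matrix m n (ZMod 2) =>
    (∀ i, B.mulVec (z i) = 0) ∧ ∀ i, Matrix.vecMul (φ i) B = 0

theorem mem_zoom {z : Fin r → n → ZMod 2} {φ : Fin r → m → ZMod 2} {B : Matrix m n (ZMod 2)} :
    B ∈ zoom z φ ↔ (∀ i, B.mulVec (z i) = 0) ∧ ∀ i, Matrix.vecMul (φ i) B = 0 := by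
  simp [zoom]

/-- The label of `N` is dense on some zoom through `N`. -/
def Dense (r : ℕ) (ε : ℝ) {Y : Type} (g : Matrix m n (ZMod 2) → Y) (N : Matrix m n (ZMod 2)) :
    Prop :=
  ∃ (z : Fin r → n → ZMod 2) (φ : Fin r → m → ZMod 2), ε < 𝔼 B ∈ zoom z φ, ind (g (N + B) = g N)

end zoom

/-- Small set expansion for given parameters. -/
def SSEat (ξ : ℝ) (r : ℕ) (ε : ℝ) : Prop :=
  ∀ (m n : Type) [Fintype m] [DecidableEq m] [Fintype n] [DecidableEq n]
    (S : Finset (Matrix m n (ZMod 2))),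
    (∀ (z : Fin r → n → ZMod 2) (φ : Fin r → m → ZMod 2) (T : Matrix m n (ZMod 2)),
      (𝔼 B ∈ zoom z φ, ind (T + B ∈ S)) ≤ ε) →
    (𝔼 A : Matrix m n (ZMod 2), 𝔼 w : m → ZMod 2, 𝔼 y : n → ZMod 2,
        ind (A ∈ S ∧ A + Matrix.vecMulVec w y ∈ S)) ≤ ξ * 𝔼 A : Matrix m n (ZMod 2), ind (A ∈ S)

theorem sseat_of (h : SSEStmt) {ξ : ℝ} (hξ : 0 < ξ) : ∃ (r : ℕ) (ε : ℝ), 0 < ε ∧ SSEat ξ r ε := by
  obtain ⟨r, ε, hε, H⟩ := h ξ hξ
  exact ⟨r, ε, hε, fun m n _ _ _ _ S hS => H m n S hS⟩

section coll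

variable {k l D : ℕ}

/-- A block of the pair (point, direction). -/
abbrev Blk (l D : ℕ) : Type := Fin 3 → VV l D × ZMod 2

/-- Seeds of a collapsed block: visibility coin and slot, and the bit. -/
abbrev Sd : Type := (Bool × Fin 3) × ZMod 2

/-- The collapsed block. -/
def col (l D : ℕ) (s : Sd) : Blk l D :=
  fun j => (0, if s.1.1 = true ∧ j = s.1.2 then s.2 else 0)

def asmM (x0 : VV l D × ZMod 2) (X : Fin k → Blk l D) : Zi k → VV l D
  | none => x0.1
  | some p => (X p.1 p.2).1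

def asmN (x0 : VV l D × ZMod 2) (X : Fin k → Blk l D) : Zi k → ZMod 2
  | none => x0.2
  | some p => (X p.1 p.2).2

/-- The integrand of step (4). -/
noncomputable def psiU (T : Vert k l D → F2 l) (y κ : F2 l) (U : Fin k → C3)
    (x0 : VV l D × ZMod 2) (X : Fin k → Blk l D) : ℝ :=
  psi none (lin (fU T U) y κ (asmM x0 X)) (asmN x0 X)

/-- What the second player sees. -/
def view (c : C3) (σ : Bool × Fin 3) : Option (Fin 3 × ℕ) :=
  if σ.1 = true then some (σ.2, c.1 σ.2) else none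

end coll

end Vale.Agent.P325
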