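import Vale.Agent.P325.InnerAux

/-!
The equation versus variable game, in the form used by step (4).
Plan.  Apply `RepStmt` with `E' = E × Fin 3`, `V = E`, `U = Fin 3 × ℕ`, `A = Fin 3 → ZMod 2`,
`B = ZMod 2`, `v (e, j) = e`, `u (e, j) = (j, (eqn e).1 j)`, `π (e, j) x = rep e x j` where
`rep e x = if ∑ j, x j = (eqn e).2.val then x else ![(eqn e).2.val, 0, 0]` always satisfies the
equation, `γ = 1/12` (`γ ^ 2 / 32 = 1 / 4608`).
Value: for `f, g` put `a j x = g (j, x)`; if `¬ sat3 a (eqn e)` then `rep e (f e) j ≠ g (u (e, j))` for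
some `j`, so `𝔼 j, ind (..) ≤ 2/3`; pointwise `𝔼 j, ind (..) ≤ 2/3 + ind (sat3 a (eqn e)) / 3`, the mean
is `≤ 2/3 + 1/4 = 1 - 1/12`.
Strategies: `F = z`, `G q b = if ∀ i, (b i).isSome = (q i).isSome then
|hat (H q) fun i => (b i).getD 0| else 0`.  `b ↦ fun i => (b i).getD 0` is injective on the `b` with
the given pattern, so `∑ b, G q b ^ 2 ≤ ∑ w, hat (H q) w ^ 2 = 𝔼 u, H q u ^ 2 ≤ 1`
(`perf_dot.parseval`; `Finset.sum_le_sum_of_injOn`-type lemma or `sum_image`).
Finally `𝔼 e, 𝔼 σ : I → Bool × Fin 3` is `𝔼 e' : I → E × Fin 3, 𝔼 m : I → Bool` (`expect_pi_pair`,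
`Finset.expect_comm`) and pointwise `Φ e σ ≤ G (view) (answer)`: in the first case `G ≥ 0`, in the
second `rep (e i) (z e i) = z e i`.
-/

namespace Vale.Agent.P325

open Finset
open scoped BigOperators

/-- Repair of an answer so that it satisfies the equation. -/
def game_rep (c : C3) (x : Fin 3 → ZMod 2) : Fin 3 → ZMod 2 :=
  if ∑ j, x j = c.2.val then x else ![c.2.val, 0, 0]

theorem game_rep_sum (c : C3) (x : Fin 3 → ZMod 2) : ∑ j, game_rep c x j = c.2.val := by
  unfold game_rep
  split_ifs with h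
  · exact h
  · simp [Fin.sum_univ_three]

theorem game_point (c : C3) (x : Fin 3 → ZMod 2) (g : Fin 3 × ℕ → ZMod 2) :
    (𝔼 j, ind (game_rep c x j = g (j, c.1 j))) ≤
      2 / 3 + 1 / 3 * ind (sat3 (fun j n => g (j, n)) c) := by
  by_cases h : sat3 (fun j n => g (j, n)) c
  · rw [ind_pos h]
    exact (expect_le_of_le fun j => ind_le_one' _).trans (by norm_num)
  · rw [ind_neg h, Finset.expect_eq_sum_div_card, Fin.sum_univ_three]
    have h0 := ind_le_one' (game_rep c x 0 = g (0, c.1 0))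
    have h1 := ind_le_one' (game_rep c x 1 = g (1, c.1 1))
    have h2 := ind_le_one' (game_rep c x 2 = g (2, c.1 2))
    have h3 : ∃ j, ¬ game_rep c x j = g (j, c.1 j) := by
      by_contra h4
      apply h
      rw [sat3, ← game_rep_sum c x]
      exact sum_congr rfl fun j _ => (not_not.1 fun h5 => h4 ⟨j, h5⟩).symm
    obtain ⟨j, hj⟩ := h3
    have h4 := ind_neg hj
    rw [card_univ, Fintype.card_fin]
    push_cast
    fin_cases j
    · have h5 : ind (game_rep c x 0 = g (0, c.1 0)) = 0 := h4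
      linarith
    · have h5 : ind (game_rep c x 1 = g (1, c.1 1)) = 0 := h4
      linarith
    · have h5 : ind (game_rep c x 2 = g (2, c.1 2)) = 0 := h4
      linarith

theorem game_sq {I U : Type} [Fintype I] [DecidableEq I] (q : I → Option U)
    (h : (I → ZMod 2) → ℝ) (hh : ∀ u, |h u| ≤ 1) :
    ∑ b : I → Option (ZMod 2), (if ∀ i, (b i).isSome = (q i).isSome then
      |hat h fun i => (b i).getD 0| else 0) ^ 2 ≤ 1 := by
  have h1 : ∑ b : I → Option (ZMod 2), (if ∀ i, (b i).isSome = (q i).isSome then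
      |hat h fun i => (b i).getD 0| else 0) ^ 2 =
      ∑ b ∈ univ.filter (fun b : I → Option (ZMod 2) => ∀ i, (b i).isSome = (q i).isSome),
        hat h (fun i => (b i).getD 0) ^ 2 := by
    rw [sum_filter]
    refine sum_congr rfl fun b _ => ?_
    split_ifs
    · exact sq_abs _
    · simp
  rw [h1, ← sum_image (f := fun w => hat h w ^ 2)
    (g := fun (b : I → Option (ZMod 2)) i => (b i).getD 0)]
  · refine (sum_le_sum_of_subset_of_nonneg (subset_univ _) fun _ _ _ => sq_nonneg _).trans ?_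
    rw [perf_dot.parseval]
    exact expect_le_of_le fun u => by rw [← sq_abs]; exact pow_le_one₀ (abs_nonneg _) (hh u)
  · intro b hb b' hb' e
    funext i
    have e1 : (b i).getD 0 = (b' i).getD 0 := congrFun e i
    have e2 := ((mem_filter.1 (mem_coe.1 hb)).2 i).trans ((mem_filter.1 (mem_coe.1 hb')).2 i).symm
    revert e1 e2
    cases b i <;> cases b' i <;> simp

theorem game (hR : RepStmt) {E I : Type} [Fintype E] [Nonempty E] [Fintype I] [DecidableEq I]
    (eqn : E → C3) (hv : ∀ a, (𝔼 e, ind (sat3 a (eqn e))) ≤ 3 / 4)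
    (z : (I → E) → I → Fin 3 → ZMod 2) (H : (I → Option (Fin 3 × ℕ)) → (I → ZMod 2) → ℝ)
    (hH : ∀ q u, |H q u| ≤ 1) (Φ : (I → E) → (I → Bool × Fin 3) → ℝ)
    (hΦ : ∀ e, (∀ σ, Φ e σ ≤ 0) ∨ ((∀ i, ∑ j, z e i j = (eqn (e i)).2.val) ∧ ∀ σ,
      Φ e σ ≤ |hat (H fun i => view (eqn (e i)) (σ i))
        fun i => if (σ i).1 = true then z e i (σ i).2 else 0|)) :
    (𝔼 e, 𝔼 σ, Φ e σ) ≤ (1 - 1 / 4608) ^ Fintype.card I := by
  have h1 := hR (E × Fin 3) E (Fin 3 × ℕ) (Fin 3 → ZMod 2) (ZMod 2) I (fun p => p.1)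
    (fun p => (p.2, (eqn p.1).1 p.2)) (fun p x => game_rep (eqn p.1) x p.2) (1 / 12)
    (by norm_num) (by norm_num) (fun f g => by
      rw [expect_prod']
      refine (expect_mono' fun e => game_point (eqn e) (f e) g).trans ?_
      rw [Finset.expect_add_distrib, ← Finset.mul_expect, Finset.expect_const univ_nonempty]
      linarith [hv fun j n => g (j, n)]) z
    (fun q b => if ∀ i, (b i).isSome = (q i).isSome then |hat (H q) fun i => (b i).getD 0| else 0)
    (fun q => game_sq q (H q) (hH q))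
  rw [show (1 / 12 : ℝ) ^ 2 / 32 = 1 / 4608 by norm_num, expect_pi_pair] at h1
  refine le_trans (expect_mono' fun e => ?_) h1
  rw [expect_pi_pair, Finset.expect_comm]
  refine expect_mono' fun j => expect_mono' fun m => ?_
  rcases hΦ e with h | ⟨h, h'⟩
  · refine (h _).trans ?_
    split_ifs
    · exact abs_nonneg _
    · exact le_rfl
  · refine (h' _).trans (le_of_eq ?_)
    rw [if_pos fun i => by by_cases hm : m i = true <;> simp [hm]]
    have e1 : (fun i => if (m i, j i).1 = true then z e i (m i, j i).2 else 0) = fun i =>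
        (if m i = true then some (game_rep (eqn (e i)) (z e i) (j i)) else none).getD 0 := by
      funext i
      by_cases hm : m i = true <;> simp [hm, game_rep, h i]
    rw [e1]
    rfl

end Vale.Agent.P325
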