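import Vale.Agent.P325.InnerAux

/-!
Invariances of the folded function `fU`.
Plan.  `anc_add`: `anc (fun j => m j + a) = anc m + a`.
`fU_shiftK`: the blocks do not change (`Pi.single none 1 (some p) = 0`), so `red`, `nms` do not
change and `cen` changes by `(κ, 0)`.
`fU_diag`: block `i` is shifted by `(a, a, a)`, `M none` by `b • a` (`b = (U i).2.val`); `red` and `nms`
do not change, `cen` changes by `b • a + b • a = 0` (characteristic two: `CharTwo.add_self_eq_zero`
or `z2_add_self` with `← add_smul`; split the sum with `Finset.sum_erase`/`Finset.sum_add_distrib`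
and `Finset.sum_ite_eq`).
`lin_sat`: `h = lin (fU T U) y κ M` satisfies `h (n + dg U i) = h n` (`rk1` is additive in the first
argument, `fU_diag`), so `Perf.hatB_shift` gives `hat h z = hat h z * chi (z ⬝ᵥ dg U i)`, hence
`z ⬝ᵥ dg U i = 0`; `z ⬝ᵥ dg U i = z none * b + ∑ j, z (some (i, j))` (`Fintype.sum_option`,
`Fintype.sum_prod_type`).
`fU_congr`: `cen` agrees termwise (`• 0`), `nms` agrees since `red M (i, j) = M (some (i, j))` when
the anchor vanishes.
-/

namespace Vale.Agent.P325

open Finset
open scoped BigOperators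

variable {k l D : ℕ}

/-- The direction of the `i`-th equation. -/
def dg (U : Fin k → C3) (i : Fin k) : Zi k → ZMod 2
  | none => (U i).2.val
  | some p => if p.1 = i then 1 else 0

theorem inv_anc_add (m : Fin 3 → VV l D) (a : VV l D) : anc (fun j => m j + a) = anc m + a := by
  unfold anc
  simp only [add_left_inj]
  split_ifs <;> rfl

theorem inv_add_self (a : VV l D) : a + a = 0 := by
  rw [← two_smul (ZMod 2) a, show (2 : ZMod 2) = 0 from rfl, zero_smul]

theorem fU_shiftK (T : Vert k l D → F2 l) (U : Fin k → C3) (M : Zi k → VV l D) (κ : F2 l) :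
    fU T U (M + rk1 (Pi.single none (1 : ZMod 2) : Zi k → ZMod 2) ((κ, 0) : VV l D)) =
      fU T U M + κ := by
  set M' := M + rk1 (Pi.single none (1 : ZMod 2) : Zi k → ZMod 2) ((κ, 0) : VV l D) with hM
  have h1 : ∀ p, M' (some p) = M (some p) := fun p => by simp [hM, rk1]
  have h2 : ∀ i, blk M' i = blk M i := fun i => funext fun j => h1 _
  have h3 : red M' = red M := funext fun p => by rw [red, red, h1, h2]
  have h4 : cen U M' = cen U M + (κ, 0) := by
    simp only [cen, h2]
    rw [show M' none = M none + (κ, 0) by simp [hM, rk1]]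
    abel
  have h5 : nms U M' = nms U M := funext fun p => by rw [nms, nms, h3]
  rw [fU, fU, vert, vert, h3, h4, h5, Prod.snd_add, Prod.fst_add, add_zero, add_assoc]

theorem fU_diag (T : Vert k l D → F2 l) (U : Fin k → C3) (M : Zi k → VV l D) (i : Fin k)
    (a : VV l D) : fU T U (M + rk1 (dg U i) a) = fU T U M := by
  set M' := M + rk1 (dg U i) a with hM
  have h1 : ∀ p : Fin k × Fin 3, M' (some p) = M (some p) + (if p.1 = i then a else 0) :=
    fun p => by by_cases h : p.1 = i <;> simp [hM, rk1, dg, h]
  have h2 : ∀ i', anc (blk M' i') = anc (blk M i') + (if i' = i then a else 0) := fun i' => by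
    rw [← inv_anc_add]
    congr 1
    funext j
    exact h1 (i', j)
  have h3 : red M' = red M := funext fun p => by
    rw [red, red, h1, h2, add_add_add_comm, inv_add_self, add_zero]
  have h4 : cen U M' = cen U M := by
    simp only [cen, h2, smul_add, Finset.sum_add_distrib, smul_ite, smul_zero, Finset.sum_ite_eq',
      mem_univ, if_true]
    rw [show M' none = M none + (U i).2.val • a from rfl, add_add_add_comm, inv_add_self, add_zero]
  have h5 : nms U M' = nms U M := funext fun p => by rw [nms, nms, h3]
  rw [fU, fU, vert, vert, h3, h4, h5]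

theorem lin_sat (T : Vert k l D → F2 l) (U : Fin k → C3) (y κ : F2 l) (M : Zi k → VV l D)
    {z : Zi k → ZMod 2} (hz : z none = 1) (h : hat (lin (fU T U) y κ M) z ≠ 0) (i : Fin k) :
    ∑ j, z (some (i, j)) = (U i).2.val := by
  have h1 : (fun n => lin (fU T U) y κ M (n + dg U i)) = lin (fU T U) y κ M := by
    funext n
    have e : rk1 (n + dg U i) ((κ, 0) : VV l D) =
        rk1 n ((κ, 0) : VV l D) + rk1 (dg U i) ((κ, 0) : VV l D) := funext fun j => add_smul _ _ _
    simp only [lin]
    rw [e, ← add_assoc, fU_diag]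
  have h2 := perf_dot.hatB_shift (lin (fU T U) y κ M) (dg U i) z
  rw [h1] at h2
  have h3 : chi (z ⬝ᵥ dg U i) = 1 := by
    have := mul_left_cancel₀ h ((mul_one _).trans h2)
    exact this.symm
  have h4 : z ⬝ᵥ dg U i = 0 := by
    by_contra hne
    rw [z2_ne_zero.1 hne, chi_one] at h3
    norm_num at h3
  rw [dotProduct, Fintype.sum_option, Fintype.sum_prod_type, hz, one_mul,
    Finset.sum_eq_single i (fun i' _ hi => by simp [dg, hi]) (by simp)] at h4
  simp only [dg, if_true, mul_one] at h4
  exact (z2_add_eq_zero.1 h4).symm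

theorem fU_congr (T : Vert k l D → F2 l) {U U' : Fin k → C3} {M : Zi k → VV l D}
    (h : ∀ i, U i = U' i ∨
      (anc (blk M i) = 0 ∧ ∀ j, M (some (i, j)) ≠ 0 → (U i).1 j = (U' i).1 j)) :
    fU T U M = fU T U' M := by
  have h1 : cen U M = cen U' M := by
    unfold cen
    congr 1
    refine Finset.sum_congr rfl fun i _ => ?_
    rcases h i with h | h
    · rw [h]
    · rw [h.1, smul_zero, smul_zero]
  have h2 : nms U M = nms U' M := funext fun p => by
    unfold nms
    split_ifs with hp
    · rfl
    · rcases h p.1 with h | h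
      · rw [h]
      · refine h.2 p.2 fun e => hp ?_
        rw [red, h.1, add_zero]
        exact e
  rw [fU, fU, vert, vert, h1, h2]

end Vale.Agent.P325
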