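import Vale.Agent.P325.InnerAux

/-!
Step (1): from the gadget noise to rank one noise in `K`.
Plan.  `H = Z → VV l D`, `b = perf_dual` on `H` (get `Fintype (Module.Dual (ZMod 2) H)` from
`Fintype.ofFinite`; finiteness: `Module.finite_of_finite` or injectivity of the coercion).
(a) `ind (f M = f M') = ∑ c, ind (f M = c) * ind (f M' = c)` (`sum_ind_mul_ind`), so with
`h c M = ind (f M = c)` and `Perf.expect_mul_shift`:
`𝔼 M, ind (f M = f (M + s)) = ∑ c, ∑ φ, hatB b (h c) φ ^ 2 * chi (φ s)`, and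
`∑ c, ∑ φ, hatB b (h c) φ ^ 2 = ∑ c, 𝔼 M, h c M ^ 2 = 1` (`Perf.parseval`, `sum_ind_eq`).
(b) For `φ` in the dual put `Γ v = fun j => φ (Pi.single j v)` (linear in `v`).  Then
`φ (rk1 y v) = Γ v ⬝ᵥ y` (write `rk1 y v = ∑ j, y j • Pi.single j v`), so
`𝔼 y, chi (φ (rk1 y v)) = ind (Γ v = 0)` (`perf_dot.orth`).
(c) `𝔼 ω, ind (Γ (a ω) = 0) ≤ δ + 2 ^ r * 𝔼 κ, ind (Γ (κ, 0) = 0)`: if the rank is `≥ r` use `ha`;
otherwise the left side is `≤ 1` and `prob_ker` for `(Γ ∘ₗ inl).rangeRestrict` gives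
`𝔼 κ, ind (Γ (κ,0) = 0) ≥ 1 / card (range) = 2 ^ (-rank) ≥ 2 ^ (-r)` (`Module.card_eq_pow_finrank`).
(d) Swap the expectations over `M, ω, y` and sum (c) against the weights `hatB ^ 2 ≥ 0`.
-/

namespace Vale.Agent.P325

open Finset
open scoped BigOperators

/-- The components of a functional on points. -/
noncomputable def s1_gam {Z V : Type} [DecidableEq Z] [AddCommGroup V] [Module (ZMod 2) V]
    (φ : Module.Dual (ZMod 2) (Z → V)) : V →ₗ[ZMod 2] (Z → ZMod 2) :=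
  LinearMap.pi fun j => φ ∘ₗ LinearMap.single (ZMod 2) (fun _ : Z => V) j

theorem s1_apply {Z V : Type} [Fintype Z] [DecidableEq Z] [AddCommGroup V] [Module (ZMod 2) V]
    (φ : Module.Dual (ZMod 2) (Z → V)) (y : Z → ZMod 2) (v : V) :
    φ (rk1 y v) = s1_gam φ v ⬝ᵥ y := by
  rw [← Finset.univ_sum_single (rk1 y v), map_sum, dotProduct]
  refine Finset.sum_congr rfl fun j _ => ?_
  rw [rk1, Pi.single_smul, map_smul, smul_eq_mul, mul_comm]
  rfl

theorem s1_ker {A C : Type} [AddCommGroup A] [Module (ZMod 2) A] [Fintype A] [AddCommGroup C]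
    [Module (ZMod 2) C] [Fintype C] (ψ : A →ₗ[ZMod 2] C) {r : ℕ}
    (h : Module.finrank (ZMod 2) (LinearMap.range ψ) ≤ r) : 1 ≤ 2 ^ r * 𝔼 a, ind (ψ a = 0) := by
  classical
  have h1 := prob_ker ψ.rangeRestrict.toAddMonoidHom
  rw [Module.card_eq_pow_finrank (K := ZMod 2), ZMod.card] at h1
  have h2 : (𝔼 a, ind (ψ.rangeRestrict.toAddMonoidHom a = 0)) = 𝔼 a, ind (ψ a = 0) :=
    Finset.expect_congr rfl fun a _ => ind_congr Subtype.ext_iff
  rw [h2] at h1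
  push_cast at h1
  have h3 : (2 : ℝ) ^ Module.finrank (ZMod 2) (LinearMap.range ψ) ≤ 2 ^ r :=
    pow_le_pow_right₀ (by norm_num) h
  rw [inv_le_iff_one_le_mul₀' (by positivity)] at h1
  exact h1.trans (mul_le_mul_of_nonneg_right h3 (Finset.expect_nonneg fun _ _ => ind_nonneg _))

theorem step1 {l D r : ℕ} {Ω Z Y : Type} [Fintype Ω] [Nonempty Ω] [Fintype Z] [DecidableEq Z]
    [Fintype Y] (a : Ω → VV l D) {δ : ℝ} (hδ : 0 ≤ δ)
    (ha : ∀ Γ : VV l D →ₗ[ZMod 2] (Z → ZMod 2),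
      r ≤ Module.finrank (ZMod 2)
        (LinearMap.range (Γ ∘ₗ LinearMap.inl (ZMod 2) (F2 l) (F2 D))) →
      (𝔼 ω, ind (Γ (a ω) = 0)) ≤ δ)
    (f : (Z → VV l D) → Y) :
    (𝔼 M : Z → VV l D, 𝔼 ω, 𝔼 y : Z → ZMod 2, ind (f M = f (M + rk1 y (a ω)))) ≤
      δ + 2 ^ r * 𝔼 M : Z → VV l D, 𝔼 κ : F2 l, 𝔼 y : Z → ZMod 2,
        ind (f M = f (M + rk1 y ((κ, 0) : VV l D))) := by
  classical
  have hfin : Finite (Module.Dual (ZMod 2) (Z → VV l D)) :=
    Finite.of_injective _ DFunLike.coe_injective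
  let _ : Fintype (Module.Dual (ZMod 2) (Z → VV l D)) := Fintype.ofFinite _
  set w : Module.Dual (ZMod 2) (Z → VV l D) → ℝ := fun φ =>
    ∑ c, hatB (fun (φ : Module.Dual (ZMod 2) (Z → VV l D)) x => φ x)
      (fun M => ind (f M = c)) φ ^ 2 with hw
  have hw0 : ∀ φ, 0 ≤ w φ := fun φ => Finset.sum_nonneg fun _ _ => sq_nonneg _
  have ha1 : ∀ s, (𝔼 M, ind (f M = f (M + s))) = ∑ φ, w φ * chi (φ s) := fun s => by
    rw [Finset.expect_congr rfl fun M _ => (sum_ind_mul_ind (f M) (f (M + s))).symm,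
      Finset.expect_sum_comm, Finset.sum_congr rfl fun c _ =>
        perf_dual.expect_mul_shift (fun M => ind (f M = c)) (fun M => ind (f M = c)) s,
      Finset.sum_comm]
    refine Finset.sum_congr rfl fun φ _ => ?_
    rw [hw, Finset.sum_mul]
    exact Finset.sum_congr rfl fun c _ => by ring
  have hw1 : ∑ φ, w φ = 1 := by
    have := ha1 0
    simp only [add_zero, map_zero, chi_zero, mul_one, ind_pos trivial, Fintype.expect_const] at this
    exact this.symm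
  have key : ∀ v : VV l D, (𝔼 y : Z → ZMod 2, 𝔼 M : Z → VV l D, ind (f M = f (M + rk1 y v))) =
      ∑ φ, w φ * ind (s1_gam φ v = 0) := fun v => by
    simp only [ha1, s1_apply]
    rw [Finset.expect_sum_comm]
    exact Finset.sum_congr rfl fun φ _ => by rw [← Finset.mul_expect, perf_dot.orth]
  have swap : ∀ {Θ : Type} [Fintype Θ] (v : Θ → VV l D), (𝔼 M : Z → VV l D, 𝔼 ω,
      𝔼 y : Z → ZMod 2, ind (f M = f (M + rk1 y (v ω)))) =
      ∑ φ, w φ * 𝔼 ω, ind (s1_gam φ (v ω) = 0) := fun v => by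
    rw [Finset.expect_comm]
    simp only [Finset.expect_comm (univ : Finset (Z → VV l D)) (univ : Finset (Z → ZMod 2)), key]
    rw [Finset.expect_sum_comm]
    exact Finset.sum_congr rfl fun φ _ => by rw [← Finset.mul_expect]
  rw [swap a, swap fun κ : F2 l => ((κ, 0) : VV l D), Finset.mul_sum, ← mul_one δ, ← hw1,
    Finset.mul_sum, ← Finset.sum_add_distrib]
  refine Finset.sum_le_sum fun φ _ => ?_
  have h3 : (𝔼 ω, ind (s1_gam φ (a ω) = 0)) ≤
      δ + 2 ^ r * 𝔼 κ : F2 l, ind (s1_gam φ ((κ, 0) : VV l D) = 0) := by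
    have h4 : 0 ≤ 𝔼 κ : F2 l, ind (s1_gam φ ((κ, 0) : VV l D) = 0) :=
      Finset.expect_nonneg fun _ _ => ind_nonneg _
    by_cases hr : r ≤ Module.finrank (ZMod 2)
        (LinearMap.range (s1_gam φ ∘ₗ LinearMap.inl (ZMod 2) (F2 l) (F2 D)))
    · exact (ha _ hr).trans (le_add_of_nonneg_right (by positivity))
    · have h5 := s1_ker (s1_gam φ ∘ₗ LinearMap.inl (ZMod 2) (F2 l) (F2 D)) (not_le.1 hr).le
      have h6 : (𝔼 ω, ind (s1_gam φ (a ω) = 0)) ≤ 1 := expect_le_of_le fun _ => ind_le_one _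
      exact h6.trans (h5.trans (le_add_of_nonneg_left hδ))
  nlinarith [mul_le_mul_of_nonneg_left h3 (hw0 φ)]

end Vale.Agent.P325
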