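import Vale.Agent.P325.InnerAux

/-!
Step (2): small set expansion applied to the level sets with the dense points removed.
Plan.  `S c = univ.filter fun N => g N = c ∧ ¬ Dense r ε g N`.  It satisfies the hypothesis of
`SSEat`: if no `B ∈ zoom z φ` has `T + B ∈ S c` the density is `0 ≤ ε`; otherwise take `B0` with
`N = T + B0 ∈ S c`; `zoom z φ` is closed under `B ↦ B0 + B` (an involution in characteristic two,
`Finset.expect_nbij'` or `expect_equiv`), so the density equals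
`𝔼 B ∈ zoom z φ, ind (N + B ∈ S c) ≤ 𝔼 B ∈ zoom z φ, ind (g (N + B) = g N) ≤ ε` as `N` is not dense.
Pointwise `ind (g N = g N') ≤ ind (Dense N) + ind (Dense N') + ∑ c, ind (N ∈ S c ∧ N' ∈ S c)`;
`N' = N + vecMulVec w y` is uniform when `N` is (`expect_add_right'` after `Finset.expect_comm`);
`∑ c, ξ * 𝔼 N, ind (N ∈ S c) ≤ ξ` because `∑ c, ind (N ∈ S c) ≤ ∑ c, ind (g N = c) = 1`.
-/

namespace Vale.Agent.P325

open Finset
open scoped BigOperators

section

variable {m n Y : Type} [Fintype m] [DecidableEq m] [Fintype n] [DecidableEq n] {r : ℕ}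

theorem s2_shift {z : Fin r → n → ZMod 2} {φ : Fin r → m → ZMod 2} {B0 : Matrix m n (ZMod 2)}
    (h0 : B0 ∈ zoom z φ) (F : Matrix m n (ZMod 2) → ℝ) :
    𝔼 B ∈ zoom z φ, F (B0 + B) = 𝔼 B ∈ zoom z φ, F B := by
  refine Finset.expect_equiv (Equiv.addLeft B0) (fun B => ?_) (by simp)
  rw [mem_zoom] at h0
  simp only [mem_zoom, Equiv.coe_addLeft, Matrix.add_mulVec, Matrix.vecMul_add, h0.1, h0.2,
    zero_add]

open Classical in
/-- level sets without the dense points -/
noncomputable def s2_S (r : ℕ) (ε : ℝ) (g : Matrix m n (ZMod 2) → Y) (c : Y) :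
    Finset (Matrix m n (ZMod 2)) := univ.filter fun N => g N = c ∧ ¬ Dense r ε g N

theorem s2_mem {ε : ℝ} {g : Matrix m n (ZMod 2) → Y} {c : Y} {N : Matrix m n (ZMod 2)} :
    N ∈ s2_S r ε g c ↔ g N = c ∧ ¬ Dense r ε g N := by simp [s2_S]

theorem s2_sparse {ε : ℝ} (hε : 0 ≤ ε) (g : Matrix m n (ZMod 2) → Y) (c : Y)
    (z : Fin r → n → ZMod 2) (φ : Fin r → m → ZMod 2) (T : Matrix m n (ZMod 2)) :
    (𝔼 B ∈ zoom z φ, ind (T + B ∈ s2_S r ε g c)) ≤ ε := by
  by_cases h : ∃ B0 ∈ zoom z φ, T + B0 ∈ s2_S r ε g c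
  · obtain ⟨B0, h0, h1⟩ := h
    rw [← s2_shift h0]
    obtain ⟨h2, h3⟩ := s2_mem.1 h1
    refine le_trans (Finset.expect_le_expect fun B _ => ind_mono fun h => ?_)
      (not_lt.1 fun h => h3 ⟨z, φ, h⟩)
    rw [add_assoc, (s2_mem.1 h).1, h2]
  · rw [Finset.expect_eq_zero fun B hB => ind_neg fun h' => h ⟨B, hB, h'⟩]
    exact hε

theorem s2_point [Fintype Y] {ε : ℝ} (g : Matrix m n (ZMod 2) → Y) (N N' : Matrix m n (ZMod 2)) :
    ind (g N = g N') ≤ ∑ c, ind (N ∈ s2_S r ε g c ∧ N' ∈ s2_S r ε g c) +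
      (ind (Dense r ε g N) + ind (Dense r ε g N')) := by
  have h0 : 0 ≤ ∑ c, ind (N ∈ s2_S r ε g c ∧ N' ∈ s2_S r ε g c) :=
    sum_nonneg fun c _ => ind_nonneg _
  have h1 := ind_nonneg (Dense r ε g N)
  have h2 := ind_nonneg (Dense r ε g N')
  have h3 := ind_le_one (g N = g N')
  by_cases hN : Dense r ε g N
  · rw [ind_pos hN]; linarith
  by_cases hN' : Dense r ε g N'
  · rw [ind_pos hN']; linarith
  by_cases he : g N = g N'
  · have := single_le_sum (f := fun c => ind (N ∈ s2_S r ε g c ∧ N' ∈ s2_S r ε g c))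
      (fun c _ => ind_nonneg _) (mem_univ (g N))
    rw [ind_pos ⟨s2_mem.2 ⟨rfl, hN⟩, s2_mem.2 ⟨he.symm, hN'⟩⟩] at this
    linarith
  · rw [ind_neg he]; linarith

end

theorem step2 {ξ ε : ℝ} {r : ℕ} (hξ : 0 ≤ ξ) (hε : 0 ≤ ε) (hS : SSEat ξ r ε) {m n Y : Type}
    [Fintype m] [DecidableEq m] [Fintype n] [DecidableEq n] [Fintype Y]
    (g : Matrix m n (ZMod 2) → Y) :
    (𝔼 N : Matrix m n (ZMod 2), 𝔼 w : m → ZMod 2, 𝔼 y : n → ZMod 2,
        ind (g N = g (N + Matrix.vecMulVec w y))) ≤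
      ξ + 2 * 𝔼 N : Matrix m n (ZMod 2), ind (Dense r ε g N) := by
  refine le_trans (expect_mono' fun N => expect_mono' fun w => expect_mono' fun y =>
    s2_point (r := r) (ε := ε) g N _) ?_
  simp only [Finset.expect_add_distrib, Finset.expect_sum_comm, Finset.expect_const univ_nonempty]
  refine add_le_add ?_ (le_of_eq ?_)
  · refine le_trans (sum_le_sum fun c _ => hS m n _ (s2_sparse hε g c)) ?_
    rw [← mul_sum, ← Finset.expect_sum_comm]
    refine mul_le_of_le_one_right hξ (expect_le_of_le fun N => ?_)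
    rw [← sum_ind_eq (g N)]
    exact sum_le_sum fun c _ => ind_mono fun h => (s2_mem.1 h).1
  · rw [two_mul, Finset.expect_comm]
    congr 1
    refine (Finset.expect_congr rfl fun w _ => ?_).trans (Finset.expect_const univ_nonempty _)
    rw [Finset.expect_comm]
    exact (Finset.expect_congr rfl fun y _ => expect_add_right' (fun N => ind (Dense r ε g N)) _).trans
      (Finset.expect_const univ_nonempty _)

end Vale.Agent.P325
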