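import Vale.Agent.P325.InnerInv
import Vale.Agent.P325.InnerGame

/-! Step (4), conditioned on the set of collapsed positions and on the data outside. -/

namespace Vale.Agent.P325

open Finset
open scoped BigOperators

section

variable {k l D : ℕ} (J : Fin k → Prop) [DecidablePred J] (x0 : VV l D × ZMod 2)
  (X : Fin k → Blk l D)

/-- Blocks collapsed on `J`. -/
def s4X (σ : {i // J i} → Bool × Fin 3) (u : {i // J i} → ZMod 2) : Fin k → Blk l D :=
  fun i => if h : J i then col l D (σ ⟨i, h⟩, u ⟨i, h⟩) else X i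

/-- The point with zero blocks on `J`. -/
def s4M : Zi k → VV l D := asmM x0 fun i => if J i then 0 else X i

theorem s4_asmM (σ : {i // J i} → Bool × Fin 3) (u : {i // J i} → ZMod 2) :
    asmM x0 (s4X J X σ u) = s4M J x0 X := by
  funext j
  rcases j with _ | ⟨i, j⟩
  · rfl
  · by_cases h : J i <;> simp [asmM, s4M, s4X, h, col]

/-- The direction as the second player sees it. -/
def s4N (q : {i // J i} → Option (Fin 3 × ℕ)) (u : {i // J i} → ZMod 2) : Zi k → ZMod 2 :=
  asmN x0 fun i => if h : J i then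
    (fun j => (0, if (q ⟨i, h⟩).map Prod.fst = some j then u ⟨i, h⟩ else 0)) else X i

/-- The equations as the second player sees them. -/
def s4U (U0 : Fin k → C3) (q : {i // J i} → Option (Fin 3 × ℕ)) : Fin k → C3 :=
  fun i => if h : J i then (fun _ => ((q ⟨i, h⟩).map Prod.snd).getD 0, ⟨0⟩) else U0 i

theorem s4_asmN (c : {i // J i} → C3) (σ : {i // J i} → Bool × Fin 3)
    (u : {i // J i} → ZMod 2) :
    s4N J x0 X (fun i => view (c i) (σ i)) u = asmN x0 (s4X J X σ u) := by
  funext j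
  rcases j with _ | ⟨i, j⟩
  · rfl
  · by_cases h : J i
    · cases hs : (σ ⟨i, h⟩).1 <;> simp [asmN, s4N, s4X, h, col, view, hs, eq_comm]
    · simp [asmN, s4N, s4X, h]

theorem s4_dot (w : Zi k → ZMod 2) (σ : {i // J i} → Bool × Fin 3) :
    ∃ c0 : ZMod 2, ∀ u : {i // J i} → ZMod 2, w ⬝ᵥ asmN x0 (s4X J X σ u) =
      c0 + (fun i : {i // J i} => if (σ i).1 = true then w (some (i.1, (σ i).2)) else 0) ⬝ᵥ u := by
  refine ⟨w none * x0.2 + ∑ i : {i // ¬ J i}, ∑ j, w (some (i.1, j)) * (X i.1 j).2, fun u => ?_⟩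
  have h1 : ∀ i, ∑ j, w (some (i, j)) * asmN x0 (s4X J X σ u) (some (i, j)) =
      if h : J i then (if (σ ⟨i, h⟩).1 = true then w (some (i, (σ ⟨i, h⟩).2)) else 0) * u ⟨i, h⟩
      else ∑ j, w (some (i, j)) * (X i j).2 := fun i => by
    by_cases h : J i
    · cases hs : (σ ⟨i, h⟩).1
      · simp [asmN, s4X, h, col, hs]
      · simp only [asmN, s4X, h, col, hs, dif_pos, true_and, mul_ite, mul_zero, if_true]
        rw [Finset.sum_ite_eq' univ (σ ⟨i, h⟩).2 fun j => w (some (i, j)) * u ⟨i, h⟩]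
        simp
    · simp [asmN, s4X, h]
  rw [dotProduct, Fintype.sum_option, Fintype.sum_prod_type]
  simp only [h1]
  rw [← Fintype.sum_subtype_add_sum_subtype J, dotProduct,
    Finset.sum_congr rfl fun (i : {i // J i}) _ => dif_pos i.2,
    Finset.sum_congr rfl fun (i : {i // ¬ J i}) _ => dif_neg i.2]
  change w none * x0.2 + _ = _
  ring

theorem s4_fU (T : Vert k l D → F2 l) (κ : F2 l) (U U0 : Fin k → C3)
    (hU : ∀ i, ¬ J i → U i = U0 i) (σ : {i // J i} → Bool × Fin 3) (u : {i // J i} → ZMod 2) :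
    fU T U (s4M J x0 X + rk1 (asmN x0 (s4X J X σ u)) ((κ, 0) : VV l D)) =
      fU T (s4U J U0 fun i => view (U i.1) (σ i))
        (s4M J x0 X + rk1 (asmN x0 (s4X J X σ u)) ((κ, 0) : VV l D)) := by
  refine fU_congr T fun i => ?_
  by_cases h : J i
  · right
    have h1 : ∀ j, (s4M J x0 X + rk1 (asmN x0 (s4X J X σ u)) ((κ, 0) : VV l D)) (some (i, j)) =
        if (σ ⟨i, h⟩).1 = true ∧ j = (σ ⟨i, h⟩).2 then u ⟨i, h⟩ • ((κ, 0) : VV l D) else 0 :=
      fun j => by
        simp only [Pi.add_apply, s4M, asmM, asmN, rk1, s4X, h, if_true, dif_pos, col, Pi.zero_apply,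
          Prod.fst_zero, zero_add]
        split_ifs <;> simp
    constructor
    · unfold anc blk
      simp only [h1]
      generalize u ⟨i, h⟩ • ((κ, 0) : VV l D) = v
      generalize σ ⟨i, h⟩ = s
      obtain ⟨b, j⟩ := s
      cases b
      · simp
      · fin_cases j <;> simp
    · intro j hj
      rw [h1] at hj
      have h2 : (σ ⟨i, h⟩).1 = true ∧ j = (σ ⟨i, h⟩).2 := by
        by_contra h3
        exact hj (if_neg h3)
      simp [s4U, h, view, h2.1, ← h2.2]
  · left
    simp [s4U, h, hU i h]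

end

theorem step4a (hR : RepStmt) {k l D : ℕ} {E : Type} [Fintype E] [Nonempty E] (eqn : E → C3)
    (hv : ∀ a, (𝔼 e, ind (sat3 a (eqn e))) ≤ 3 / 4) (T : Vert k l D → F2 l) (y κ : F2 l)
    (J : Fin k → Prop) [DecidablePred J] (x0 : VV l D × ZMod 2) (X : Fin k → Blk l D) :
    (𝔼 t : Fin k → E, 𝔼 s : Fin k → Sd,
      psiU T y κ (fun i => eqn (t i)) x0 fun i => if J i then col l D (s i) else X i) ≤
      (1 - 1 / 4608) ^ Fintype.card {i // J i} := by
  have h0 : ∀ U : Fin k → C3,
      (𝔼 s : Fin k → Sd, psiU T y κ U x0 fun i => if J i then col l D (s i) else X i) =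
        𝔼 σ : {i // J i} → Bool × Fin 3, 𝔼 u : {i // J i} → ZMod 2,
          psiU T y κ U x0 (s4X J X σ u) := fun U => by
    rw [expect_resample J]
    refine (Finset.expect_congr rfl fun s _ => ?_).trans (Finset.expect_const univ_nonempty _)
    rw [expect_pi_pair]
    refine Finset.expect_congr rfl fun σ _ => Finset.expect_congr rfl fun u _ => ?_
    congr 1
    funext i
    by_cases h : J i <;> simp [s4X, h]
  simp only [h0]
  rw [expect_resample J]
  refine expect_le_of_le fun t0 => ?_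
  let U : ({i // J i} → E) → Fin k → C3 := fun e i => eqn (if h : J i then e ⟨i, h⟩ else t0 i)
  have hU : ∀ e (i : {i // J i}), U e i.1 = eqn (e i) := fun e i => by simp [U, i.2]
  refine game hR eqn hv
    (fun e i j => best none (lin (fU T (U e)) y κ (s4M J x0 X)) (some (i.1, j)))
    (fun q u => lin (fU T (s4U J (fun i => eqn (t0 i)) q)) y κ (s4M J x0 X) (s4N J x0 X q u))
    (fun _ _ => abs_ind_le _)
    (fun e σ => 𝔼 u : {i // J i} → ZMod 2, psiU T y κ (U e) x0 (s4X J X σ u)) fun e => ?_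
  set h := lin (fU T (U e)) y κ (s4M J x0 X) with hh
  by_cases hz : hat h (best none h) = 0
  · left
    intro σ
    simp only [psiU, s4_asmM, ← hh, psi, hz, Real.sign_zero, zero_mul, Finset.expect_const_zero,
      le_refl]
  · right
    refine ⟨fun i => by rw [← hU]; exact lin_sat T (U e) y κ _ (best_apply _ _) hz i.1, fun σ => ?_⟩
    obtain ⟨c0, hc0⟩ := s4_dot J x0 X (best none h) σ
    have h2 : ∀ u, psiU T y κ (U e) x0 (s4X J X σ u) = (Real.sign (hat h (best none h)) * chi c0) *
        (lin (fU T (s4U J (fun i => eqn (t0 i)) fun i => view (eqn (e i)) (σ i))) y κ (s4M J x0 X)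
          (s4N J x0 X (fun i => view (eqn (e i)) (σ i)) u) *
          chi ((fun i : {i // J i} => if (σ i).1 = true then best none h (some (i.1, (σ i).2))
            else 0) ⬝ᵥ u)) := fun u => by
      have h3 := s4_fU J x0 X T κ (U e) (fun i => eqn (t0 i)) (fun i hi => by simp [U, hi]) σ u
      simp only [hU] at h3
      rw [psiU, s4_asmM, ← hh, psi, hc0, chi_add, s4_asmN, lin, ← h3, hh, lin]
      ring
    simp only [h2]
    rw [← Finset.mul_expect]
    refine (le_abs_self _).trans ?_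
    rw [abs_mul, abs_mul, abs_chi, mul_one]
    exact mul_le_of_le_one_left (abs_nonneg _) (abs_sign_le _)

end Vale.Agent.P325
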