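import Vale.Agent.P325.Defs
import Vale.Agent.P333.PTa

/-! Polynomial time kit and averaging lemmas for the Unique Games project. -/

namespace Vale.Agent.P325

open Vale.Agent.Lib.H23 Vale.Agent.P333 Finset Enc
open scoped BigOperators

section pt

variable {α β γ : Type} [Enc α] [Enc β] [Enc γ] {A B ι : Type}

theorem pt_ite {p : α → Prop} [DecidablePred p] {f g : α → β} (hp : PT fun x => decide (p x))
    (hf : PT f) (hg : PT g) : PT fun x => if p x then f x else g x :=
  (PT.cond hp hf hg).congr fun x => by by_cases h : p x <;> simp [h]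

theorem pt_decEq {f g : α → ℕ} (hf : PT f) (hg : PT g) : PT fun x => decide (f x = g x) :=
  PT.eqb hf hg

theorem pt_decLt {f g : α → ℕ} (hf : PT f) (hg : PT g) : PT fun x => decide (f x < g x) :=
  PT.ltb hf hg

theorem pt_decLe {f g : α → ℕ} (hf : PT f) (hg : PT g) : PT fun x => decide (f x ≤ g x) :=
  (PT.not (PT.ltb hg hf)).congr fun x => by by_cases h : f x ≤ g x <;> simp [h] <;> omega

/-- case distinction on finitely many cases. -/
theorem pt_cases [Finite A] [DecidableEq A] {k : α → A} (hk : ∀ a, PT fun x => decide (k x = a))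
    {g : A → α → β} (hg : ∀ a, PT (g a)) : PT fun x => g (k x) x := by
  rcases isEmpty_or_nonempty A with h | ⟨⟨a0⟩⟩
  · exact PT.id.of_enc fun x => isEmptyElim (k x)
  have := Fintype.ofFinite A
  have key : ∀ l : List A, PT fun x => if k x ∈ l then g (k x) x else g a0 x := by
    intro l
    induction l with
    | nil => exact (hg a0).congr fun x => by simp
    | cons a l ih =>
      refine (pt_ite (hk a) (hg a) ih).congr fun x => ?_
      by_cases h : k x = a <;> simp [h]
  exact (key univ.toList).congr fun x => by simp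

theorem pt_codeNum [Fintype A] {c : α → Code A} (hc : PT c) :
    PT fun x => (Fintype.equivFin A (c x).val : ℕ) := hc.of_enc fun _ => rfl

theorem pt_codeEq [Fintype A] [DecidableEq A] {c : α → Code A} (hc : PT c) (a : A) :
    PT fun x => decide ((c x).val = a) :=
  (pt_decEq (pt_codeNum hc) (PT.const (Fintype.equivFin A a : ℕ))).congr fun x => by
    simp [Fin.val_inj]

/-- case distinction on a code. -/
theorem pt_caseCode [Fintype A] {c : α → Code A} (hc : PT c) {g : A → α → β}
    (hg : ∀ a, PT (g a)) : PT fun x => g (c x).val x := by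
  classical exact pt_cases (pt_codeEq hc) hg

/-- every function of a code is polynomial time. -/
theorem pt_ofFin [Fintype A] (f : A → β) {c : α → Code A} (hc : PT c) :
    PT fun x => f (c x).val := pt_caseCode (g := fun a _ => f a) hc fun _ => PT.const _

theorem pt_mk [Fintype A] [Fintype B] (f : A → B) {c : α → Code A} (hc : PT c) :
    PT fun x => (⟨f (c x).val⟩ : Code B) := pt_ofFin (fun a => (⟨f a⟩ : Code B)) hc

theorem pt_mk2 {C : Type} [Fintype A] [Fintype B] [Fintype C] (f : A → B → C) {c : α → Code A}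
    {d : α → Code B} (hc : PT c) (hd : PT d) :
    PT fun x => (⟨f (c x).val (d x).val⟩ : Code C) :=
  pt_caseCode (g := fun a x => (⟨f a (d x).val⟩ : Code C)) hc fun a => pt_mk (f a) hd

theorem pt_code_of_dec [Fintype A] [DecidableEq A] {k : α → A}
    (hk : ∀ a, PT fun x => decide (k x = a)) : PT fun x => (⟨k x⟩ : Code A) :=
  pt_cases (g := fun a _ => (⟨a⟩ : Code A)) hk fun _ => PT.const _

theorem pt_codeBool {b : α → Bool} (hb : PT b) : PT fun x => (⟨b x⟩ : Code Bool) :=
  pt_code_of_dec fun a => by
    cases a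
    · exact hb.not.congr fun x => by simp
    · exact hb.congr fun x => by simp

theorem pt_codeFin {n : ℕ} {k : α → Fin n} (hk : PT fun x => (k x : ℕ)) :
    PT fun x => (⟨k x⟩ : Code (Fin n)) :=
  pt_code_of_dec fun a => (pt_decEq hk (PT.const (a : ℕ))).congr fun x => by simp [Fin.val_inj]

theorem pt_mapConst (l : List ι) {g : ι → α → β} (hg : ∀ i, PT (g i)) :
    PT fun x => l.map fun i => g i x := by
  induction l with
  | nil => exact PT.const []
  | cons i l ih => exact PT.cons (hg i) ih

theorem pt_flatMapConst (l : List ι) {g : ι → α → List β} (hg : ∀ i, PT (g i)) :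
    PT fun x => l.flatMap fun i => g i x :=
  (pt_flatten (pt_mapConst l hg)).congr fun _ => List.flatMap_def

theorem pt_allConst (l : List ι) {g : ι → α → Bool} (hg : ∀ i, PT (g i)) :
    PT fun x => l.all fun i => g i x := by
  induction l with
  | nil => exact PT.const true
  | cons i l ih => exact PT.and (hg i) ih

theorem pt_forall [Fintype ι] {p : ι → α → Prop} [∀ i x, Decidable (p i x)]
    [∀ x, Decidable (∀ i, p i x)] (hp : ∀ i, PT fun x => decide (p i x)) :
    PT fun x => decide (∀ i, p i x) :=
  (pt_allConst univ.toList hp).congr fun x => by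
    rw [Bool.eq_iff_iff]; simp

/-- a finite family of codes gives the code of the family. -/
theorem pt_codeFun [Fintype A] [Fintype ι] [DecidableEq ι] {k : α → ι → A}
    (hk : ∀ i, PT fun x => (⟨k x i⟩ : Code A)) : PT fun x => (⟨k x⟩ : Code (ι → A)) := by
  classical
  exact pt_code_of_dec fun a => (pt_forall (p := fun i x => k x i = a i)
    fun i => pt_codeEq (hk i) (a i)).congr fun x => by simp [funext_iff]

/-- a function of a finite family of codes. -/
theorem pt_mkF [Fintype A] [Fintype B] [Fintype ι] (f : (ι → A) → B) {c : ι → α → Code A}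
    (hc : ∀ i, PT (c i)) : PT fun x => (⟨f fun i => (c i x).val⟩ : Code B) := by
  classical exact pt_mk f (pt_codeFun (k := fun x i => (c i x).val) hc)

theorem pt_ofFn {n : ℕ} {f : α → Fin n → β} (hf : PT f) : PT fun x => List.ofFn (f x) :=
  hf.of_enc fun _ => rfl

theorem enc_map_enc (l : List β) : enc (l.map (enc : β → Tr)) = enc l := by
  induction l with
  | nil => rfl
  | cons a l ih => rw [List.map_cons, enc_cons, enc_cons, ih]; rfl

/-- entry of a list at an index in range. -/
theorem pt_get {l : α → List β} {k : α → ℕ} (hl : PT l) (hk : PT k)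
    (h : ∀ x, k x < (l x).length) : PT fun x => (l x)[k x]'(h x) := by
  have h1 : PT fun x => (l x).map (enc : β → Tr) := hl.of_enc fun x => enc_map_enc _
  refine (PT.getD h1 hk (PT.const Tr.nil)).of_enc fun x => ?_
  rw [List.getD_eq_getElem _ _ (by simpa using h x), List.getElem_map]; rfl

theorem pt_apply {n : ℕ} {f : α → Fin n → β} (hf : PT f) (i : Fin n) :
    PT fun x => f x i :=
  (pt_get (pt_ofFn hf) (PT.const (i : ℕ)) fun x => by simp).congr fun x => by simp

theorem pt_pi {n : ℕ} {f : α → Fin n → β} (hf : ∀ i, PT fun x => f x i) : PT f :=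
  (pt_mapConst (List.finRange n) hf).of_enc fun x => by
    rw [← List.ofFn_eq_map]; rfl

theorem pt_applyCode {n : ℕ} {f : α → Fin n → β} {i : α → Code (Fin n)} (hf : PT f) (hi : PT i) :
    PT fun x => f x (i x).val := pt_caseCode (g := fun a x => f x a) hi fun a => pt_apply hf a

theorem pt_finCons {n : ℕ} {a : α → β} {f : α → Fin n → β} (ha : PT a) (hf : PT f) :
    PT fun x => (Fin.cons (a x) (f x) : Fin (n + 1) → β) :=
  (PT.cons ha (pt_ofFn hf)).of_enc fun x => by
    change enc (List.ofFn (Fin.cons (a x) (f x) : Fin (n + 1) → β)) = _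
    rw [List.ofFn_succ]; rfl

theorem pt_vec2 {a b : α → β} (ha : PT a) (hb : PT b) : PT fun x => ![a x, b x] :=
  pt_pi fun i => by fin_cases i <;> simpa

theorem pt_vec3 {a b c : α → β} (ha : PT a) (hb : PT b) (hc : PT c) :
    PT fun x => ![a x, b x, c x] := pt_pi fun i => by fin_cases i <;> simpa

theorem pt_vec4 {a b c d : α → β} (ha : PT a) (hb : PT b) (hc : PT c) (hd : PT d) :
    PT fun x => ![a x, b x, c x, d x] := pt_pi fun i => by fin_cases i <;> simpa

@[fun_prop] theorem pt_pair {f g : α → ℕ} (hf : PT f) (hg : PT g) :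
    PT fun x => Nat.pair (f x) (g x) :=
  pt_ite (pt_decLt hf hg) (by fun_prop) (by fun_prop)

@[fun_prop] theorem pt_min {f g : α → ℕ} (hf : PT f) (hg : PT g) : PT fun x => min (f x) (g x) :=
  (pt_ite (pt_decLe hf hg) hf hg).congr fun _ => min_def _ _

@[fun_prop] theorem pt_max {f g : α → ℕ} (hf : PT f) (hg : PT g) : PT fun x => max (f x) (g x) :=
  (pt_ite (pt_decLe hf hg) hg hf).congr fun _ => max_def _ _

theorem pt_pow {f : α → ℕ} (hf : PT f) (k : ℕ) : PT fun x => f x ^ k := by
  induction k with
  | zero => exact PT.const 1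
  | succ k ih => exact PT.mul ih hf

@[fun_prop] theorem pt_rangeLen {l : α → List β} (hl : PT l) :
    PT fun x => List.range (l x).length := pt_rg hl

@[fun_prop] theorem pt_zipIdx {l : α → List β} (hl : PT l) : PT fun x => (l x).zipIdx :=
  (PT.zip hl (pt_rg hl)).congr fun x => by
    rw [List.zipIdx_eq_zip_range', rg, List.range_eq_range']

/-- number of entries with a property. -/
theorem pt_countP {f : α → β → Bool} {l : α → List β} (hf : PT fun p : α × β => f p.1 p.2)
    (hl : PT l) : PT fun x => (l x).countP (f x) :=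
  (pt_filter hf hl).length.congr fun _ => List.countP_eq_length_filter

/-! ### names -/

/-- injective code of a list of numbers. -/
def natL : List ℕ → ℕ
  | [] => 0
  | a :: l => Nat.pair a (natL l) + 1

theorem natL_injective : Function.Injective natL := by
  intro l
  induction l with
  | nil => intro m h; cases m <;> simp_all [natL]
  | cons a l ih =>
    intro m h
    cases m with
    | nil => simp [natL] at h
    | cons b m =>
      simp only [natL, add_left_inj, Nat.pair_eq_pair] at h
      rw [h.1, ih h.2]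

theorem pt_natL (l : List ι) {g : ι → α → ℕ} (hg : ∀ i, PT (g i)) :
    PT fun x => natL (l.map fun i => g i x) := by
  induction l with
  | nil => exact PT.const 0
  | cons i l ih => exact PT.add (pt_pair (hg i) ih) (PT.const 1)

theorem pair_le_pow {a b N j k : ℕ} (ha : a ≤ (N + 2) ^ j) (hb : b ≤ (N + 2) ^ k) :
    Nat.pair a b + 1 ≤ (N + 2) ^ (2 * (j + k + 1)) := by
  have h1 : (N + 2) ^ j ≤ (N + 2) ^ (j + k) := Nat.pow_le_pow_right (by omega) (by omega)
  have h2 : (N + 2) ^ k ≤ (N + 2) ^ (j + k) := Nat.pow_le_pow_right (by omega) (by omega)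
  have h3 : 0 < (N + 2) ^ (j + k) := by positivity
  have h4 : max a b + 1 ≤ (N + 2) ^ (j + k + 1) := by
    have : max a b ≤ (N + 2) ^ (j + k) := max_le (by omega) (by omega)
    rw [pow_succ]; nlinarith
  rw [mul_comm, pow_mul]
  exact (Nat.pair_lt_max_add_one_sq a b).trans_le (Nat.pow_le_pow_left h4 2)

theorem natL_le (n j : ℕ) : ∃ C, ∀ (N : ℕ) (l : List ℕ), l.length = n →
    (∀ a ∈ l, a ≤ (N + 2) ^ j) → natL l ≤ (N + 2) ^ C := by
  induction n with
  | zero => exact ⟨0, fun N l hl _ => by rw [List.length_eq_zero_iff.mp hl]; simp [natL]⟩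
  | succ n ih =>
    obtain ⟨C, hC⟩ := ih
    refine ⟨2 * (j + C + 1), fun N l hl h => ?_⟩
    cases l with
    | nil => simp at hl
    | cons a l => exact pair_le_pow (h a (by simp)) (hC N l (by simpa using hl) fun b hb =>
        h b (by simp [hb]))

/-- injective code of a finite family of numbers. -/
noncomputable def natI [Fintype ι] (f : ι → ℕ) : ℕ := natL (univ.toList.map f)

theorem natI_injective [Fintype ι] : Function.Injective (natI : (ι → ℕ) → ℕ) := fun _ _ h =>
  funext fun i => List.map_inj_left.mp (natL_injective h) i (by simp)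

theorem pt_natI [Fintype ι] {f : α → ι → ℕ} (hf : ∀ i, PT fun x => f x i) :
    PT fun x => natI (f x) := pt_natL _ hf

theorem natI_le (ι : Type) [Fintype ι] (j : ℕ) : ∃ C, ∀ (N : ℕ) (f : ι → ℕ),
    (∀ i, f i ≤ (N + 2) ^ j) → natI f ≤ (N + 2) ^ C := by
  obtain ⟨C, hC⟩ := natL_le (Fintype.card ι) j
  refine ⟨C, fun N f h => hC N _ (by simp) fun a ha => ?_⟩
  obtain ⟨i, -, rfl⟩ := List.mem_map.mp ha
  exact h i

/-! ### numbers in unary -/

/-- `f` is computable in unary. -/
def PU (f : α → ℕ) : Prop := PT fun x => List.range (f x)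

theorem PU.range {f : α → ℕ} (h : PU f) : PT fun x => List.range (f x) := h

theorem PU.pt {f : α → ℕ} (h : PU f) : PT f := (PT.length h).congr fun _ => by simp

theorem PU.of_len {l : α → List β} (hl : PT l) {f : α → ℕ} (h : ∀ x, (l x).length = f x) :
    PU f := (pt_rg hl).congr fun x => by rw [rg, h]

theorem PU.len {l : α → List β} (hl : PT l) : PU fun x => (l x).length :=
  PU.of_len hl fun _ => rfl

theorem PU.const (c : ℕ) : PU fun _ : α => c := PT.const _

theorem PU.add {f g : α → ℕ} (hf : PU f) (hg : PU g) : PU fun x => f x + g x :=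
  PU.of_len (PT.append hf hg) fun _ => by simp

theorem PU.comp {f : β → ℕ} {g : α → β} (hf : PU f) (hg : PT g) : PU fun x => f (g x) :=
  PT.comp (f := fun y => List.range (f y)) hf hg

theorem PU.mul {f g : α → ℕ} (hf : PU f) (hg : PU g) : PU fun x => f x * g x :=
  PU.of_len (pt_flatMap (f := fun x _ => List.range (g x)) (hg.comp PT.fst') hf) fun _ => by simp

theorem PU.pow {f : α → ℕ} (hf : PU f) (k : ℕ) : PU fun x => f x ^ k := by
  induction k with
  | zero => exact PU.const 1
  | succ k ih => exact ih.mul hf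

theorem PU.of_le {f g : α → ℕ} (hf : PU f) (hg : PT g) (h : ∀ x, g x ≤ f x) : PU g :=
  PU.of_len (pt_take hg hf) fun x => by simp [h x]

theorem sqrt_eq_countP (k : ℕ) :
    Nat.sqrt k = (List.range k).countP fun i => decide ((i + 1) * (i + 1) ≤ k) := by
  obtain ⟨m, hm⟩ := Nat.exists_eq_add_of_le (Nat.sqrt_le_self k)
  have h1 : ∀ i, decide ((i + 1) * (i + 1) ≤ k) = decide (i < Nat.sqrt k) := fun i => by
    rw [decide_eq_decide, ← Nat.le_sqrt]; omega
  simp only [h1]
  generalize Nat.sqrt k = s at hm
  rw [hm, List.range_add, List.countP_append, List.countP_eq_length.mpr (by simp),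
    List.countP_eq_zero.mpr (by simp)]
  simp

theorem PU.sqrt {f : α → ℕ} (hf : PU f) : PU fun x => Nat.sqrt (f x) := by
  have h : PT fun p : α × ℕ => f p.1 := PT.comp hf.pt PT.fst'
  exact hf.of_le ((pt_countP (pt_decLe (by fun_prop) h) hf).congr fun x => sqrt_eq_countP _)
    fun _ => Nat.sqrt_le_self _

/-! ### tuples -/

/-- all `n`-tuples of entries of a list. -/
def tuples {δ : Type} : (n : ℕ) → List δ → List (Fin n → δ)
  | 0, _ => [Fin.elim0]
  | n + 1, l => l.flatMap fun a => (tuples n l).map (Fin.cons a)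

theorem pt_tuples (n : ℕ) {l : α → List β} (hl : PT l) : PT fun x => tuples n (l x) := by
  induction n with
  | zero => exact PT.const _
  | succ n ih =>
    exact pt_flatMap (f := fun x a => (tuples n (l x)).map (Fin.cons a))
      (PT.map (f := fun (p : α × β) (t : Fin n → β) => (Fin.cons p.2 t : Fin (n + 1) → β))
        (pt_finCons PT.fst'.snd PT.snd') (PT.comp ih PT.fst')) hl

/-- local reduction: one output for every tuple of entries and every random seed. -/
noncomputable def locRed {δ ε Ω : Type} [Fintype Ω] (k : ℕ) (l : List δ)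
    (g : (Fin k → δ) → Ω → ε) : List ε := (tuples k l).flatMap fun t => univ.toList.map (g t)

theorem pt_locRed {Ω : Type} [Fintype Ω] (k : ℕ) {l : α → List β} {g : α → (Fin k → β) → Ω → γ}
    (hl : PT l) (hg : ∀ ω, PT fun p : α × (Fin k → β) => g p.1 p.2 ω) :
    PT fun x => locRed k (l x) (g x) :=
  pt_flatMap (f := fun x t => univ.toList.map (g x t)) (pt_mapConst _ hg) (pt_tuples k hl)

/-- one output for every entry and every random seed. -/
noncomputable def locMap {δ ε Ω : Type} [Fintype Ω] (l : List δ) (g : δ → Ω → ε) : List ε :=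
  l.flatMap fun t => univ.toList.map (g t)

theorem pt_locMap {Ω : Type} [Fintype Ω] {l : α → List β} {g : α → β → Ω → γ}
    (hl : PT l) (hg : ∀ ω, PT fun p : α × β => g p.1 p.2 ω) : PT fun x => locMap (l x) (g x) :=
  pt_flatMap (f := fun x t => univ.toList.map (g x t)) (pt_mapConst _ hg) hl

end pt

/-! ### indicators and averages -/

theorem ind_of {p : Prop} (h : p) : ind p = 1 := if_pos h
theorem ind_of_not {p : Prop} (h : ¬ p) : ind p = 0 := if_neg h
theorem ind_nonneg (p : Prop) : 0 ≤ ind p := by unfold ind; split_ifs <;> norm_num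
theorem ind_le_one (p : Prop) : ind p ≤ 1 := by unfold ind; split_ifs <;> norm_num
theorem ind_not (p : Prop) : ind (¬ p) = 1 - ind p := by by_cases h : p <;> simp [ind, h]
theorem ind_congr {p q : Prop} (h : p ↔ q) : ind p = ind q := by rw [propext h]
theorem ind_and (p q : Prop) : ind (p ∧ q) = ind p * ind q := by
  by_cases h : p <;> by_cases h' : q <;> simp [ind, h, h']
theorem ind_mono {p q : Prop} (h : p → q) : ind p ≤ ind q := by
  by_cases hp : p
  · rw [ind_of hp, ind_of (h hp)]
  · rw [ind_of_not hp]; exact ind_nonneg q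
theorem ind_or_le (p q : Prop) : ind (p ∨ q) ≤ ind p + ind q := by
  by_cases h : p <;> by_cases h' : q <;> simp [ind, h, h']
theorem ind_eq_ite (p : Prop) [Decidable p] : ind p = if p then 1 else 0 := by
  by_cases h : p <;> simp [ind, h]

section avg

variable {δ ε Ω : Type}

theorem avg_eq_expect (l : List δ) (f : δ → ℝ) :
    avg l f = 𝔼 i : Fin l.length, f (l.get i) := by
  rw [avg, Fintype.expect_eq_sum_div_card, Fintype.card_fin, ← List.sum_ofFn]
  congr 2
  conv_lhs => rw [← List.ofFn_get l, List.map_ofFn]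
  rfl

theorem avg_map (l : List δ) (g : δ → ε) (f : ε → ℝ) : avg (l.map g) f = avg l fun a => f (g a) := by
  simp [avg, Function.comp_def]

theorem avg_mono {l : List δ} {f g : δ → ℝ} (h : ∀ a ∈ l, f a ≤ g a) : avg l f ≤ avg l g :=
  div_le_div_of_nonneg_right (List.sum_le_sum h) (Nat.cast_nonneg _)

theorem avg_congr {l : List δ} {f g : δ → ℝ} (h : ∀ a ∈ l, f a = g a) : avg l f = avg l g :=
  le_antisymm (avg_mono fun a ha => (h a ha).le) (avg_mono fun a ha => (h a ha).ge)

theorem avg_const {l : List δ} (hl : l ≠ []) (c : ℝ) : avg l (fun _ => c) = c := by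
  have : (l.length : ℝ) ≠ 0 := by simpa using hl
  simp [avg]; field_simp

theorem avg_nonneg {l : List δ} {f : δ → ℝ} (h : ∀ a ∈ l, 0 ≤ f a) : 0 ≤ avg l f :=
  div_nonneg (List.sum_nonneg fun x hx => by
    obtain ⟨a, ha, rfl⟩ := List.mem_map.mp hx; exact h a ha) (Nat.cast_nonneg _)

theorem avg_le {l : List δ} {f : δ → ℝ} {c : ℝ} (hc : 0 ≤ c) (h : ∀ a ∈ l, f a ≤ c) :
    avg l f ≤ c := by
  by_cases hl : l = []
  · simpa [hl, avg] using hc
  · exact (avg_mono h).trans (avg_const hl c).le

theorem avg_add (l : List δ) (f g : δ → ℝ) : avg l (fun a => f a + g a) = avg l f + avg l g := by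
  simp only [avg_eq_expect, Finset.expect_add_distrib]

theorem avg_sub (l : List δ) (f g : δ → ℝ) : avg l (fun a => f a - g a) = avg l f - avg l g := by
  simp only [avg_eq_expect, Finset.expect_sub_distrib]

theorem avg_mul_left (l : List δ) (c : ℝ) (f : δ → ℝ) : avg l (fun a => c * f a) = c * avg l f := by
  simp only [avg_eq_expect, Finset.mul_expect]

theorem avg_ind_not {l : List δ} (hl : l ≠ []) (p : δ → Prop) :
    avg l (fun a => ind (¬ p a)) = 1 - avg l fun a => ind (p a) := by
  simp only [ind_not, avg_sub, avg_const hl]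

theorem avg_ind_le_one (l : List δ) (p : δ → Prop) : avg l (fun a => ind (p a)) ≤ 1 :=
  avg_le zero_le_one fun _ _ => ind_le_one _

theorem avg_ind_nonneg (l : List δ) (p : δ → Prop) : 0 ≤ avg l fun a => ind (p a) :=
  avg_nonneg fun _ _ => ind_nonneg _

theorem avg_range (n : ℕ) (f : ℕ → ℝ) : avg (List.range n) f = (∑ i ∈ range n, f i) / n := by
  rw [avg, List.length_range, Finset.sum_list_map_count, ← Finset.sum_list_map_count]
  rfl

theorem avg_range' (n : ℕ) (f : ℕ → ℝ) : avg (List.range n) f = 𝔼 i : Fin n, f i := by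
  rw [avg_range, Fintype.expect_eq_sum_div_card, Fintype.card_fin, Finset.sum_range]

theorem avg_zipIdx (l : List δ) (f : δ × ℕ → ℝ) :
    avg l.zipIdx f = 𝔼 i : Fin l.length, f (l.get i, i) := by
  rw [avg_eq_expect]
  exact Finset.expect_equiv (finCongr (List.length_zipIdx)) (by simp) fun i _ => by simp

theorem avg_univ [Fintype Ω] (f : Ω → ℝ) : avg univ.toList f = 𝔼 ω, f ω := by
  rw [avg, Fintype.expect_eq_sum_div_card, Finset.sum_map_toList]; simp

theorem length_flatMap_const {l : List δ} {g : δ → List ε} {k : ℕ}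
    (h : ∀ a ∈ l, (g a).length = k) : (l.flatMap g).length = l.length * k := by
  rw [List.length_flatMap, List.map_congr_left h]; simp

theorem avg_flatMap {l : List δ} {g : δ → List ε} {k : ℕ} (h : ∀ a ∈ l, (g a).length = k)
    (f : ε → ℝ) : avg (l.flatMap g) f = avg l fun a => avg (g a) f := by
  have h1 : ((l.flatMap g).map f).sum = (l.map fun a => ((g a).map f).sum).sum := by
    clear h
    induction l with
    | nil => simp
    | cons a l ih => simp [List.flatMap_cons, ih]
  rw [avg_congr (g := fun a => (k : ℝ)⁻¹ * ((g a).map f).sum) fun a ha => by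
    rw [avg, h a ha, div_eq_inv_mul], avg_mul_left, avg, avg, length_flatMap_const h, h1]
  push_cast
  rw [mul_comm (l.length : ℝ), ← div_div, div_eq_inv_mul _ (k : ℝ), mul_div_assoc]

theorem length_tuples (n : ℕ) (l : List δ) : (tuples n l).length = l.length ^ n := by
  induction n with
  | zero => simp [tuples]
  | succ n ih =>
    rw [tuples, length_flatMap_const (k := l.length ^ n) fun a _ => by simp [ih], pow_succ']

theorem mem_tuples {n : ℕ} {l : List δ} {t : Fin n → δ} : t ∈ tuples n l ↔ ∀ i, t i ∈ l := by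
  induction n with
  | zero => simp [tuples, Subsingleton.elim t Fin.elim0]
  | succ n ih =>
    simp only [tuples, List.mem_flatMap, List.mem_map, Fin.forall_fin_succ]
    constructor
    · rintro ⟨a, ha, s, hs, rfl⟩
      exact ⟨ha, ih.mp hs⟩
    · exact fun h => ⟨t 0, h.1, Fin.tail t, ih.mpr h.2, Fin.cons_self_tail t⟩

theorem avg_tuples (n : ℕ) (l : List δ) (f : (Fin n → δ) → ℝ) :
    avg (tuples n l) f = 𝔼 t : Fin n → Fin l.length, f fun i => l.get (t i) := by
  induction n with
  | zero => simp [tuples, avg, Subsingleton.elim (fun i : Fin 0 => _) Fin.elim0]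
  | succ n ih =>
    rw [tuples, avg_flatMap (k := l.length ^ n) fun a _ => by simp [length_tuples]]
    simp only [avg_map, ih]
    rw [avg_eq_expect, ← Finset.expect_product', Finset.univ_product_univ]
    refine Finset.expect_equiv (Fin.consEquiv fun _ => Fin l.length) (by simp) fun p _ => ?_
    congr 1; funext i
    refine Fin.cases rfl (fun _ => rfl) i

variable [Fintype Ω]

theorem length_locMap (l : List δ) (g : δ → Ω → ε) :
    (locMap l g).length = l.length * Fintype.card Ω := length_flatMap_const fun _ _ => by simp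

theorem mem_locMap {l : List δ} {g : δ → Ω → ε} {e : ε} :
    e ∈ locMap l g ↔ ∃ t ∈ l, ∃ ω, g t ω = e := by simp [locMap]

theorem locMap_ne_nil [Nonempty Ω] {l : List δ} (hl : l ≠ []) (g : δ → Ω → ε) :
    locMap l g ≠ [] := by
  rw [← List.length_pos_iff, length_locMap]
  exact Nat.mul_pos (List.length_pos_iff.mpr hl) Fintype.card_pos

theorem avg_locMap (l : List δ) (g : δ → Ω → ε) (f : ε → ℝ) :
    avg (locMap l g) f = avg l fun t => 𝔼 ω, f (g t ω) := by
  rw [locMap, avg_flatMap (k := Fintype.card Ω) fun _ _ => by simp]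
  simp only [avg_map, avg_univ]

theorem length_locRed (k : ℕ) (l : List δ) (g : (Fin k → δ) → Ω → ε) :
    (locRed k l g).length = l.length ^ k * Fintype.card Ω := by
  rw [← length_tuples]; exact length_locMap _ _

theorem mem_locRed {k : ℕ} {l : List δ} {g : (Fin k → δ) → Ω → ε} {e : ε} :
    e ∈ locRed k l g ↔ ∃ t, (∀ i, t i ∈ l) ∧ ∃ ω, g t ω = e := by
  simp only [← mem_tuples]; exact mem_locMap

theorem locRed_ne_nil [Nonempty Ω] (k : ℕ) {l : List δ} (hl : l ≠ [])
    (g : (Fin k → δ) → Ω → ε) : locRed k l g ≠ [] := by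
  rw [← List.length_pos_iff, length_locRed]
  exact Nat.mul_pos (pow_pos (List.length_pos_iff.mpr hl) k) Fintype.card_pos

theorem avg_locRed (k : ℕ) (l : List δ) (g : (Fin k → δ) → Ω → ε) (f : ε → ℝ) :
    avg (locRed k l g) f = 𝔼 t : Fin k → Fin l.length, 𝔼 ω, f (g (fun i => l.get (t i)) ω) :=
  (avg_locMap _ g f).trans (avg_tuples k l _)

end avg

end Vale.Agent.P325
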