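import Vale.Agent.P325.PowS
import Vale.Agent.P325.PTF

/-! POW: polynomial time and assembly. -/

namespace Vale.Agent.P325.Pow

open Finset Vale.Agent.Lib.H23

variable {d : ℕ} {G : SG d} {inv : Fin d → Fin d} {lam : ℝ} {h : ℕ}

noncomputable instance fintypeLb (d h : ℕ) : Fintype (Lb d h) := by
  have : Finite {l : List (Fin d) // l.length < h} := List.finite_length_lt (Fin d) h
  have : Finite (Lb d h) := by unfold Lb; infer_instance
  exact Fintype.ofFinite _

instance nonemptyLb (d h : ℕ) : Nonempty (Lb d h) := ⟨fun _ _ => false⟩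

noncomputable instance decEqLb (d h : ℕ) : DecidableEq (Lb d h) := Classical.decEq _

section PT

variable {α : Type} [Enc α] {g : α → SG d} {v : α → ℕ}

theorem pt_nb (hg : PT g) (hv : PT v) (i : Fin d) : PT fun x => (g x).nb (v x) i := by
  have h1 : PT fun x => (g x).getD (v x) (fun _ => v x, ⟨fun _ _ _ => true⟩) :=
    PT.getD hg hv (PT.pair (pt_pi fun _ => hv) (PT.const _))
  refine (pt_apply h1.fst i).congr fun x => ?_
  unfold SG.nb
  split_ifs with hx
  · rw [List.getD_eq_getElem _ _ hx]; rfl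
  · rw [List.getD_eq_default _ _ (not_lt.1 hx)]

theorem pt_rel (hg : PT g) (hv : PT v) :
    PT fun x => (⟨(g x).rel (v x)⟩ : Code (Fin d → S4 → S4 → Bool)) := by
  have h1 : PT fun x => (g x).getD (v x) (fun _ => v x, ⟨fun _ _ _ => true⟩) :=
    PT.getD hg hv (PT.pair (pt_pi fun _ => hv) (PT.const _))
  refine h1.snd.congr fun x => ?_
  unfold SG.rel
  split_ifs with hx
  · rw [List.getD_eq_getElem _ _ hx]; rfl
  · rw [List.getD_eq_default _ _ (not_lt.1 hx)]

theorem pt_walk (hg : PT g) (hv : PT v) (l : List (Fin d)) : PT fun x => walk (g x) (v x) l := by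
  induction l generalizing v with
  | nil => exact hv
  | cons i l ih => exact ih (pt_nb hg hv i)

theorem pt_con (hg : PT g) (hv : PT v) (l : List (Fin d)) :
    PT fun x => con inv h (g x) (v x) l := by
  have h1 := pt_mkF (relW (h := h) inv l)
    (c := fun (a : Fin h) x => ⟨(g x).rel (walk (g x) (v x) (l.take a))⟩)
    fun a => pt_rel hg (pt_walk hg hv (l.take a))
  have h2 := PT.pair (pt_vec2 hv (pt_walk hg hv l)) h1
  exact h2.congr fun _ => rfl

theorem pt_powF : PT (powF inv h : SG d → List (C2 (Lb d h))) :=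
  P333.pt_flatMap (pt_mapConst (ws d h) fun l => pt_con PT.fst' PT.snd' l) (pt_rangeLen PT.id)

end PT

theorem length_ws : (ws d h).length = 2 * h * d ^ (2 * h) := by
  simp [ws, List.length_flatMap, length_words]

theorem length_powF : (powF inv h G).length = 2 * h * d ^ (2 * h) * G.length := by
  simp [powF, List.length_flatMap, length_ws, mul_comm]

theorem sum_map_range (n : ℕ) (F : ℕ → ℝ) : ((List.range n).map F).sum = ∑ i ∈ range n, F i := rfl

theorem sum_powF (hd : 0 < d) (F : C2 (Lb d h) → ℝ) : ((powF inv h G).map F).sum =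
    (d : ℝ) ^ (2 * h) * ∑ T ∈ range (2 * h), ∑ v ∈ range G.length,
      Ew (T + 1) fun l => F (con inv h G v l) := by
  rw [powF, sum_flatMap, sum_map_range, sum_comm, mul_sum]
  refine sum_congr rfl fun v _ => ?_
  rw [List.map_map, ws, sum_flatMap, sum_map_range, mul_sum]
  refine sum_congr rfl fun T hT => ?_
  rw [List.map_map, sum_words hd, ← Ew_take hd (Nat.succ_le_of_lt (mem_range.1 hT))]
  rfl

theorem sound (hd : 0 < d) (hh : 0 < h) (hn : G ≠ []) (hG : G.Good inv lam)
    (hi : Function.Involutive inv) (hl0 : 0 ≤ lam) (hl1 : lam < 1) {u : ℝ}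
    (hu : ∀ σ, u ≤ G.bad σ) (τ : ℕ → Lb d h) :
    1 / (512 ^ 2 * (6 + 8 / (1 - lam))) * min (h * u) 1 ≤
      avg (powF inv h G) fun e => ind (¬ sat2 τ e) := by
  choose σ hσ using exists_plur (inv := inv) (G := G) hd τ
  have hd' : (0 : ℝ) < d := by positivity
  have hh' : (0 : ℝ) < h := by positivity
  have hn' : (0 : ℝ) < G.length := by exact_mod_cast List.length_pos_iff.2 hn
  obtain ⟨θ, hθ0, hθ1, hθ⟩ : ∃ θ : ℝ, 0 ≤ θ ∧ θ ≤ 1 ∧ h * (θ * G.bad σ) = min (h * G.bad σ) 1 := by
    rcases le_total (h * G.bad σ) 1 with h1 | h1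
    · exact ⟨1, zero_le_one, le_rfl, by rw [one_mul, min_eq_left h1]⟩
    · have h2 : 0 < h * G.bad σ := by linarith
      refine ⟨(h * G.bad σ)⁻¹, (inv_pos.2 h2).le, inv_le_one_of_one_le₀ h1, ?_⟩
      rw [min_eq_right h1, mul_left_comm, inv_mul_cancel₀ h2.ne']
  set φ : ℕ → Fin d → ℝ := fun v i => θ * ind (G.rel v i (σ v) (σ (G.nb v i)) = false) with hφ
  set e := θ * G.bad σ with he
  have h0 : ∀ v i, 0 ≤ φ v i := fun v i => mul_nonneg hθ0 (ind_nonneg _)
  have h1 : ∀ v i, φ v i ≤ 1 := fun v i => mul_le_one₀ hθ1 (ind_nonneg _) (ind_le_one _)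
  have h2 : ∀ v i, G.rel v i (σ v) (σ (G.nb v i)) = true → φ v i = 0 := fun v i h => by
    simp [hφ, ind, h]
  have h3 : ∑ v ∈ range G.length, (∑ i, φ v i) / d = G.length * e := by
    simp only [hφ, he, SG.bad, ← mul_sum, ← sum_div]
    field_simp
  have he0 : 0 ≤ e := by
    have : 0 ≤ G.length * e := h3 ▸ sum_nonneg fun v _ =>
      div_nonneg (sum_nonneg fun i _ => h0 v i) hd'.le
    exact nonneg_of_mul_nonneg_right this hn' |> fun h => h
  have he1 : h * e ≤ 1 := hθ ▸ min_le_right _ _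
  set K := 6 + 8 / (1 - lam) with hK
  have hK1 : 0 ≤ 4 / (1 - lam) := div_nonneg (by norm_num) (by linarith)
  have hK2 : K = 2 * (1 + 4 / (1 - lam)) + 4 := by rw [hK]; ring
  have hK0 : 0 < K := by linarith
  have hf := first_moment (τ := τ) hG hi h0 hσ
  rw [h3] at hf
  set P := ∑ T ∈ range (2 * h), ∑ v ∈ range G.length,
    Ew (T + 1) fun l => ind (¬ sat2 τ (con inv h G v l)) with hP
  have hs : ∑ T ∈ range (2 * h), ∑ v ∈ range G.length, Ew (T + 1) (Ns G inv τ σ φ v) ≤
      256 * K * P + (1024 * K)⁻¹ * (2 * h * (K * (G.length * (h * e)))) := by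
    have h4 : ∀ T ∈ range (2 * h), ∑ v ∈ range G.length, Ew (T + 1) (Ns G inv τ σ φ v) ≤
        256 * K * (∑ v ∈ range G.length, Ew (T + 1) fun l => ind (¬ sat2 τ (con inv h G v l))) +
          (1024 * K)⁻¹ * (K * (G.length * (h * e))) := by
      intro T hT
      have h5 := second_moment hd hG hi hl0 hl1 h0 h1 h3 (T + 1)
      have h6 : ((T + 1 : ℕ) : ℝ) ≤ 2 * h := by exact_mod_cast Nat.succ_le_of_lt (mem_range.1 hT)
      have h7 : ∑ v ∈ range G.length, Ew (T + 1) (fun l => Nn G φ v l ^ 2) ≤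
          K * (G.length * (h * e)) := by
        refine h5.trans ?_
        have h8 : 0 ≤ G.length * e := by positivity
        have h9 : ((T + 1 : ℕ) : ℝ) ^ 2 * (G.length * e ^ 2) ≤ 4 * (G.length * (h * e)) := by
          calc _ ≤ (2 * h) ^ 2 * (G.length * e ^ 2) := by gcongr
            _ = 4 * (G.length * (h * e)) * (h * e) := by ring
            _ ≤ _ := mul_le_of_le_one_right (by positivity) he1
        have h10 : ((T + 1 : ℕ) : ℝ) * (G.length * e) * (1 + 4 / (1 - lam)) ≤
            2 * h * (G.length * e) * (1 + 4 / (1 - lam)) := by gcongr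
        rw [hK2]
        linarith
      refine le_trans ?_ (add_le_add le_rfl (mul_le_mul_of_nonneg_left h7 (by positivity)))
      rw [mul_sum, mul_sum, ← sum_add_distrib]
      refine sum_le_sum fun v _ => ?_
      rw [← Ew_mul, ← Ew_mul, ← Ew_add]
      refine Ew_mono fun l _ => ?_
      by_cases hs : sat2 τ (con inv h G v l)
      · rw [Ns_eq_zero h2 hs]
        exact add_nonneg (mul_nonneg (by positivity) (ind_nonneg _)) (by positivity)
      · rw [ind, if_pos hs, mul_one]
        refine (Ns_le h0 v l).trans ?_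
        set N := Nn G φ v l
        have h8 : 256 * K + (1024 * K)⁻¹ * N ^ 2 - N = (1024 * K)⁻¹ * (N - 512 * K) ^ 2 := by
          field_simp; ring
        have h9 : 0 ≤ (1024 * K)⁻¹ * (N - 512 * K) ^ 2 := by positivity
        linarith
    refine (sum_le_sum h4).trans (le_of_eq ?_)
    rw [sum_add_distrib, ← mul_sum, sum_const, card_range, nsmul_eq_mul]
    push_cast
    ring
  have h4 : (1024 * K)⁻¹ * (2 * h * (K * (G.length * (h * e)))) = h * (G.length * (h * e)) / 512 := by
    field_simp; ring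
  have h5 : h * (G.length * (h * e)) ≤ 512 * 256 * K * P := by nlinarith
  have h6 : min (h * u) 1 ≤ h * e :=
    hθ ▸ min_le_min_right _ (mul_le_mul_of_nonneg_left (hu σ) hh'.le)
  rw [avg, sum_powF hd, length_powF, ← hP]
  push_cast
  rw [le_div_iff₀ (by positivity)]
  calc _ ≤ 1 / (512 ^ 2 * K) * (h * e) * (2 * h * (d : ℝ) ^ (2 * h) * G.length) := by gcongr
    _ = (d : ℝ) ^ (2 * h) * ((h * (G.length * (h * e))) / (512 * 256 * K)) := by field_simp; ring
    _ ≤ _ := by
      refine mul_le_mul_of_nonneg_left ?_ (by positivity)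
      rw [div_le_iff₀ (by positivity)]
      linarith

theorem mem_powF {e : C2 (Lb d h)} (he : e ∈ powF inv h G) :
    ∃ v < G.length, ∃ l, e = con inv h G v l := by
  simp only [powF, List.mem_flatMap, List.mem_range, List.mem_map] at he
  obtain ⟨v, hv, l, -, rfl⟩ := he
  exact ⟨v, hv, l, rfl⟩

end Vale.Agent.P325.Pow

namespace Vale.Agent.P325

open Vale.Agent.P325.Pow

theorem pow : PowStmt := by
  intro d inv lam hd hi hl0 hl1
  have hK : 0 < 6 + 8 / (1 - lam) := by
    have : 0 < 1 - lam := by linarith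
    positivity
  refine ⟨1 / (512 ^ 2 * (6 + 8 / (1 - lam))), by positivity, fun h hh => ⟨Lb d h, inferInstance,
    inferInstance, inferInstance, 2 * h * d ^ (2 * h), powF inv h, pt_powF, fun G hn hG =>
      ⟨?_, length_powF.le, fun e he j => ?_, ?_, fun u hu τ => sound hd hh hn hG hi hl0 hl1 hu τ⟩⟩⟩
  · rw [← List.length_pos_iff, length_powF]
    have := List.length_pos_iff.2 hn
    positivity
  · obtain ⟨v, hv, l, rfl⟩ := mem_powF he
    fin_cases j
    · exact hv
    · exact walk_lt hG hv l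
  · rintro ⟨σ, hσ⟩
    refine ⟨honest h G σ, fun e he => ?_⟩
    obtain ⟨v, hv, l, rfl⟩ := mem_powF he
    exact complete hG hσ hv l

end Vale.Agent.P325
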