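import Vale.Agent.P325.PowW

/-! POW: the second moment of the number of marked edges along a random walk. -/

namespace Vale.Agent.P325.Pow

open Finset

variable {d : ℕ} {G : SG d} {inv : Fin d → Fin d} {lam : ℝ}

/-- Total weight of the edges along the walk from `v` along a word. -/
noncomputable def Nn (G : SG d) (φ : ℕ → Fin d → ℝ) : ℕ → List (Fin d) → ℝ
  | _, [] => 0
  | v, i :: l => φ v i + Nn G φ (G.nb v i) l

variable {φ : ℕ → Fin d → ℝ} {e : ℝ}

theorem Ew_Nn_succ (hd : 0 < d) (k v : ℕ) :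
    Ew (k + 1) (Nn G φ v) = (∑ i, φ v i) / d + (∑ i, Ew k (Nn G φ (G.nb v i))) / d := by
  simp only [Ew, Nn, Ew_add, Ew_const hd, sum_add_distrib, add_div]

theorem sum_avg_nb (hd : 0 < d) (hG : G.Good inv lam) (hi : Function.Involutive inv) (F : ℕ → ℝ) :
    ∑ v ∈ range G.length, (∑ i, F (G.nb v i)) / d = ∑ v ∈ range G.length, F v := by
  have h : (d : ℝ) ≠ 0 := by positivity
  rw [← sum_div, sum_comm]
  simp only [sum_nb hG hi _ F, sum_const, card_univ, Fintype.card_fin, nsmul_eq_mul]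
  field_simp

theorem mean_Nn (hd : 0 < d) (hG : G.Good inv lam) (hi : Function.Involutive inv)
    (he : ∑ v ∈ range G.length, (∑ i, φ v i) / d = G.length * e) (k : ℕ) :
    ∑ v ∈ range G.length, Ew k (Nn G φ v) = G.length * (k * e) := by
  induction k with
  | zero => simp [Ew, Nn]
  | succ k ih =>
    simp only [Ew_Nn_succ hd, sum_add_distrib]
    rw [he, sum_avg_nb hd hG hi fun v => Ew k (Nn G φ v), ih]
    push_cast; ring

theorem sq_add_le {μ : ℝ} (h0 : 0 < μ) (h1 : μ < 1) (x y : ℝ) :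
    (x + y) ^ 2 ≤ x ^ 2 / (1 - μ) + y ^ 2 / μ := by
  have h2 : 0 < 1 - μ := by linarith
  rw [div_add_div _ _ h2.ne' h0.ne', le_div_iff₀ (mul_pos h2 h0)]
  nlinarith [sq_nonneg (μ * x - (1 - μ) * y)]

theorem var_Nn (hd : 0 < d) (hG : G.Good inv lam) (hi : Function.Involutive inv) (hl0 : 0 ≤ lam)
    (hl1 : lam < 1) (h0 : ∀ v i, 0 ≤ φ v i) (h1 : ∀ v i, φ v i ≤ 1)
    (he : ∑ v ∈ range G.length, (∑ i, φ v i) / d = G.length * e) (k : ℕ) :
    ∑ v ∈ range G.length, (Ew k (Nn G φ v) - k * e) ^ 2 ≤ G.length * e * (2 / (1 - lam)) ^ 2 := by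
  have hd' : (0 : ℝ) < d := by positivity
  have hf0 : ∀ v, 0 ≤ (∑ i, φ v i) / d := fun v => div_nonneg (sum_nonneg fun i _ => h0 v i) hd'.le
  have hf1 : ∀ v, (∑ i, φ v i) / d ≤ 1 := fun v => by
    rw [div_le_one hd']
    simpa using sum_le_sum fun i (_ : i ∈ univ) => h1 v i
  have hne : 0 ≤ G.length * e := he ▸ sum_nonneg fun v _ => hf0 v
  have hf : ∑ v ∈ range G.length, ((∑ i, φ v i) / d - e) ^ 2 ≤ G.length * e := by
    have h2 : ∑ v ∈ range G.length, ((∑ i, φ v i) / d - e) ^ 2 =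
        ∑ v ∈ range G.length, ((∑ i, φ v i) / d) ^ 2 - G.length * e ^ 2 := by
      simp only [sub_sq, sum_add_distrib, sum_sub_distrib, ← sum_mul, ← mul_sum, he, sum_const,
        card_range, nsmul_eq_mul]
      ring
    have h3 : ∑ v ∈ range G.length, ((∑ i, φ v i) / d) ^ 2 ≤ G.length * e := by
      rw [← he]
      exact sum_le_sum fun v _ => by nlinarith [hf0 v, hf1 v]
    have h4 : 0 ≤ G.length * e ^ 2 := by positivity
    linarith
  induction k with
  | zero => simpa [Ew, Nn] using mul_nonneg hne (sq_nonneg (2 / (1 - lam)))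
  | succ k ih =>
    set μ := (1 + lam) / 2 with hμ
    have hμ0 : 0 < μ := by linarith
    have hμ1 : μ < 1 := by linarith
    have hκ : 2 / (1 - lam) = 1 / (1 - μ) := by
      rw [div_eq_div_iff (by linarith) (by linarith)]; linarith
    have hgap := hG.gap (fun v => Ew k (Nn G φ v) - k * e) (by
      rw [sum_sub_distrib, mean_Nn hd hG hi he]; simp)
    have hs : ∀ v, Ew (k + 1) (Nn G φ v) - (k + 1 : ℕ) * e =
        ((∑ i, φ v i) / d - e) + (∑ i, (Ew k (Nn G φ (G.nb v i)) - k * e)) / d := by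
      intro v
      rw [Ew_Nn_succ hd, sum_sub_distrib, sub_div]
      simp only [sum_const, card_univ, Fintype.card_fin, nsmul_eq_mul]
      push_cast
      field_simp
      ring
    simp only [hs]
    refine (sum_le_sum fun v _ => sq_add_le hμ0 hμ1 _ _).trans ?_
    rw [sum_add_distrib, ← sum_div, ← sum_div]
    have h2 : lam ^ 2 ≤ μ ^ 2 := pow_le_pow_left₀ hl0 (by linarith) 2
    have h3 := hgap.trans (mul_le_mul h2 ih (sum_nonneg fun v _ => sq_nonneg _) (sq_nonneg _))
    have h4 : 0 < 1 - μ := by linarith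
    refine (add_le_add (div_le_div_of_nonneg_right hf h4.le)
      (div_le_div_of_nonneg_right h3 hμ0.le)).trans (le_of_eq ?_)
    rw [hκ]
    field_simp
    ring

theorem second_moment (hd : 0 < d) (hG : G.Good inv lam) (hi : Function.Involutive inv)
    (hl0 : 0 ≤ lam) (hl1 : lam < 1) (h0 : ∀ v i, 0 ≤ φ v i) (h1 : ∀ v i, φ v i ≤ 1)
    (he : ∑ v ∈ range G.length, (∑ i, φ v i) / d = G.length * e) (k : ℕ) :
    ∑ v ∈ range G.length, Ew k (fun l => Nn G φ v l ^ 2) ≤
      k * (G.length * e) * (1 + 4 / (1 - lam)) + k ^ 2 * (G.length * e ^ 2) := by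
  have hd' : (0 : ℝ) < d := by positivity
  induction k with
  | zero => simp [Ew, Nn]
  | succ k ih =>
    set κ := 2 / (1 - lam) with hκ
    have hκ0 : 0 < κ := div_pos two_pos (by linarith)
    have hv := var_Nn hd hG hi hl0 hl1 h0 h1 he k
    rw [← hκ] at hv
    have hs : ∀ v, Ew (k + 1) (fun l => Nn G φ v l ^ 2) ≤
        (1 + κ + 2 * k * e) * ((∑ i, φ v i) / d) +
          κ⁻¹ * ((∑ i, (Ew k (Nn G φ (G.nb v i)) - k * e) ^ 2) / d) +
          (∑ i, Ew k fun l => Nn G φ (G.nb v i) l ^ 2) / d := by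
      intro v
      rw [Ew, ← mul_div_assoc, ← mul_div_assoc, ← add_div, ← add_div, mul_sum, mul_sum,
        ← sum_add_distrib, ← sum_add_distrib]
      refine div_le_div_of_nonneg_right (sum_le_sum fun i _ => ?_) hd'.le
      simp only [Nn, add_sq, Ew_add, Ew_const hd, Ew_mul]
      set r := Ew k (Nn G φ (G.nb v i)) - k * e with hr
      have h2 : Ew k (fun l => Nn G φ (G.nb v i) l) = r + k * e := by rw [hr]; ring_nf
      rw [h2]
      have h3 : 2 * φ v i * r ≤ κ * φ v i ^ 2 + κ⁻¹ * r ^ 2 := by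
        have h4 : κ * φ v i ^ 2 + κ⁻¹ * r ^ 2 - 2 * φ v i * r = κ⁻¹ * (κ * φ v i - r) ^ 2 := by
          field_simp; ring
        have h5 : 0 ≤ κ⁻¹ * (κ * φ v i - r) ^ 2 := by positivity
        linarith
      have h6 : φ v i ^ 2 ≤ φ v i := by nlinarith [h0 v i, h1 v i]
      nlinarith [mul_le_mul_of_nonneg_left h6 hκ0.le]
    refine (sum_le_sum fun v _ => hs v).trans ?_
    rw [sum_add_distrib, sum_add_distrib, ← mul_sum, ← mul_sum, he,
      sum_avg_nb hd hG hi fun v => (Ew k (Nn G φ v) - k * e) ^ 2,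
      sum_avg_nb hd hG hi fun v => Ew k fun l => Nn G φ v l ^ 2]
    have h2 : κ⁻¹ * ∑ v ∈ range G.length, (Ew k (Nn G φ v) - k * e) ^ 2 ≤ κ * (G.length * e) := by
      refine (mul_le_mul_of_nonneg_left hv (inv_pos.2 hκ0).le).trans (le_of_eq ?_)
      field_simp
    have h3 : 4 / (1 - lam) = 2 * κ := by rw [hκ]; ring
    have h4 : 0 ≤ G.length * e ^ 2 := by positivity
    rw [h3] at ih ⊢
    push_cast
    nlinarith

end Vale.Agent.P325.Pow
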