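import Vale.Agent.P325.PowM

/-! POW: the powered instance, plurality decoding and the first moment. -/

namespace Vale.Agent.P325.Pow

open Finset

variable {d : ℕ} {G : SG d} {inv : Fin d → Fin d} {lam : ℝ} {h : ℕ}

/-- Labels of the powered instance: an opinion for every short word. -/
def Lb (d h : ℕ) : Type := {l : List (Fin d) // l.length < h} → S4

/-- The opinion about the end point of a word. -/
def op (x : Lb d h) (l : List (Fin d)) : S4 :=
  if hl : l.length < h then x ⟨l, hl⟩ else fun _ => false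

/-- The test on the edge after the word `l₁`. -/
def test (inv : Fin d → Fin d) (R : Fin d → S4 → S4 → Bool) (x y : Lb d h) (l₁ : List (Fin d)) :
    List (Fin d) → Prop
  | [] => True
  | i :: l₂ => l₁.length < h → l₂.length < h → R i (op x l₁) (op y (rev inv l₂)) = true

open Classical in
/-- The relation attached to a word, given the edge relations along the walk. -/
noncomputable def relW (inv : Fin d → Fin d) (l : List (Fin d)) (R : Fin h → Fin d → S4 → S4 → Bool)
    (x y : Lb d h) : Bool :=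
  decide (∀ a : Fin h, test inv (R a) x y (l.take a) (l.drop a))

/-- The constraint attached to a vertex and a word. -/
noncomputable def con (inv : Fin d → Fin d) (h : ℕ) (G : SG d) (v : ℕ) (l : List (Fin d)) :
    C2 (Lb d h) :=
  (![v, walk G v l], ⟨relW inv l fun a => G.rel (walk G v (l.take a))⟩)

/-- The list of words. -/
def ws (d h : ℕ) : List (List (Fin d)) :=
  (List.range (2 * h)).flatMap fun T => (words d (2 * h)).map (List.take (T + 1))

/-- The powered instance. -/
noncomputable def powF (inv : Fin d → Fin d) (h : ℕ) (G : SG d) : List (C2 (Lb d h)) :=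
  (List.range G.length).flatMap fun v => (ws d h).map (con inv h G v)

theorem sat_con (τ : ℕ → Lb d h) (v : ℕ) (l : List (Fin d)) : sat2 τ (con inv h G v l) ↔
    ∀ a : Fin h, test inv (G.rel (walk G v (l.take a))) (τ v) (τ (walk G v l)) (l.take a) (l.drop a) := by
  simp [sat2, con, relW]

/-- The honest labeling. -/
def honest (h : ℕ) (G : SG d) (σ : ℕ → S4) (x : ℕ) : Lb d h := fun w => σ (walk G x w.1)

theorem complete (hG : G.Good inv lam) {σ : ℕ → S4}
    (hσ : ∀ v i, G.rel v i (σ v) (σ (G.nb v i)) = true) {v : ℕ} (hv : v < G.length)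
    (l : List (Fin d)) : sat2 (honest h G σ) (con inv h G v l) := by
  rw [sat_con]
  intro a
  have h1 := List.take_append_drop a l
  generalize l.take a = l₁ at h1 ⊢
  generalize l.drop a = l' at h1 ⊢
  subst h1
  cases l' with
  | nil => trivial
  | cons i l₂ =>
    intro h2 h3
    rw [op, op, dif_pos h2, dif_pos (by rwa [length_rev])]
    simp only [honest, walk_append, walk_cons]
    rw [walk_rev hG (hG.lt _ (walk_lt hG hv l₁) i)]
    exact hσ _ i

theorem ind_nonneg (p : Prop) : 0 ≤ ind p := by unfold ind; split_ifs <;> norm_num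

theorem ind_le_one (p : Prop) : ind p ≤ 1 := by unfold ind; split_ifs <;> norm_num

/-- Probability that the end point of a random word of length `a` thinks that `u` has label `s`. -/
noncomputable def Pr (inv : Fin d → Fin d) (G : SG d) (τ : ℕ → Lb d h) (a u : ℕ) (s : S4) : ℝ :=
  Ew a fun l => ind (op (τ (walk G u l)) (rev inv l) = s)

theorem exists_plur (hd : 0 < d) (τ : ℕ → Lb d h) (u : ℕ) :
    ∃ s, (h : ℝ) / 16 ≤ ∑ a ∈ range h, Pr inv G τ a u s := by
  by_contra hn
  push Not at hn
  have h1 := sum_lt_sum_of_nonempty univ_nonempty fun s (_ : s ∈ univ) => hn s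
  rw [sum_comm] at h1
  have h2 : ∀ a, ∑ s, Pr inv G τ a u s = 1 := by
    intro a
    unfold Pr
    rw [← Ew_sum, ← Ew_const hd a 1]
    refine Ew_congr fun l _ => ?_
    rw [sum_eq_single (op (τ (walk G u l)) (rev inv l))] <;> simp +contextual [ind, eq_comm]
  simp only [h2, sum_const, card_range, card_univ, nsmul_eq_mul] at h1
  have h3 : Fintype.card S4 = 16 := by simp
  rw [h3] at h1
  push_cast at h1
  linarith

variable (G inv) in
/-- Weight of the edge after `l₁`, counted when both opinions agree with `σ`. -/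
noncomputable def tm (τ : ℕ → Lb d h) (σ : ℕ → S4) (φ : ℕ → Fin d → ℝ) (v : ℕ) (l₁ : List (Fin d)) :
    List (Fin d) → ℝ
  | [] => 0
  | i :: l₂ => φ (walk G v l₁) i * ind (op (τ v) l₁ = σ (walk G v l₁)) * (ind (l₂.length < h) *
      ind (op (τ (walk G (G.nb (walk G v l₁) i) l₂)) (rev inv l₂) = σ (G.nb (walk G v l₁) i)))

variable (G inv) in
/-- Total weight of the detected edges. -/
noncomputable def Ns (τ : ℕ → Lb d h) (σ : ℕ → S4) (φ : ℕ → Fin d → ℝ) (v : ℕ) (l : List (Fin d)) :
    ℝ := ∑ a ∈ range h, tm G inv τ σ φ v (l.take a) (l.drop a)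

variable {τ : ℕ → Lb d h} {σ : ℕ → S4} {φ : ℕ → Fin d → ℝ}

theorem tm_nonneg (h0 : ∀ v i, 0 ≤ φ v i) (v : ℕ) (l₁ l' : List (Fin d)) :
    0 ≤ tm G inv τ σ φ v l₁ l' := by
  cases l' with
  | nil => exact le_rfl
  | cons i l₂ =>
    exact mul_nonneg (mul_nonneg (h0 _ _) (ind_nonneg _)) (mul_nonneg (ind_nonneg _) (ind_nonneg _))

theorem Ns_nonneg (h0 : ∀ v i, 0 ≤ φ v i) (v : ℕ) (l : List (Fin d)) : 0 ≤ Ns G inv τ σ φ v l :=
  sum_nonneg fun _ _ => tm_nonneg h0 _ _ _

/-- Weight of the first edge of a word. -/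
noncomputable def hd (φ : ℕ → Fin d → ℝ) (v : ℕ) : List (Fin d) → ℝ
  | [] => 0
  | i :: _ => φ v i

theorem sum_hd_le (h0 : ∀ v i, 0 ≤ φ v i) (k v : ℕ) (l : List (Fin d)) :
    ∑ a ∈ range k, hd φ (walk G v (l.take a)) (l.drop a) ≤ Nn G φ v l := by
  induction l generalizing k v with
  | nil => simp [hd, Nn]
  | cons i l ih =>
    cases k with
    | zero => exact add_nonneg (h0 _ _) (by simpa using ih 0 (G.nb v i))
    | succ k =>
      rw [sum_range_succ', Nn, add_comm]
      exact add_le_add le_rfl (ih k (G.nb v i))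

theorem Ns_le (h0 : ∀ v i, 0 ≤ φ v i) (v : ℕ) (l : List (Fin d)) :
    Ns G inv τ σ φ v l ≤ Nn G φ v l := by
  refine le_trans (sum_le_sum fun a _ => ?_) (sum_hd_le h0 h v l)
  generalize l.drop a = l'
  cases l' with
  | nil => exact le_rfl
  | cons i l₂ =>
    refine (mul_le_of_le_one_right (mul_nonneg (h0 _ _) (ind_nonneg _))
      (mul_le_one₀ (ind_le_one _) (ind_nonneg _) (ind_le_one _))).trans ?_
    exact mul_le_of_le_one_right (h0 _ _) (ind_le_one _)

theorem Ns_eq_zero (hφ : ∀ v i, G.rel v i (σ v) (σ (G.nb v i)) = true → φ v i = 0) {v : ℕ}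
    {l : List (Fin d)} (hs : sat2 τ (con inv h G v l)) : Ns G inv τ σ φ v l = 0 := by
  refine sum_eq_zero fun a ha => ?_
  have h0 := (sat_con τ v l).1 hs ⟨a, mem_range.1 ha⟩
  have h2 : (l.take a).length < h := (List.length_take_le a l).trans_lt (mem_range.1 ha)
  have h1 := List.take_append_drop a l
  simp only at h0
  generalize l.take a = l₁ at h0 h1 h2 ⊢
  generalize l.drop a = l' at h0 h1 ⊢
  subst h1
  cases l' with
  | nil => rfl
  | cons i l₂ =>
    simp only [tm, ind]
    split_ifs with h3 h4 h5 <;> try simp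
    have h6 := h0 h2 h4
    rw [walk_append, walk_cons, h3, h5] at h6
    exact hφ _ _ h6

theorem sum_tm (hG : G.Good inv lam) (hi : Function.Involutive inv) {a b : ℕ} (hb : b < h) :
    ∑ v ∈ range G.length, Ew (a + b + 1) (fun l => tm G inv τ σ φ v (l.take a) (l.drop a)) =
      ∑ u ∈ range G.length, Pr inv G τ a u (σ u) *
        ((∑ i, φ u i * Pr inv G τ b (G.nb u i) (σ (G.nb u i))) / d) := by
  have h1 := sum_rev hG hi a fun u l => ind (op (τ (walk G u l)) (rev inv l) = σ u) *
    ((∑ i, φ u i * Pr inv G τ b (G.nb u i) (σ (G.nb u i))) / d)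
  have h2 : ∀ u, Ew a (fun l => ind (op (τ (walk G u l)) (rev inv l) = σ u) *
      ((∑ i, φ u i * Pr inv G τ b (G.nb u i) (σ (G.nb u i))) / d)) = Pr inv G τ a u (σ u) *
        ((∑ i, φ u i * Pr inv G τ b (G.nb u i) (σ (G.nb u i))) / d) := by
    intro u
    simp only [mul_comm (ind _), Ew_mul]
    rw [mul_comm, Pr]
  simp only [h2] at h1
  rw [← h1]
  refine sum_congr rfl fun v hv => ?_
  rw [add_assoc, Ew_append]
  refine Ew_congr fun l₁ hl => ?_
  simp only [List.take_left' hl, List.drop_left' hl]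
  rw [walk_rev hG (mem_range.1 hv), rev_rev hi, Ew, ← mul_div_assoc, mul_sum]
  congr 1
  refine sum_congr rfl fun i _ => ?_
  simp only [tm, Ew_mul]
  rw [mul_comm (φ _ _), mul_assoc, Pr]
  congr 2
  refine Ew_congr fun l₂ hl₂ => ?_
  rw [hl₂, ind, if_pos hb, one_mul]

theorem first_moment (hG : G.Good inv lam) (hi : Function.Involutive inv) (h0 : ∀ v i, 0 ≤ φ v i)
    (hσ : ∀ u, (h : ℝ) / 16 ≤ ∑ a ∈ range h, Pr inv G τ a u (σ u)) :
    ((h : ℝ) / 16) ^ 2 * ∑ v ∈ range G.length, (∑ i, φ v i) / d ≤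
      ∑ T ∈ range (2 * h), ∑ v ∈ range G.length, Ew (T + 1) (Ns G inv τ σ φ v) := by
  have h1 : ∀ a ∈ range h, ∑ b ∈ range h, ∑ u ∈ range G.length, Pr inv G τ a u (σ u) *
      ((∑ i, φ u i * Pr inv G τ b (G.nb u i) (σ (G.nb u i))) / d) ≤ ∑ T ∈ range (2 * h),
        ∑ v ∈ range G.length, Ew (T + 1) fun l => tm G inv τ σ φ v (l.take a) (l.drop a) := by
    intro a ha
    rw [← sum_congr rfl fun b hb => sum_tm hG hi (mem_range.1 hb)]
    refine (sum_map (range h) (addLeftEmbedding a) fun T => ∑ v ∈ range G.length,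
        Ew (T + 1) fun l => tm G inv τ σ φ v (l.take a) (l.drop a)).ge.trans ?_
    refine sum_le_sum_of_subset_of_nonneg (fun T hT => ?_) fun T _ _ =>
      sum_nonneg fun v _ => Ew_nonneg fun l => tm_nonneg h0 _ _ _
    obtain ⟨b, hb, rfl⟩ := mem_map.1 hT
    have := mem_range.1 ha
    have := mem_range.1 hb
    simp only [addLeftEmbedding_apply, mem_range]
    omega
  have h2 := sum_le_sum h1
  unfold Ns
  simp only [Ew_sum]
  refine le_trans ?_ (h2.trans (le_of_eq ?_))
  · simp only [sum_comm (s := range h) (t := range G.length), ← mul_sum, ← sum_mul, ← sum_div]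
    rw [sum_div, mul_sum]
    refine sum_le_sum fun u _ => ?_
    rw [sq, mul_assoc]
    have hh : (0 : ℝ) ≤ h / 16 := by positivity
    refine mul_le_mul (hσ u) ?_ (mul_nonneg hh (div_nonneg (sum_nonneg fun i _ => h0 u i)
      (Nat.cast_nonneg _))) (hh.trans (hσ u))
    rw [← mul_div_assoc, sum_comm, mul_sum]
    refine div_le_div_of_nonneg_right (sum_le_sum fun i _ => ?_) (Nat.cast_nonneg _)
    rw [← mul_sum, mul_comm]
    exact mul_le_mul_of_nonneg_left (hσ _) (h0 u i)
  · rw [sum_comm]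
    exact sum_congr rfl fun T _ => sum_comm

end Vale.Agent.P325.Pow
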