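import Vale.Agent.P325.Defs

/-! POW: words, averages over words, walks. -/

namespace Vale.Agent.P325.Pow

open Finset

variable {d : ℕ}

/-- All words of length `k`. -/
def words (d : ℕ) : ℕ → List (List (Fin d))
  | 0 => [[]]
  | k + 1 => (List.finRange d).flatMap fun i => (words d k).map (i :: ·)

/-- Average over the words of length `k`. -/
noncomputable def Ew : ℕ → (List (Fin d) → ℝ) → ℝ
  | 0, F => F []
  | k + 1, F => (∑ i, Ew k fun l => F (i :: l)) / d

theorem sum_flatMap {α β : Type} (l : List α) (f : α → List β) (F : β → ℝ) :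
    ((l.flatMap f).map F).sum = (l.map fun a => ((f a).map F).sum).sum := by
  induction l with
  | nil => simp
  | cons a l ih => simp [ih]

theorem sum_words (hd : 0 < d) (k : ℕ) (F : List (Fin d) → ℝ) :
    ((words d k).map F).sum = (d : ℝ) ^ k * Ew k F := by
  induction k generalizing F with
  | zero => simp [words, Ew]
  | succ k ih =>
    have h : (d : ℝ) ≠ 0 := by positivity
    rw [words, sum_flatMap, Ew, ← Fin.sum_univ_def]
    simp only [List.map_map]
    have : ∀ i : Fin d, (List.map (F ∘ fun x => i :: x) (words d k)).sum =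
        (d : ℝ) ^ k * Ew k fun l => F (i :: l) := fun i => ih _
    simp only [this]
    rw [← mul_sum, pow_succ]
    field_simp

theorem length_words (k : ℕ) : (words d k).length = d ^ k := by
  induction k with
  | zero => simp [words]
  | succ k ih => simp [words, List.length_flatMap, ih, pow_succ, mul_comm]

theorem Ew_mono {k : ℕ} {F F' : List (Fin d) → ℝ} (h : ∀ l, l.length = k → F l ≤ F' l) :
    Ew k F ≤ Ew k F' := by
  induction k generalizing F F' with
  | zero => exact h [] rfl
  | succ k ih =>
    refine div_le_div_of_nonneg_right (sum_le_sum fun i _ => ih fun l hl => h _ ?_) (Nat.cast_nonneg _)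
    simp [hl]

theorem Ew_congr {k : ℕ} {F F' : List (Fin d) → ℝ} (h : ∀ l, l.length = k → F l = F' l) :
    Ew k F = Ew k F' :=
  le_antisymm (Ew_mono fun l hl => (h l hl).le) (Ew_mono fun l hl => (h l hl).ge)

theorem Ew_add (k : ℕ) (F F' : List (Fin d) → ℝ) : Ew k (fun l => F l + F' l) = Ew k F + Ew k F' := by
  induction k generalizing F F' with
  | zero => rfl
  | succ k ih => simp only [Ew, ih, sum_add_distrib, add_div]

theorem Ew_mul (k : ℕ) (c : ℝ) (F : List (Fin d) → ℝ) : Ew k (fun l => c * F l) = c * Ew k F := by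
  induction k generalizing F with
  | zero => rfl
  | succ k ih => simp only [Ew, ih, ← mul_sum, mul_div_assoc]

theorem Ew_const (hd : 0 < d) (k : ℕ) (c : ℝ) : Ew k (fun _ : List (Fin d) => c) = c := by
  induction k with
  | zero => rfl
  | succ k ih =>
    have h : (d : ℝ) ≠ 0 := by positivity
    simp only [Ew, ih, sum_const, card_univ, Fintype.card_fin, nsmul_eq_mul]
    field_simp

theorem Ew_zero (k : ℕ) : Ew k (fun _ : List (Fin d) => 0) = 0 := by
  simpa using Ew_mul k 0 (fun _ : List (Fin d) => 0)

theorem Ew_nonneg {k : ℕ} {F : List (Fin d) → ℝ} (h : ∀ l, 0 ≤ F l) : 0 ≤ Ew k F :=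
  (Ew_zero k).ge.trans (Ew_mono fun l _ => h l)

theorem Ew_sum {ι : Type} (s : Finset ι) (k : ℕ) (F : ι → List (Fin d) → ℝ) :
    Ew k (fun l => ∑ a ∈ s, F a l) = ∑ a ∈ s, Ew k (F a) := by
  classical
  induction s using Finset.induction_on with
  | empty => simpa using Ew_zero k
  | insert a s ha ih => simp only [sum_insert ha, Ew_add, ih]

theorem Ew_append (a b : ℕ) (F : List (Fin d) → ℝ) :
    Ew (a + b) F = Ew a fun l₁ => Ew b fun l₂ => F (l₁ ++ l₂) := by
  induction a generalizing F with
  | zero => simp [Ew]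
  | succ a ih =>
    rw [Nat.succ_add]
    simp only [Ew, ih, List.cons_append]

theorem Ew_take (hd : 0 < d) {a k : ℕ} (h : a ≤ k) (F : List (Fin d) → ℝ) :
    Ew k (fun l => F (l.take a)) = Ew a F := by
  obtain ⟨b, rfl⟩ := Nat.exists_eq_add_of_le h
  rw [Ew_append]
  refine Ew_congr fun l hl => ?_
  simp only [List.take_left' hl, Ew_const hd]

theorem Ew_snoc (k : ℕ) (F : List (Fin d) → ℝ) :
    Ew (k + 1) F = (∑ i, Ew k fun l => F (l ++ [i])) / d := by
  rw [Ew_append, ← Ew_sum, div_eq_inv_mul, ← Ew_mul]
  refine Ew_congr fun l _ => ?_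
  simp [Ew, div_eq_inv_mul]

/-- The end point of the walk from `v` along `l`. -/
def walk (G : SG d) (v : ℕ) (l : List (Fin d)) : ℕ := l.foldl G.nb v

/-- The inverse word. -/
def rev (inv : Fin d → Fin d) (l : List (Fin d)) : List (Fin d) := (l.map inv).reverse

variable {G : SG d} {inv : Fin d → Fin d} {lam : ℝ}

@[simp] theorem walk_nil (v : ℕ) : walk G v [] = v := rfl

@[simp] theorem walk_cons (v : ℕ) (i : Fin d) (l : List (Fin d)) :
    walk G v (i :: l) = walk G (G.nb v i) l := rfl

theorem walk_append (v : ℕ) (l m : List (Fin d)) : walk G v (l ++ m) = walk G (walk G v l) m :=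
  List.foldl_append

theorem rev_cons (i : Fin d) (l : List (Fin d)) : rev inv (i :: l) = rev inv l ++ [inv i] := by
  simp [rev]

theorem rev_rev (hi : Function.Involutive inv) (l : List (Fin d)) : rev inv (rev inv l) = l := by
  simp [rev, List.map_reverse, hi.comp_self]

theorem length_rev (l : List (Fin d)) : (rev inv l).length = l.length := by simp [rev]

theorem walk_lt (hG : G.Good inv lam) {v : ℕ} (hv : v < G.length) (l : List (Fin d)) :
    walk G v l < G.length := by
  induction l generalizing v with
  | nil => exact hv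
  | cons i l ih => exact ih (hG.lt v hv i)

theorem walk_rev (hG : G.Good inv lam) {v : ℕ} (hv : v < G.length) (l : List (Fin d)) :
    walk G (walk G v l) (rev inv l) = v := by
  induction l generalizing v with
  | nil => rfl
  | cons i l ih =>
    rw [walk_cons, rev_cons, walk_append, ih (hG.lt v hv i)]
    exact hG.inv_nb v hv i

theorem sum_nb (hG : G.Good inv lam) (hi : Function.Involutive inv) (i : Fin d) (F : ℕ → ℝ) :
    ∑ v ∈ range G.length, F (G.nb v i) = ∑ v ∈ range G.length, F v := by
  refine sum_nbij' (fun v => G.nb v i) (fun v => G.nb v (inv i)) ?_ ?_ ?_ ?_ fun _ _ => rfl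
  · intro v hv; exact mem_range.2 (hG.lt v (mem_range.1 hv) i)
  · intro v hv; exact mem_range.2 (hG.lt v (mem_range.1 hv) _)
  · intro v hv; exact hG.inv_nb v (mem_range.1 hv) i
  · intro v hv
    have := hG.inv_nb v (mem_range.1 hv) (inv i)
    rwa [hi i] at this

theorem sum_rev (hG : G.Good inv lam) (hi : Function.Involutive inv) (a : ℕ)
    (H : ℕ → List (Fin d) → ℝ) :
    ∑ v ∈ range G.length, Ew a (fun l => H (walk G v l) (rev inv l)) =
      ∑ v ∈ range G.length, Ew a (H v) := by
  induction a generalizing H with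
  | zero => rfl
  | succ a ih =>
    simp only [Ew_snoc a (H _)]
    simp only [Ew, walk_cons, rev_cons]
    rw [← sum_div, ← sum_div, sum_comm, sum_comm (s := range G.length)]
    congr 1
    rw [← Equiv.sum_comp hi.toPerm fun i => ∑ v ∈ range G.length, Ew a fun l => H v (l ++ [i])]
    refine sum_congr rfl fun i _ => ?_
    rw [sum_nb hG hi i fun v => Ew a fun l => H (walk G v l) (rev inv l ++ [inv i])]
    exact ih fun v l => H v (l ++ [inv i])

end Vale.Agent.P325.Pow
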