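import Mathlib

/-!
PRE, from a Poincare inequality to the contraction of the averaging operator.

Plan.  Each `nb · i` is a bijection of `range N` (inverse `nb · (inv i)`, and `inv` is involutive), so
`∑ v ∈ range N, f (nb v i) ^ 2 = ∑ v ∈ range N, f v ^ 2` (`Finset.sum_nbij'`).  For reals `y i`:
`2 (∑ y)^2 = 2 d ∑ y^2 - ∑ i, ∑ j, (y i - y j)^2 ≤ 2 d ∑ y^2 - ∑ j, (y i0 - y j)^2`
(`Finset.single_le_sum`).  With `y i = f (nb v i)`, `y i0 = f v`.  As `∑ f = 0`,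
`∑ f^2 ≤ ∑ (f - μ)^2 ≤ K D`.  Hence `∑ v (∑ i y)^2 ≤ (d^2 - 1/(2K)) ∑ f^2`, and
`1 - 2 e ≤ (1 - e)^2` for `e = 1/(4 K d^2)`.
-/

namespace Vale.Agent.P325.Pre

open Finset

theorem gap_pt {ι : Type} [Fintype ι] (y : ι → ℝ) (i0 : ι) :
    2 * (∑ i, y i) ^ 2 ≤ 2 * (Fintype.card ι : ℝ) * ∑ i, y i ^ 2 - ∑ j, (y i0 - y j) ^ 2 := by
  have h1 : ∑ j, (y i0 - y j) ^ 2 ≤ ∑ i, ∑ j, (y i - y j) ^ 2 :=
    single_le_sum (f := fun i => ∑ j, (y i - y j) ^ 2)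
      (fun i _ => sum_nonneg fun j _ => sq_nonneg _) (mem_univ i0)
  have h2 : ∑ i, ∑ j, (y i - y j) ^ 2 =
      2 * (Fintype.card ι : ℝ) * ∑ i, y i ^ 2 - 2 * (∑ i, y i) ^ 2 := by
    have : ∀ i j, (y i - y j) ^ 2 = y i ^ 2 + y j ^ 2 - 2 * (y i * y j) := fun i j => by ring
    simp only [this, sum_sub_distrib, sum_add_distrib, sum_const, card_univ, nsmul_eq_mul,
      ← mul_sum, ← sum_mul]
    ring
  linarith

theorem gap_of_poin {ι : Type} [Fintype ι] (N : ℕ) (nb : ℕ → ι → ℕ) (inv : ι → ι)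
    (hinv : ∀ i, inv (inv i) = i) (hlt : ∀ v < N, ∀ i, nb v i < N)
    (hnb : ∀ v < N, ∀ i, nb (nb v i) (inv i) = v) (i0 : ι) (h0 : ∀ v < N, nb v i0 = v)
    (K : ℝ) (hK : 0 < K) (f : ℕ → ℝ) (μ : ℝ)
    (hP : ∑ v ∈ range N, (f v - μ) ^ 2 ≤ K * ∑ v ∈ range N, ∑ i, (f v - f (nb v i)) ^ 2)
    (hf : ∑ v ∈ range N, f v = 0) :
    ∑ v ∈ range N, ((∑ i, f (nb v i)) / (Fintype.card ι : ℝ)) ^ 2 ≤
      (1 - 1 / (4 * K * (Fintype.card ι : ℝ) ^ 2)) ^ 2 * ∑ v ∈ range N, f v ^ 2 := by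
  have hd : (0 : ℝ) < Fintype.card ι := by
    exact_mod_cast Fintype.card_pos_iff.2 ⟨i0⟩
  set d : ℝ := (Fintype.card ι : ℝ) with hdd
  have h1 : ∀ i, ∑ v ∈ range N, f (nb v i) ^ 2 = ∑ v ∈ range N, f v ^ 2 := fun i =>
    sum_nbij' (fun v => nb v i) (fun v => nb v (inv i))
      (fun v hv => mem_range.2 (hlt v (mem_range.1 hv) i))
      (fun v hv => mem_range.2 (hlt v (mem_range.1 hv) _))
      (fun v hv => hnb v (mem_range.1 hv) i)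
      (fun v hv => by simpa only [hinv] using hnb v (mem_range.1 hv) (inv i))
      (fun v _ => rfl)
  have h2 : ∑ v ∈ range N, 2 * (∑ i, f (nb v i)) ^ 2 ≤
      ∑ v ∈ range N, (2 * d * ∑ i, f (nb v i) ^ 2 - ∑ i, (f v - f (nb v i)) ^ 2) :=
    sum_le_sum fun v hv => by
      simpa only [h0 v (mem_range.1 hv)] using gap_pt (fun i => f (nb v i)) i0
  rw [sum_sub_distrib, ← mul_sum, ← mul_sum, sum_comm (s := range N) (t := univ)
    (f := fun v i => f (nb v i) ^ 2)] at h2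
  simp only [h1, sum_const, card_univ, nsmul_eq_mul, ← hdd] at h2
  have h3 : ∑ v ∈ range N, f v ^ 2 ≤ ∑ v ∈ range N, (f v - μ) ^ 2 := by
    have : ∀ v, (f v - μ) ^ 2 = f v ^ 2 - 2 * μ * f v + μ ^ 2 := fun v => by ring
    simp only [this, sum_add_distrib, sum_sub_distrib, ← mul_sum, hf]
    have : 0 ≤ ∑ _v ∈ range N, μ ^ 2 := sum_nonneg fun _ _ => sq_nonneg _
    linarith
  have hS : 0 ≤ ∑ v ∈ range N, f v ^ 2 := sum_nonneg fun _ _ => sq_nonneg _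
  set S := ∑ v ∈ range N, f v ^ 2
  set D := ∑ v ∈ range N, ∑ i, (f v - f (nb v i)) ^ 2
  have h4 : S / K ≤ D := by
    rw [div_le_iff₀ hK]
    linarith
  simp only [div_pow, ← sum_div]
  rw [div_le_iff₀ (by positivity)]
  set e := 1 / (4 * K * d ^ 2) with he
  have h5 : 2 * e * d ^ 2 * S = S / K / 2 := by
    rw [he]
    field_simp
    ring
  have h6 : 0 ≤ e ^ 2 * S * d ^ 2 := by positivity
  nlinarith

end Vale.Agent.P325.Pre
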