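import Vale.Agent.P325.PreDefs
import Vale.Agent.P333.PTa

/-! PRE, the preprocessing runs in polynomial time. -/

namespace Vale.Agent.P325.Pre

open Vale.Agent.Lib.H23 Vale.Agent.P333

variable {α β : Type} [Enc α] [Enc β]

theorem ppt_code {A : Type} [Fintype A] (g : A → β) (a0 : A) {c : α → Code A} (hc : PT c) :
    PT fun x => g (c x).val := by
  have h1 : PT fun c : Code A => ((Fintype.equivFin A c.val : Fin _) : ℕ) := PT.retag fun _ => rfl
  have h2 : PT fun c : Code A => g c.val :=
    (PT.getD (PT.const (List.ofFn fun i => g ((Fintype.equivFin A).symm i))) h1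
      (PT.const (g a0))).congr fun c => by
        rw [List.getD_eq_getElem _ _ (by simp)]
        simp
  exact PT.comp (f := fun c : Code A => g c.val) h2 hc

theorem ppt_ofFn {n : ℕ} {f : α → Fin n → β} (h : ∀ i, PT fun x => f x i) :
    PT fun x => List.ofFn (f x) := by
  induction n with
  | zero => exact (PT.const []).congr fun x => by simp
  | succ n ih =>
    exact (PT.cons (h 0) (ih (f := fun x i => f x i.succ) fun i => h i.succ)).congr fun x => by
      rw [List.ofFn_succ]

theorem ppt_fun {n : ℕ} {f : α → Fin n → β} (h : ∀ i, PT fun x => f x i) : PT f :=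
  (ppt_ofFn h).of_enc fun _ => rfl

theorem ppt_toList {n : ℕ} {f : α → Fin n → β} (h : PT f) : PT fun x => List.ofFn (f x) :=
  h.of_enc fun _ => rfl

theorem ppt_count (n k : ℕ) (hk : k ≤ n) :
    ((List.range n).filter fun j => decide (j < k)).length = k := by
  induction n with
  | zero => simp; omega
  | succ n ih =>
    rw [List.range_succ, List.filter_append, List.length_append]
    rcases Nat.lt_or_ge k (n + 1) with h | h
    · rw [ih (by omega)]
      have : ¬ n < k := by omega
      simp [this]
    · have hk' : k = n + 1 := by omega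
      subst hk'
      rw [List.filter_eq_self.2 (by simp; omega)]
      simp

theorem ppt_sqrt {l : α → List β} (hl : PT l) : PT fun x => (l x).length.sqrt := by
  have h : PT fun x => ((rg (l x)).filter fun j => leb ((j + 1) * (j + 1)) (l x).length).length := by
    fun_prop
  refine h.congr fun x => ?_
  rw [rg, ← ppt_count (l x).length _ (Nat.sqrt_le_self _)]
  congr 1
  refine List.filter_congr fun j _ => ?_
  rw [Bool.eq_iff_iff]
  simp only [leb, ltb_eq, decide_eq_true_eq, Bool.not_eq_true', decide_eq_false_iff_not, not_lt]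
  rw [← Nat.le_sqrt]
  omega

theorem ppt_idxOf {o : α → List ℕ} {v : α → ℕ} (ho : PT o) (hv : PT v) :
    PT fun x => (o x).idxOf (v x) := by
  have h : PT fun x => ((rg (o x)).filter fun k =>
      !(((o x).take (k + 1)).any fun w => eqb w (v x))).length := by
    fun_prop
  refine h.congr fun x => ?_
  rw [rg, ← ppt_count (o x).length _ List.idxOf_le_length]
  congr 1
  refine List.filter_congr fun j hj => ?_
  have hj' : j < (o x).length := List.mem_range.1 hj
  rw [Bool.eq_iff_iff]
  simp only [eqb_eq, decide_eq_true_eq, Bool.not_eq_true', List.any_eq_false]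
  constructor
  · intro h1 w hw e
    subst e
    have h2 := List.mem_take_iff_idxOf_lt (List.mem_of_mem_take hw) |>.1 hw
    omega
  · intro h1
    by_contra h2
    have h3 : (o x).idxOf (v x) < (o x).length := by omega
    have h4 : v x ∈ o x := List.idxOf_lt_length_iff.1 h3
    exact h1 (v x) ((List.mem_take_iff_idxOf_lt h4).2 (by omega)) rfl

theorem ppt_sh {M x y : α → ℕ} (hM : PT M) (hx : PT x) (hy : PT y) (k s : Bool) :
    PT fun a => sh (M a) k s (x a) (y a) := by
  unfold sh
  fun_prop

theorem ppt_mg {M v : α → ℕ} (hM : PT M) (hv : PT v) (a b c : Bool) :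
    PT fun x => mg (M x) a b c (v x) := by
  have h1 := ppt_sh hM (PT.div hv hM) (pt_mod hv hM) b c
  have h2 := ppt_sh hM (pt_mod hv hM) (PT.div hv hM) b c
  unfold mg
  fun_prop

theorem ppt_tau {b n v : α → ℕ} (hb : PT b) (hn : PT n) (hv : PT v) (t : ℕ) :
    PT fun x => tau (b x) (n x) t (v x) := by
  have h : PT fun x => bif ltb (v x) (b x) then
      (bif ltb (v x + t * b x) (n x) then v x + t * b x else v x)
      else bif leb (t * b x) (v x) && ltb (v x) ((t + 1) * b x) then v x - t * b x else v x := by
    fun_prop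
  refine h.congr fun x => ?_
  unfold tau
  simp only [leb, ltb_eq, Bool.cond_eq_ite, decide_eq_true_eq, Bool.and_eq_true, Bool.not_eq_true',
    decide_eq_false_iff_not, not_lt]

theorem ppt_ex {l : α → List β} {v : α → ℕ} (hl : PT l) (hv : PT v) (i : EL) :
    PT fun x => ex (l x).length i (v x) := by
  have hs := ppt_sqrt hl
  rcases i with p | t
  · refine (PT.cond (PT.ltb hv (PT.mul hs hs)) (ppt_mg hs hv p.1 p.2.1 p.2.2) hv).congr fun x => ?_
    simp [ex]
  · exact ppt_tau (PT.mul hs hs) hl.length hv _

theorem ppt_cl {o : α → List ℕ} {v : α → ℕ} (ho : PT o) (hv : PT v) (i : EL) :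
    PT fun x => cl (o x) i (v x) :=
  PT.getD ho (ppt_ex ho (ppt_idxOf ho hv) i) (PT.const 0)

theorem ppt_nm {l : α → List C4} {v : α → ℕ} (hl : PT l) (hv : PT v) :
    PT fun x => nm (l x) (v x) :=
  PT.getD (ppt_toList (PT.fst (PT.getD hl (PT.div hv (PT.const 4)) (PT.const dflt))))
    (pt_mod hv (PT.const 4)) (PT.const 0)

omit [Enc β] in
theorem ppt_len (l : List β) : (l ++ l ++ l ++ l).length = 4 * l.length := by
  simp only [List.length_append]; omega

theorem ppt_range {l : α → List β} (hl : PT l) : PT fun x => List.range (4 * (l x).length) :=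
  (pt_rg (PT.append (PT.append (PT.append hl hl) hl) hl)).congr fun x => by rw [rg, ppt_len]

theorem ppt_occ {l : α → List C4} {y : α → ℕ} (hl : PT l) (hy : PT y) :
    PT fun x => occ (l x) (y x) :=
  pt_filter (f := fun x w => eqb (nm (l x) w) (y x))
    (PT.eqb (ppt_nm (PT.comp hl PT.fst') PT.snd') (PT.comp hy PT.fst')) (ppt_range hl)

theorem ppt_nbf {l : α → List C4} {v : α → ℕ} (hl : PT l) (hv : PT v) (i : Lt) :
    PT fun x => nbf (l x) (v x) i := by
  rcases i with t | i | i
  · simp only [nbf]
    fun_prop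
  · exact ppt_cl (ppt_occ hl (ppt_nm hl hv)) hv i
  · exact (ppt_ex (PT.append (PT.append (PT.append hl hl) hl) hl) hv i).congr fun x => by
      rw [ppt_len]; rfl

theorem ppt_prd {l : α → List C4} {v : α → ℕ} (hl : PT l) (hv : PT v) :
    PT fun x => prd (l x) (v x) :=
  PT.cond (PT.eqb (pt_mod hv (PT.const 4)) (PT.const 0))
    (PT.snd (PT.getD hl (PT.div hv (PT.const 4)) (PT.const dflt))) (PT.const _)

theorem pt_preF : PT preF :=
  PT.map (f := fun l v => ((fun i => nbf l v (eL i), ⟨fun i => rel0 (prd l v).val (eL i)⟩) :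
      Con 24 (Fin 24 → S4 → S4 → Bool)))
    (PT.pair (ppt_fun fun i => ppt_nbf PT.fst' PT.snd' (eL i))
      (ppt_code (fun P => (⟨fun i => rel0 P (eL i)⟩ : Code (Fin 24 → S4 → S4 → Bool))) top4
        (ppt_prd PT.fst' PT.snd')))
    (ppt_range PT.id)

end Vale.Agent.P325.Pre
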