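import Vale.Agent.P325.PreSound
import Vale.Agent.P325.PreGap
import Vale.Agent.P325.PrePT

/-! PRE: the preprocessing theorem. -/

namespace Vale.Agent.P325

open Finset Pre

theorem pre_good (l : List C4) :
    (preF l).Good (fun i => eL.symm (linv (eL i))) (1 - 1 / (4 * 25 * (24 : ℝ) ^ 2)) where
  lt v hv i := by
    rw [preF_length] at hv ⊢
    rw [preF_nb l hv]
    exact nbf_lt l hv _
  inv_nb v hv i := by
    rw [preF_length] at hv
    rw [preF_nb l hv, preF_nb l (nbf_lt l hv _), Equiv.apply_symm_apply]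
    exact nbf_inv l hv _
  gap f hf := by
    rw [preF_length] at hf ⊢
    obtain ⟨μ, hμ⟩ := ex_poin (4 * l.length) f
    have hc : (Fintype.card Lt : ℝ) = 24 := by
      rw [← Fintype.card_congr eL]; simp
    have h := gap_of_poin (4 * l.length) (nbf l) linv linv_linv (fun v hv i => nbf_lt l hv i)
      (fun v hv i => nbf_inv l hv i) (Sum.inl 0) (fun v _ => by simp [nbf]; omega) 25
      (by norm_num) f μ (hμ.trans (by
        refine mul_le_mul_of_nonneg_left (sum_le_sum fun v _ => ?_) (by norm_num)
        rw [Fintype.sum_sum_type (α₁ := Fin 4), Fintype.sum_sum_type (α₁ := EL)]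
        have h1 : 0 ≤ ∑ t : Fin 4, (f v - f (nbf l v (Sum.inl t))) ^ 2 := by positivity
        have h2 : 0 ≤ ∑ t : EL, (f v - f (nbf l v (Sum.inr (Sum.inl t)))) ^ 2 := by positivity
        have h3 : ∑ t : EL, (f v - f (nbf l v (Sum.inr (Sum.inr t)))) ^ 2 =
          ∑ i : EL, (f v - f (ex (4 * l.length) i v)) ^ 2 := rfl
        linarith)) hf
    rw [hc] at h
    refine le_of_eq_of_le (sum_congr rfl fun v hv => ?_) h
    rw [← Equiv.sum_comp eL fun i => f (nbf l v i)]
    simp only [preF_nb l (mem_range.1 hv)]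
    norm_num

theorem pre : PreStmt := by
  refine ⟨24, fun i => eL.symm (linv (eL i)), 1 - 1 / (4 * 25 * (24 : ℝ) ^ 2), 1 / 9600, 4, preF,
    by norm_num, fun i => by simp [linv_linv], by norm_num, by norm_num, by norm_num, pt_preF,
    fun l hl => ⟨?_, (preF_length l).le, pre_good l, ?_, fun u hu σ => ?_⟩⟩
  · have h : 0 < l.length := List.length_pos_iff.2 hl
    rw [← List.length_pos_iff, preF_length]; omega
  · rintro ⟨a, ha⟩
    obtain ⟨σ, hσ⟩ := pre_complete l a ha
    refine ⟨σ, fun v i => ?_⟩
    by_cases hv : v < 4 * l.length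
    · rw [preF_rel l hv, preF_nb l hv]; exact hσ v hv _
    · rw [SG.rel, dif_neg (by rwa [preF_length])]
  · obtain ⟨a, ha⟩ := pre_sound l σ
    have h : (0 : ℝ) < l.length := by exact_mod_cast List.length_pos_iff.2 hl
    have h1 := hu a
    rw [avg, le_div_iff₀ h] at h1
    have h2 : ∑ v ∈ range (preF l).length, ∑ i,
        ind ((preF l).rel v i (σ v) (σ ((preF l).nb v i)) = false) =
        ∑ v ∈ range (4 * l.length), ∑ i : Lt,
          ind (rel0 (prd l v).val i (σ v) (σ (nbf l v i)) = false) := by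
      rw [preF_length]
      refine sum_congr rfl fun v hv => ?_
      rw [← Equiv.sum_comp eL]
      simp only [preF_nb l (mem_range.1 hv), preF_rel l (mem_range.1 hv)]
    rw [SG.bad, h2, preF_length, le_div_iff₀ (by push_cast; positivity)]
    push_cast
    linarith

end Vale.Agent.P325
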