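import Vale.Agent.P325.Defs

/-!
Part PRE (preprocessing): definitions.

`ex n i` (letters `i : EL`) is an explicit family of permutations of `range n` with a Poincare
inequality: Margulis type maps on the first `M * M` numbers (`M = sqrt n`, `v = x * M + y`) and two
involutions `tau` joining the remaining numbers to the first block.  The graph `preF l` has the
vertices `v = 4 c + j` (occurrence `j` of constraint number `c`), whose label is meant to be the
assignment of the variables of `c` rotated by `j`.
-/

namespace Vale.Agent.P325.Pre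

open Vale.Agent.Lib.H23 Finset

/-- Letters of the expander: (side, kind, sign) or one of two matchings. -/
abbrev EL : Type := (Bool × Bool × Bool) ⊕ Bool

def einv : EL → EL
  | Sum.inl p => Sum.inl (p.1, p.2.1, !p.2.2)
  | Sum.inr t => Sum.inr t

/-- `x ± 2 y` or `x ± 1` modulo `M`. -/
def sh (M : ℕ) (kind sg : Bool) (x y : ℕ) : ℕ :=
  (x + (bif sg then 1 else M - 1) * (bif kind then 2 * y else 1)) % M

/-- The Margulis type maps on `range (M * M)`. -/
def mg (M : ℕ) (side kind sg : Bool) (v : ℕ) : ℕ :=
  bif side then sh M kind sg (v / M) (v % M) * M + v % M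
  else v / M * M + sh M kind sg (v % M) (v / M)

/-- The involution exchanging `v < b` and `v + t b < n`. -/
def tau (b n t v : ℕ) : ℕ :=
  if v < b then (if v + t * b < n then v + t * b else v)
  else if t * b ≤ v ∧ v < (t + 1) * b then v - t * b else v

/-- The expander on `range n`. -/
def ex (n : ℕ) : EL → ℕ → ℕ
  | Sum.inl p, v => if v < n.sqrt * n.sqrt then mg n.sqrt p.1 p.2.1 p.2.2 v else v
  | Sum.inr t, v => tau (n.sqrt * n.sqrt) n (bif t then 2 else 1) v

/-- The expander transported to the entries of a list without repetitions. -/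
def cl (o : List ℕ) (i : EL) (v : ℕ) : ℕ := o.getD (ex o.length i (o.idxOf v)) 0

def top4 : P4 := ⟨fun _ => true, fun _ => true, rfl⟩

def dflt : C4 := (fun _ => 0, ⟨top4⟩)

/-- The variable at occurrence `v`. -/
def nm (l : List C4) (v : ℕ) : ℕ := (List.ofFn (l.getD (v / 4) dflt).1).getD (v % 4) 0

/-- The occurrences of the variable `x`. -/
def occ (l : List C4) (x : ℕ) : List ℕ :=
  (List.range (4 * l.length)).filter fun w => eqb (nm l w) x

/-- The predicate checked at the vertex `v`. -/
def prd (l : List C4) (v : ℕ) : Code P4 :=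
  bif eqb (v % 4) 0 then (l.getD (v / 4) dflt).2 else ⟨top4⟩

/-- Letters of the graph: rotations, cloud expander, global expander. -/
abbrev Lt : Type := Fin 4 ⊕ EL ⊕ EL

def linv : Lt → Lt
  | Sum.inl t => Sum.inl (-t)
  | Sum.inr (Sum.inl i) => Sum.inr (Sum.inl (einv i))
  | Sum.inr (Sum.inr i) => Sum.inr (Sum.inr (einv i))

def nbf (l : List C4) (v : ℕ) : Lt → ℕ
  | Sum.inl t => 4 * (v / 4) + (v + t.val) % 4
  | Sum.inr (Sum.inl i) => cl (occ l (nm l v)) i v
  | Sum.inr (Sum.inr i) => ex (4 * l.length) i v

def rel0 (P : P4) : Lt → S4 → S4 → Bool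
  | Sum.inl t, s, s' => decide (∀ r, s' r = s (t + r)) && P.1 s
  | Sum.inr (Sum.inl _), s, s' => decide (s 0 = s' 0)
  | Sum.inr (Sum.inr _), _, _ => true

noncomputable def eL : Fin 24 ≃ Lt := (Fintype.equivFinOfCardEq (by simp [Lt, EL])).symm

/-- The preprocessed graph. -/
noncomputable def preF (l : List C4) : SG 24 :=
  (List.range (4 * l.length)).map fun v =>
    (fun i => nbf l v (eL i), ⟨fun i => rel0 (prd l v).val (eL i)⟩)

theorem einv_einv (i : EL) : einv (einv i) = i := by
  rcases i with ⟨a, b, c⟩ | t <;> simp [einv]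

theorem linv_linv (i : Lt) : linv (linv i) = i := by
  rcases i with t | i | i <;> simp [linv, einv_einv]

theorem preF_length (l : List C4) : (preF l).length = 4 * l.length := by simp [preF]

theorem preF_nb (l : List C4) {v : ℕ} (hv : v < 4 * l.length) (i : Fin 24) :
    (preF l).nb v i = nbf l v (eL i) := by
  have h : v < (preF l).length := by rwa [preF_length]
  rw [SG.nb, dif_pos h]
  simp [preF]

theorem preF_rel (l : List C4) {v : ℕ} (hv : v < 4 * l.length) (i : Fin 24) (s s' : S4) :
    (preF l).rel v i s s' = rel0 (prd l v).val (eL i) s s' := by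
  have h : v < (preF l).length := by rwa [preF_length]
  rw [SG.rel, dif_pos h]
  simp [preF]

theorem mem_occ {l : List C4} {x w : ℕ} : w ∈ occ l x ↔ w < 4 * l.length ∧ nm l w = x := by
  simp [occ]

theorem occ_nodup (l : List C4) (x : ℕ) : (occ l x).Nodup := List.nodup_range.filter _

theorem nm_eq (l : List C4) {c : ℕ} (hc : c < l.length) (j : Fin 4) :
    nm l (4 * c + j.val) = (l[c]).1 j := by
  have h1 : (4 * c + j.val) / 4 = c := by omega
  have h2 : (4 * c + j.val) % 4 = j.val := by omega
  rw [nm, h1, h2, List.getD_eq_getElem _ _ hc, List.getD_eq_getElem _ _ (by simp)]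
  simp only [List.getElem_ofFn]

theorem prd_zero (l : List C4) {c : ℕ} (hc : c < l.length) : prd l (4 * c) = (l[c]).2 := by
  have h1 : (4 * c) / 4 = c := by omega
  have h2 : (4 * c) % 4 = 0 := by omega
  rw [prd, h1, h2, List.getD_eq_getElem _ _ hc]
  simp

theorem prd_ne (l : List C4) {v : ℕ} (hv : v % 4 ≠ 0) : prd l v = ⟨top4⟩ := by
  simp [prd, hv]

end Vale.Agent.P325.Pre
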