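import Vale.Agent.P325.PreDefs

/-!
PRE, the maps `ex n i` permute `range n`, and the transported maps `cl o i` permute the list `o`.

Plan.  `sh M .. < M`; `(x * M + y) / M = x`, `(x * M + y) % M = y` for `y < M`;
`sh M k (!s) (sh M k s x y) y = x` for `x < M` (write `M = M' + 1`, `x + A + M' * A = x + M * A`,
`Nat.mod_add_mod`, `Nat.add_mul_mod_self_left`).  `tau b n t` with `1 ≤ t` is an involution of
`range n` (`split_ifs`, `omega` after generalizing `t * b`, `(t + 1) * b = t * b + b`, `b ≤ t * b`).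
`Nat.sqrt_le' `/`Nat.sqrt_le` give `sqrt n * sqrt n ≤ n`.  For `cl`: `List.idxOf_lt_length_iff`,
`List.getD_eq_getElem`, `List.idxOf_getElem` / `List.Nodup.idxOf_getElem`, `List.getElem_idxOf`.
-/

namespace Vale.Agent.P325.Pre

theorem exa_sh_lt {M : ℕ} (hM : 0 < M) (k s : Bool) (x y : ℕ) : sh M k s x y < M :=
  Nat.mod_lt _ hM

theorem exa_div {M x y : ℕ} (hy : y < M) : (x * M + y) / M = x := by
  rw [Nat.add_comm, Nat.add_mul_div_right _ _ (by omega), Nat.div_eq_of_lt hy, Nat.zero_add]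

theorem exa_mod {M x y : ℕ} (hy : y < M) : (x * M + y) % M = y := by
  rw [Nat.add_comm, Nat.add_mul_mod_self_right, Nat.mod_eq_of_lt hy]

theorem exa_lt {M x y : ℕ} (hx : x < M) (hy : y < M) : x * M + y < M * M := by
  have : (x + 1) * M ≤ M * M := Nat.mul_le_mul_right M hx
  rw [Nat.add_mul] at this
  omega

theorem exa_sh_inv {M x : ℕ} (hx : x < M) (k s : Bool) (y : ℕ) :
    sh M k (!s) (sh M k s x y) y = x := by
  obtain ⟨M', rfl⟩ : ∃ M', M = M' + 1 := ⟨M - 1, by omega⟩
  unfold sh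
  generalize (bif k then 2 * y else 1) = A
  rw [Nat.mod_add_mod]
  have e : ∀ z, z = x + (M' + 1) * A → z % (M' + 1) = x := by
    rintro z rfl
    rw [Nat.add_mul_mod_self_left, Nat.mod_eq_of_lt hx]
  apply e
  cases s <;> simp <;> ring

theorem exa_pos {M v : ℕ} (hv : v < M * M) : 0 < M := by
  rcases Nat.eq_zero_or_pos M with rfl | h
  · simp at hv
  · exact h

theorem mg_lt {M v : ℕ} (hv : v < M * M) (a b c : Bool) : mg M a b c v < M * M := by
  have hM := exa_pos hv
  have h1 : v / M < M := Nat.div_lt_of_lt_mul hv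
  have h2 : v % M < M := Nat.mod_lt _ hM
  cases a
  · exact exa_lt h1 (exa_sh_lt hM _ _ _ _)
  · exact exa_lt (exa_sh_lt hM _ _ _ _) h2

theorem mg_inv {M v : ℕ} (hv : v < M * M) (a b c : Bool) : mg M a b (!c) (mg M a b c v) = v := by
  have hM := exa_pos hv
  have h1 : v / M < M := Nat.div_lt_of_lt_mul hv
  have h2 : v % M < M := Nat.mod_lt _ hM
  cases a
  · simp only [mg, cond_false]
    rw [exa_div (exa_sh_lt hM _ _ _ _), exa_mod (exa_sh_lt hM _ _ _ _), exa_sh_inv h2]
    exact Nat.div_add_mod' v M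
  · simp only [mg, cond_true]
    rw [exa_div h2, exa_mod h2, exa_sh_inv h1]
    exact Nat.div_add_mod' v M

theorem exa_tau_lt {b n v : ℕ} (hv : v < n) (t : ℕ) : tau b n t v < n := by
  unfold tau
  split_ifs <;> omega

theorem exa_tau_inv {b n v t : ℕ} (hv : v < n) (ht : 1 ≤ t) : tau b n t (tau b n t v) = v := by
  have h1 : b ≤ t * b := Nat.le_mul_of_pos_left b ht
  have h2 : (t + 1) * b = t * b + b := by ring
  unfold tau
  rw [h2]
  generalize t * b = c at *
  split_ifs <;> omega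

theorem ex_lt {n v : ℕ} (hv : v < n) (i : EL) : ex n i v < n := by
  rcases i with p | t
  · simp only [ex]
    split_ifs with h
    · exact (mg_lt h _ _ _).trans_le (Nat.sqrt_le n)
    · exact hv
  · exact exa_tau_lt hv _

theorem ex_inv {n v : ℕ} (hv : v < n) (i : EL) : ex n (einv i) (ex n i v) = v := by
  rcases i with p | t
  · simp only [ex, einv]
    by_cases h : v < n.sqrt * n.sqrt
    · rw [if_pos h, if_pos (mg_lt h _ _ _), mg_inv h]
    · rw [if_neg h, if_neg h]
  · exact exa_tau_inv hv (by cases t <;> simp)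

theorem cl_getElem {o : List ℕ} (ho : o.Nodup) {k : ℕ} (hk : k < o.length) (i : EL) :
    cl o i o[k] = o[ex o.length i k]'(ex_lt hk i) := by
  rw [cl, ho.idxOf_getElem, List.getD_eq_getElem _ _ (ex_lt hk i)]

theorem cl_mem {o : List ℕ} {v : ℕ} (hv : v ∈ o) (i : EL) : cl o i v ∈ o := by
  rw [cl, List.getD_eq_getElem _ _ (ex_lt (List.idxOf_lt_length_iff.2 hv) i)]
  exact List.getElem_mem _

theorem cl_inv {o : List ℕ} (ho : o.Nodup) {v : ℕ} (hv : v ∈ o) (i : EL) :
    cl o (einv i) (cl o i v) = v := by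
  obtain ⟨k, hk, rfl⟩ := List.getElem_of_mem hv
  rw [cl_getElem ho hk, cl_getElem ho (ex_lt hk i)]
  simp only [ex_inv hk]

end Vale.Agent.P325.Pre
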