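import Vale.Agent.P325.PreHardy

/-!
PRE, Poincare inequality of the Margulis expander on `ZMod m × ZMod m`.

Plan.  `χ = ZMod.stdAddChar (N := m)` (primitive: `ZMod.isPrimitive_stdAddChar`),
`ft f k = ∑ z, (f z : ℂ) * χ (k.1 * z.1 + k.2 * z.2)` for `f : ZMod m × ZMod m → ℝ`.
* Parseval: `∑ k, ‖ft f k‖^2 = m^2 * ∑ z, f z ^ 2` (expand `ft f k * conj (ft f k)`,
  `AddChar.sum_mulShift`, `AddChar.map_neg_eq_conj` / `starRingEnd`).
* `ft (fun z => f (z.1 + 2 z.2, z.2)) k = ft f (k.1, k.2 - 2 k.1)`,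
  `ft (fun z => f (z.1, z.2 + 2 z.1)) k = ft f (k.1 - 2 k.2, k.2)`,
  `ft (fun z => f (z.1 + 1, z.2)) k = χ (-k.1) * ft f k`, same for the second coordinate
  (reindex with `Equiv.sum_comp`); `ft` is additive.
* `G k = ‖ft f k‖`, `G 0 = 0` as `∑ f = 0`; `(‖a‖ - ‖b‖)^2 ≤ ‖a - b‖^2`; reindex `k` to get the form of
  `hardy`.  `V x = ‖1 - χ (-x)‖^2 = 2 - 2 cos (2 π x.valMinAbs / m) ≥ 1` when `m ≤ 6 |valMinAbs x|`
  (`ZMod.stdAddChar_coe` with `x = (x.valMinAbs : ZMod m)`, `2 |valMinAbs x| ≤ m` by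
  `ZMod.natAbs_valMinAbs_le`, `Real.cos_le_cos_of_nonneg_of_le_pi`, `Real.cos_pi_div_three`).
-/

namespace Vale.Agent.P325.Pre

open Finset

/-- The Fourier transform. -/
noncomputable def four_ft {m : ℕ} [NeZero m] (f : ZMod m × ZMod m → ℝ) (k : ZMod m × ZMod m) : ℂ :=
  ∑ z, (f z : ℂ) * ZMod.stdAddChar (N := m) (k.1 * z.1 + k.2 * z.2)

theorem four_orth {m : ℕ} [NeZero m] (u : ZMod m × ZMod m) :
    ∑ k : ZMod m × ZMod m, ZMod.stdAddChar (N := m) (k.1 * u.1 + k.2 * u.2) =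
      if u = 0 then (m : ℂ) ^ 2 else 0 := by
  simp only [AddChar.map_add_eq_mul, Fintype.sum_prod_type, ← sum_mul_sum,
    AddChar.sum_mulShift _ (ZMod.isPrimitive_stdAddChar m), ZMod.card, Prod.ext_iff,
    Prod.fst_zero, Prod.snd_zero]
  by_cases h1 : u.1 = 0 <;> by_cases h2 : u.2 = 0 <;> simp [h1, h2, sq]

theorem four_parseval {m : ℕ} [NeZero m] (f : ZMod m × ZMod m → ℝ) :
    ∑ k, ‖four_ft f k‖ ^ 2 = (m : ℝ) ^ 2 * ∑ z, f z ^ 2 := by
  have h1 : ∀ k, ((‖four_ft f k‖ ^ 2 : ℝ) : ℂ) = ∑ z, ∑ w, (f z : ℂ) * f w *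
      ZMod.stdAddChar (N := m) (k.1 * (z - w).1 + k.2 * (z - w).2) := by
    intro k
    rw [← Complex.normSq_eq_norm_sq, ← Complex.mul_conj, four_ft, map_sum, sum_mul_sum]
    refine sum_congr rfl fun z _ => sum_congr rfl fun w _ => ?_
    rw [map_mul, Complex.conj_ofReal, ← AddChar.map_neg_eq_conj, mul_mul_mul_comm,
      ← AddChar.map_add_eq_mul]
    congr 2
    simp only [Prod.fst_sub, Prod.snd_sub]
    ring
  apply Complex.ofReal_injective
  rw [Complex.ofReal_sum]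
  simp only [h1]
  rw [sum_comm]
  push_cast
  rw [mul_sum]
  refine sum_congr rfl fun z _ => ?_
  rw [sum_comm]
  simp only [← mul_sum, four_orth, sub_eq_zero, mul_ite, mul_zero, sum_ite_eq, mem_univ, if_true]
  ring

theorem four_sub {m : ℕ} [NeZero m] (f g : ZMod m × ZMod m → ℝ) (k : ZMod m × ZMod m) :
    four_ft (fun z => f z - g z) k = four_ft f k - four_ft g k := by
  simp only [four_ft, Complex.ofReal_sub, sub_mul, sum_sub_distrib]

theorem four_comp {m : ℕ} [NeZero m] (f : ZMod m × ZMod m → ℝ)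
    (e : ZMod m × ZMod m ≃ ZMod m × ZMod m) (k : ZMod m × ZMod m) :
    four_ft (fun z => f (e z)) k =
      ∑ w, (f w : ℂ) * ZMod.stdAddChar (N := m) (k.1 * (e.symm w).1 + k.2 * (e.symm w).2) := by
  rw [four_ft, ← Equiv.sum_comp e.symm]
  simp only [Equiv.apply_symm_apply]

theorem four_S {m : ℕ} [NeZero m] (f : ZMod m × ZMod m → ℝ) (k : ZMod m × ZMod m) :
    four_ft (fun z => f (z.1 + 2 * z.2, z.2)) (k.1, k.2 + 2 * k.1) = four_ft f k := by
  refine (four_comp f (hardy_S m) _).trans (sum_congr rfl fun w _ => ?_)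
  congr 2
  simp only [hardy_S, Equiv.coe_fn_symm_mk]
  ring

theorem four_T {m : ℕ} [NeZero m] (f : ZMod m × ZMod m → ℝ) (k : ZMod m × ZMod m) :
    four_ft (fun z => f (z.1, z.2 + 2 * z.1)) (k.1 + 2 * k.2, k.2) = four_ft f k := by
  refine (four_comp f (hardy_T m) _).trans (sum_congr rfl fun w _ => ?_)
  congr 2
  simp only [hardy_T, Equiv.coe_fn_symm_mk]
  ring

theorem four_tr {m : ℕ} [NeZero m] (f : ZMod m × ZMod m → ℝ) (u k : ZMod m × ZMod m) :
    four_ft (fun z => f (z + u)) k =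
      ZMod.stdAddChar (N := m) (-(k.1 * u.1 + k.2 * u.2)) * four_ft f k := by
  refine (four_comp f (Equiv.addRight u) _).trans ?_
  rw [four_ft, mul_sum]
  refine sum_congr rfl fun w _ => ?_
  rw [mul_left_comm, ← AddChar.map_add_eq_mul]
  congr 2
  simp only [Equiv.addRight_symm_apply, Prod.fst_add, Prod.snd_add, Prod.fst_neg, Prod.snd_neg]
  ring

/-- The multiplier of a translation. -/
noncomputable def four_V {m : ℕ} [NeZero m] (x : ZMod m) : ℝ :=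
  ‖1 - ZMod.stdAddChar (N := m) (-x)‖ ^ 2

theorem four_V_ge {m : ℕ} [NeZero m] (x : ZMod m) (h : m ≤ 6 * x.valMinAbs.natAbs) :
    1 ≤ four_V x := by
  have hm : (0 : ℝ) < m := by exact_mod_cast Nat.pos_of_ne_zero (NeZero.ne m)
  have e1 : -x = ((-x.valMinAbs : ℤ) : ZMod m) := by push_cast [ZMod.coe_valMinAbs]; rfl
  have e2 : ZMod.stdAddChar (N := m) (-x) =
      Complex.exp (((-(2 * Real.pi * x.valMinAbs / m) : ℝ) : ℂ) * Complex.I) := by
    rw [e1, ZMod.stdAddChar_coe]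
    congr 1
    push_cast
    ring
  have h2 : 2 * x.valMinAbs.natAbs ≤ m := by
    have := ZMod.natAbs_valMinAbs_le x
    omega
  have h3 : (m : ℝ) ≤ 6 * |(x.valMinAbs : ℝ)| := by
    rw [← Int.cast_abs, Int.abs_eq_natAbs]
    exact_mod_cast h
  have h4 : 2 * |(x.valMinAbs : ℝ)| ≤ m := by
    rw [← Int.cast_abs, Int.abs_eq_natAbs]
    exact_mod_cast h2
  have h5 : Real.cos (2 * Real.pi * x.valMinAbs / m) ≤ 1 / 2 := by
    rw [← Real.cos_abs, ← Real.cos_pi_div_three, abs_div, abs_mul, abs_of_pos hm,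
      abs_of_pos Real.two_pi_pos]
    refine Real.cos_le_cos_of_nonneg_of_le_pi (by positivity) ?_ ?_
    · rw [div_le_iff₀ hm]
      nlinarith [Real.pi_pos]
    · rw [le_div_iff₀ hm]
      nlinarith [Real.pi_pos]
  rw [four_V, e2, ← Complex.normSq_eq_norm_sq, Complex.normSq_apply]
  simp only [Complex.sub_re, Complex.one_re, Complex.exp_ofReal_mul_I_re, Complex.sub_im,
    Complex.one_im, Complex.exp_ofReal_mul_I_im, Real.cos_neg, Real.sin_neg]
  nlinarith [Real.sin_sq_add_cos_sq (2 * Real.pi * x.valMinAbs / m)]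

theorem mgg (m : ℕ) [NeZero m] (f : ZMod m × ZMod m → ℝ) (hf : ∑ z, f z = 0) :
    ∑ z, f z ^ 2 ≤ 5 * ∑ z : ZMod m × ZMod m, ((f z - f (z.1 + 2 * z.2, z.2)) ^ 2 +
      (f z - f (z.1, z.2 + 2 * z.1)) ^ 2 + (f z - f (z.1 + 1, z.2)) ^ 2 +
      (f z - f (z.1, z.2 + 1)) ^ 2) := by
  have hm : (0 : ℝ) < (m : ℝ) ^ 2 := by
    have : (0 : ℝ) < m := by exact_mod_cast Nat.pos_of_ne_zero (NeZero.ne m)
    positivity
  have h0 : ‖four_ft f 0‖ = 0 := by
    simp only [four_ft, Prod.fst_zero, Prod.snd_zero, zero_mul, add_zero,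
      AddChar.map_zero_eq_one, mul_one]
    rw [← Complex.ofReal_sum, hf]
    simp
  have H := hardy m (fun k => ‖four_ft f k‖) h0 four_V (fun x => sq_nonneg _) four_V_ge
  have hn : ∀ a b : ℂ, (‖a‖ - ‖b‖) ^ 2 ≤ ‖b - a‖ ^ 2 := fun a b => by
    rw [← sq_abs, norm_sub_rev]
    exact pow_le_pow_left₀ (abs_nonneg _) (abs_norm_sub_norm_le a b) 2
  have a1 : ∑ k : ZMod m × ZMod m, (‖four_ft f k‖ - ‖four_ft f (k.1 + 2 * k.2, k.2)‖) ^ 2 ≤
      (m : ℝ) ^ 2 * ∑ z : ZMod m × ZMod m, (f z - f (z.1, z.2 + 2 * z.1)) ^ 2 := by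
    rw [← four_parseval, ← Equiv.sum_comp (hardy_S m)
      fun k => ‖four_ft (fun z => f z - f (z.1, z.2 + 2 * z.1)) k‖ ^ 2]
    refine sum_le_sum fun k _ => (hn _ _).trans_eq ?_
    rw [four_sub, ← four_T f k]
    rfl
  have a2 : ∑ k : ZMod m × ZMod m, (‖four_ft f k‖ - ‖four_ft f (k.1, k.2 + 2 * k.1)‖) ^ 2 ≤
      (m : ℝ) ^ 2 * ∑ z : ZMod m × ZMod m, (f z - f (z.1 + 2 * z.2, z.2)) ^ 2 := by
    rw [← four_parseval, ← Equiv.sum_comp (hardy_T m)
      fun k => ‖four_ft (fun z => f z - f (z.1 + 2 * z.2, z.2)) k‖ ^ 2]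
    refine sum_le_sum fun k _ => (hn _ _).trans_eq ?_
    rw [four_sub, ← four_S f k]
    rfl
  have a3 : ∀ u : ZMod m × ZMod m,
      ∑ k : ZMod m × ZMod m, four_V (k.1 * u.1 + k.2 * u.2) * ‖four_ft f k‖ ^ 2 =
      (m : ℝ) ^ 2 * ∑ z : ZMod m × ZMod m, (f z - f (z + u)) ^ 2 := by
    intro u
    rw [← four_parseval]
    refine sum_congr rfl fun k _ => ?_
    rw [four_sub, four_tr, ← one_sub_mul, norm_mul, mul_pow, four_V]
  have a4 := a3 (1, 0)
  have a5 := a3 (0, 1)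
  simp only [mul_one, mul_zero, add_zero, zero_add] at a4 a5
  have e4 : ∀ z : ZMod m × ZMod m, z + (1, 0) = (z.1 + 1, z.2) := fun z => by ext <;> simp
  have e5 : ∀ z : ZMod m × ZMod m, z + (0, 1) = (z.1, z.2 + 1) := fun z => by ext <;> simp
  simp only [e4, e5] at a4 a5
  rw [four_parseval] at H
  simp only [add_mul, sum_add_distrib, a4, a5] at H
  simp only [sum_add_distrib]
  refine le_of_mul_le_mul_left ?_ hm
  nlinarith

end Vale.Agent.P325.Pre
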