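import Vale.Agent.P325.PreExA
import Vale.Agent.P325.PreFour

/-!
PRE, Poincare inequalities of `mg`, `ex`, `cl`.

Plan.  `mg_poin`: for `M = 0` trivial.  Otherwise `z ↦ z.1.val * M + z.2.val` is a bijection from
`ZMod M × ZMod M` onto `range (M * M)` (`Finset.sum_bij` / `sum_nbij'` with inverse
`v ↦ ((v / M : ℕ), (v % M : ℕ))`), it turns the four maps of `mgg` into `mg M a b true`
(`ZMod.val_add`, `ZMod.val_mul`, `ZMod.val_natCast`, or prove `sh M k true x.val y.val = (x + ..).val`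
from `ZMod.val_natCast` after writing `x = (x.val : ZMod M)`); apply `mgg` to `f ∘ e - μ`, `μ` the mean.
`ex_poin`: `b = sqrt n * sqrt n ≤ n ≤ 3 b` (`Nat.lt_succ_sqrt`, `n < (M+1)^2`, `M ≥ 1` if `n ≥ 1`).
Take `μ` of `mg_poin`.  For `b ≤ v < n`: `v ∈ [b, 2b)` and `tau b n 1 v = v - b`, or `v ∈ [2b, 3b)` and
`tau b n 2 v = v - 2b`; `(f v - μ)^2 ≤ 2 (f v - f w)^2 + 2 (f w - μ)^2`, the maps `v ↦ v - b`,
`v ↦ v - 2b` are injective into `range b` (`Finset.sum_Ico_eq_sum_range`, `sum_le_sum_of_subset_of_nonneg`).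
Total `≤ 5 * (5 D) + 2 D'`; sums over `EL` by `Fintype.sum_sum_type`, `Fintype.sum_prod_type`,
`Fintype.sum_bool`.  `cl_poin`: apply `ex_poin` to `k ↦ f (o.getD k 0)`, `cl_getElem`,
`List.sum_toFinset` / `Finset.sum_bij` between `range o.length` and `o.toFinset`.
-/

namespace Vale.Agent.P325.Pre

open Finset

theorem exb_sum (M : ℕ) [NeZero M] (g : ℕ → ℝ) :
    ∑ v ∈ range (M * M), g v = ∑ z : ZMod M × ZMod M, g (z.1.val * M + z.2.val) := by
  have hM : 0 < M := Nat.pos_of_ne_zero (NeZero.ne M)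
  refine sum_nbij' (fun v => (((v / M : ℕ) : ZMod M), ((v % M : ℕ) : ZMod M)))
    (fun z => z.1.val * M + z.2.val) (fun _ _ => mem_univ _)
    (fun z _ => mem_range.2 (exa_lt (ZMod.val_lt _) (ZMod.val_lt _))) ?_ ?_ ?_
  · intro v hv
    have h1 : v / M < M := Nat.div_lt_of_lt_mul (mem_range.1 hv)
    simp only [ZMod.val_natCast, Nat.mod_mod, Nat.mod_eq_of_lt h1]
    exact Nat.div_add_mod' v M
  · intro z _
    simp only [exa_div (ZMod.val_lt z.2), exa_mod (ZMod.val_lt z.2), ZMod.natCast_zmod_val]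
  · intro v hv
    have h1 : v / M < M := Nat.div_lt_of_lt_mul (mem_range.1 hv)
    simp only [ZMod.val_natCast, Nat.mod_mod, Nat.mod_eq_of_lt h1, Nat.div_add_mod']

theorem exb_sh (M : ℕ) [NeZero M] (k : Bool) (x y : ZMod M) :
    sh M k true x.val y.val = (x + bif k then 2 * y else 1).val := by
  rw [sh, ← ZMod.val_natCast]
  cases k <;> simp

theorem mg_poin (M : ℕ) (f : ℕ → ℝ) : ∃ μ : ℝ, ∑ v ∈ range (M * M), (f v - μ) ^ 2 ≤
    5 * ∑ v ∈ range (M * M), ∑ a : Bool, ∑ b : Bool, (f v - f (mg M a b true v)) ^ 2 := by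
  rcases Nat.eq_zero_or_pos M with rfl | hM
  · exact ⟨0, by simp⟩
  have : NeZero M := ⟨hM.ne'⟩
  set e : ZMod M × ZMod M → ℕ := fun z => z.1.val * M + z.2.val with he
  set μ : ℝ := (∑ z, f (e z)) / (M * M) with hμ
  have hM' : (0 : ℝ) < M := by exact_mod_cast hM
  refine ⟨μ, ?_⟩
  have h := mgg M (fun z => f (e z) - μ) (by
    rw [sum_sub_distrib, sum_const, card_univ, Fintype.card_prod, ZMod.card, hμ, nsmul_eq_mul]
    push_cast
    field_simp
    ring)
  rw [exb_sum, exb_sum]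
  refine h.trans (le_of_eq ?_)
  congr 1
  refine sum_congr rfl fun z _ => ?_
  simp only [Fintype.sum_bool, mg, cond_true, cond_false, exa_div (ZMod.val_lt z.2),
    exa_mod (ZMod.val_lt z.2), exb_sh, he]
  ring

theorem exb_shift (b n t : ℕ) (g : ℕ → ℝ) (hg : ∀ v, 0 ≤ g v) :
    ∑ v ∈ (range n).filter (fun v => t * b ≤ v ∧ v < (t + 1) * b), g (v - t * b) ≤
      ∑ v ∈ range b, g v := by
  have h2 : (t + 1) * b = t * b + b := by ring
  rw [h2]
  generalize t * b = c
  rw [← sum_image (s := (range n).filter (fun v => c ≤ v ∧ v < c + b)) (g := fun v => v - c)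
    (f := g)]
  · refine sum_le_sum_of_subset_of_nonneg (fun w hw => ?_) fun w _ _ => hg w
    obtain ⟨v, hv, rfl⟩ := mem_image.1 hw
    have := (mem_filter.1 hv).2
    rw [mem_range]; omega
  · intro v hv w hw e
    have h3 := (mem_filter.1 hv).2
    have h4 := (mem_filter.1 hw).2
    simp only at e
    omega

theorem ex_poin (n : ℕ) (f : ℕ → ℝ) : ∃ μ : ℝ, ∑ v ∈ range n, (f v - μ) ^ 2 ≤
    25 * ∑ v ∈ range n, ∑ i : EL, (f v - f (ex n i v)) ^ 2 := by
  obtain ⟨μ, hμ⟩ := mg_poin n.sqrt f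
  refine ⟨μ, ?_⟩
  have hb : n.sqrt * n.sqrt ≤ n := Nat.sqrt_le n
  have hn : n ≤ 3 * (n.sqrt * n.sqrt) := by
    have h1 := Nat.lt_succ_sqrt n
    rcases Nat.eq_zero_or_pos n with rfl | h0
    · simp
    · have h2 : 0 < n.sqrt := Nat.sqrt_pos.2 h0
      simp only [Nat.succ_eq_add_one] at h1
      nlinarith
  set b := n.sqrt * n.sqrt with hbd
  set A : ℕ → ℝ := fun v => ∑ p : Bool × Bool × Bool, (f v - f (ex n (Sum.inl p) v)) ^ 2 with hA
  set B : ℕ → ℝ := fun v => ∑ t : Bool, (f v - f (ex n (Sum.inr t) v)) ^ 2 with hB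
  have hA0 : ∀ v, 0 ≤ A v := fun v => by positivity
  have hB0 : ∀ v, 0 ≤ B v := fun v => by positivity
  have h1 : ∑ v ∈ range b, ∑ a : Bool, ∑ c : Bool, (f v - f (mg n.sqrt a c true v)) ^ 2 ≤
      ∑ v ∈ range n, A v := by
    refine le_trans (sum_le_sum fun v hv => ?_)
      (sum_le_sum_of_subset_of_nonneg (range_subset_range.2 hb) fun v _ _ => hA0 v)
    have hv' : v < n.sqrt * n.sqrt := mem_range.1 hv
    simp only [hA, Fintype.sum_prod_type, Fintype.sum_bool, ex, if_pos hv']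
    nlinarith [sq_nonneg (f v - f (mg n.sqrt true true false v)),
      sq_nonneg (f v - f (mg n.sqrt true false false v)),
      sq_nonneg (f v - f (mg n.sqrt false true false v)),
      sq_nonneg (f v - f (mg n.sqrt false false false v))]
  have h2 : ∀ v ∈ range n, (f v - μ) ^ 2 ≤ 2 * B v +
      ((if v < b then (f v - μ) ^ 2 else 0) +
      2 * (if 1 * b ≤ v ∧ v < (1 + 1) * b then (f (v - 1 * b) - μ) ^ 2 else 0) +
      2 * (if 2 * b ≤ v ∧ v < (2 + 1) * b then (f (v - 2 * b) - μ) ^ 2 else 0)) := by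
    intro v hv
    have hv' := mem_range.1 hv
    have hBv := hB0 v
    by_cases c1 : v < b
    · rw [if_pos c1, if_neg (by omega), if_neg (by omega)]
      linarith
    · by_cases c2 : v < 2 * b
      · rw [if_neg c1, if_pos (by omega), if_neg (by omega)]
        have e : ex n (Sum.inr false) v = v - 1 * b := by
          simp only [ex, cond_false, tau, ← hbd]
          rw [if_neg c1, if_pos (by omega)]
        simp only [hB, Fintype.sum_bool, e]
        nlinarith [sq_nonneg (f v - f (ex n (Sum.inr true) v)),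
          sq_nonneg (f v - 2 * f (v - 1 * b) + μ)]
      · rw [if_neg c1, if_neg (by omega), if_pos (by omega)]
        have e : ex n (Sum.inr true) v = v - 2 * b := by
          simp only [ex, cond_true, tau, ← hbd]
          rw [if_neg c1, if_pos (by omega)]
        simp only [hB, Fintype.sum_bool, e]
        nlinarith [sq_nonneg (f v - f (ex n (Sum.inr false) v)),
          sq_nonneg (f v - 2 * f (v - 2 * b) + μ)]
  have h3 := sum_le_sum h2
  simp only [sum_add_distrib, ← mul_sum, ← sum_filter] at h3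
  have h4 := exb_shift b n 1 (fun v => (f v - μ) ^ 2) fun v => by positivity
  have h5 := exb_shift b n 2 (fun v => (f v - μ) ^ 2) fun v => by positivity
  have h6 : (range n).filter (fun v => v < b) = range b := by
    ext v
    simp only [mem_filter, mem_range]
    omega
  rw [h6] at h3
  have h7 : ∑ v ∈ range n, ∑ i : EL, (f v - f (ex n i v)) ^ 2 =
      ∑ v ∈ range n, A v + ∑ v ∈ range n, B v := by
    rw [← sum_add_distrib]
    exact sum_congr rfl fun v _ => Fintype.sum_sum_type _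
  have h8 : 0 ≤ ∑ v ∈ range n, B v := sum_nonneg fun v _ => hB0 v
  rw [h7]
  linarith

theorem exb_list {o : List ℕ} (ho : o.Nodup) (g : ℕ → ℝ) :
    ∑ v ∈ o.toFinset, g v = ∑ k ∈ range o.length, g (o.getD k 0) := by
  refine sum_nbij' (fun v => o.idxOf v) (fun k => o.getD k 0) ?_ ?_ ?_ ?_ ?_
  · intro v hv
    exact mem_range.2 (List.idxOf_lt_length_iff.2 (List.mem_toFinset.1 hv))
  · intro k hk
    rw [List.getD_eq_getElem _ _ (mem_range.1 hk)]
    exact List.mem_toFinset.2 (List.getElem_mem _)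
  · intro v hv
    have h := List.idxOf_lt_length_iff.2 (List.mem_toFinset.1 hv)
    simp only [List.getD_eq_getElem _ _ h, List.getElem_idxOf]
  · intro k hk
    simp only [List.getD_eq_getElem _ _ (mem_range.1 hk), ho.idxOf_getElem]
  · intro v hv
    have h := List.idxOf_lt_length_iff.2 (List.mem_toFinset.1 hv)
    simp only [List.getD_eq_getElem _ _ h, List.getElem_idxOf]

theorem cl_poin {o : List ℕ} (ho : o.Nodup) (f : ℕ → ℝ) : ∃ μ : ℝ,
    ∑ v ∈ o.toFinset, (f v - μ) ^ 2 ≤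
      25 * ∑ v ∈ o.toFinset, ∑ i : EL, (f v - f (cl o i v)) ^ 2 := by
  obtain ⟨μ, hμ⟩ := ex_poin o.length fun k => f (o.getD k 0)
  refine ⟨μ, ?_⟩
  rw [exb_list ho, exb_list ho]
  refine hμ.trans (le_of_eq ?_)
  congr 1
  refine sum_congr rfl fun k hk => sum_congr rfl fun i _ => ?_
  have hk' := mem_range.1 hk
  rw [List.getD_eq_getElem _ _ hk', cl_getElem ho hk', List.getD_eq_getElem _ _ (ex_lt hk' i)]

end Vale.Agent.P325.Pre
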