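import Vale.Agent.P325.PreExA

/-!
PRE, the letters permute the vertices; completeness.

Plan.  Rotations: `omega` after `fin_cases t` (or `Fin.val_neg'`).  Cloud letters: `v ∈ occ l (nm l v)`
(`mem_occ`), `cl_mem` gives `cl .. < 4 * l.length` and `nm l (cl ..) = nm l v`, then `cl_inv`
(`occ_nodup`).  Global letters: `ex_lt`, `ex_inv`.
Completeness: `σ v r = a (nm l (4 * (v / 4) + (v + r.val) % 4))`; for `v % 4 = 0`, `v = 4 c`,
`prd_zero`, `nm_eq` give `σ v = fun r => a ((l[c]).1 r)`; otherwise `prd_ne`; `Fin.val_add`, `omega`.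
-/

namespace Vale.Agent.P325.Pre

theorem good_mem (l : List C4) {v : ℕ} (hv : v < 4 * l.length) (i : EL) :
    cl (occ l (nm l v)) i v ∈ occ l (nm l v) :=
  cl_mem (mem_occ.2 ⟨hv, rfl⟩) i

theorem nbf_lt (l : List C4) {v : ℕ} (hv : v < 4 * l.length) (i : Lt) :
    nbf l v i < 4 * l.length := by
  rcases i with t | i | i
  · simp only [nbf]; omega
  · exact (mem_occ.1 (good_mem l hv i)).1
  · exact ex_lt hv i

theorem nm_cl (l : List C4) {v : ℕ} (hv : v < 4 * l.length) (i : EL) :
    nm l (cl (occ l (nm l v)) i v) = nm l v :=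
  (mem_occ.1 (good_mem l hv i)).2

theorem nbf_inv (l : List C4) {v : ℕ} (hv : v < 4 * l.length) (i : Lt) :
    nbf l (nbf l v i) (linv i) = v := by
  rcases i with t | i | i
  · have h : (t.val + (-t).val) % 4 = 0 := by revert t; decide
    simp only [nbf, linv]
    omega
  · simp only [nbf, linv]
    rw [nm_cl l hv]
    exact cl_inv (occ_nodup _ _) (mem_occ.2 ⟨hv, rfl⟩) i
  · exact ex_inv hv i

theorem pre_complete (l : List C4) (a : ℕ → Bool) (ha : ∀ c ∈ l, sat4 a c) :
    ∃ σ : ℕ → S4, ∀ v < 4 * l.length, ∀ i : Lt,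
      rel0 (prd l v).val i (σ v) (σ (nbf l v i)) = true := by
  refine ⟨fun v r => a (nm l (4 * (v / 4) + (v + r.val) % 4)), fun v hv i => ?_⟩
  rcases i with t | i | i
  · simp only [rel0, nbf, Bool.and_eq_true]
    constructor
    · refine decide_eq_true fun r => ?_
      rw [Fin.val_add]
      congr 2
      omega
    · by_cases h : v % 4 = 0
      · obtain ⟨c, rfl⟩ : ∃ c, v = 4 * c := ⟨v / 4, by omega⟩
        have hc : c < l.length := by omega
        rw [prd_zero l hc]
        have h1 := ha _ (List.getElem_mem hc)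
        rw [sat4] at h1
        convert h1 using 3 with r
        rw [← nm_eq l hc r]
        congr 2
        omega
      · rw [prd_ne l h]
        rfl
  · simp only [rel0, nbf, decide_eq_true_eq, Fin.val_zero, Nat.add_zero, Nat.div_add_mod]
    rw [nm_cl l hv]
  · rfl

end Vale.Agent.P325.Pre
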