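import Mathlib

/-!
PRE, Hardy type inequality on `ZMod m × ZMod m` (the Fourier side of the Margulis expander).

Plan.  `a x := x.valMinAbs.natAbs`.  `wt p q := if q < p then -1/5 else if p < q then 1/6 else 0`.
* `sq_ge`: `wt p q * s^2 + wt q p * t^2 ≤ (s - t)^2` (`(6/5)s^2 - 2st + (5/6)t^2` is a square).
* Apply it to `(G k - G (S k))^2` with `p = a k.1`, `q = a (k.1 + 2 k.2)` (`S k = (k.1 + 2 k.2, k.2)`)
  and to `(G k - G (T k))^2` with `p = a k.2`, `q = a (k.2 + 2 k.1)`; reindex the terms `G (S k)^2`,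
  `G (T k)^2` by the bijections `S`, `T` (`Equiv.sum_comp`, inverse `(k.1 - 2 k.2, k.2)`).  The
  coefficient of `G k ^ 2` is
  `W k = wt (a k.1) (a (k.1 + 2 k.2)) + wt (a k.1) (a (k.1 - 2 k.2)) + wt (a k.2) (a (k.2 + 2 k.1))
   + wt (a k.2) (a (k.2 - 2 k.1))`, always `≥ -4/5`.
* `wt_int`: for integers `(x, y) ≠ 0` the same sum with `natAbs` of `x, x ± 2y, y, y ± 2x` is `≥ 3/10`
  (`unfold wt; split_ifs` and `omega` / `norm_num`).
* If `6 * a k.1 < m` and `6 * a k.2 < m`, then with `x = k.1.valMinAbs`, `y = k.2.valMinAbs`: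
  `(k.1 ± 2 k.2).valMinAbs = x ± 2 y` (`ZMod.valMinAbs_spec`: cast equal and
  `(x ± 2y) * 2 ∈ Set.Ioc (-m) m`), so `W k ≥ 3/10` for `k ≠ 0` (`ZMod.valMinAbs_eq_zero`);
  otherwise `V k.1 + V k.2 ≥ 1` and `W k + V k.1 + V k.2 ≥ 1/5`.  For `k = 0` use `G 0 = 0`.
-/

namespace Vale.Agent.P325.Pre

open Finset

/-- The weights. -/
noncomputable def hardy_wt (p q : ℕ) : ℝ := if q < p then -1 / 5 else if p < q then 1 / 6 else 0

theorem hardy_sq_ge (p q : ℕ) (s t : ℝ) :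
    hardy_wt p q * s ^ 2 + hardy_wt q p * t ^ 2 ≤ (s - t) ^ 2 := by
  unfold hardy_wt
  rcases lt_trichotomy p q with h | h | h
  · rw [if_neg h.not_gt, if_pos h, if_pos h]
    nlinarith [sq_nonneg (5 * s - 6 * t)]
  · subst h
    simp only [lt_irrefl, if_false]
    nlinarith [sq_nonneg (s - t)]
  · rw [if_pos h, if_neg h.not_gt, if_pos h]
    nlinarith [sq_nonneg (6 * s - 5 * t)]

theorem hardy_wt_ge (p q : ℕ) : -1 / 5 ≤ hardy_wt p q := by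
  unfold hardy_wt
  split_ifs <;> norm_num

theorem hardy_wt_int (x y : ℤ) (h : x ≠ 0 ∨ y ≠ 0) :
    3 / 10 ≤ hardy_wt x.natAbs (x + 2 * y).natAbs + hardy_wt x.natAbs (x - 2 * y).natAbs +
      hardy_wt y.natAbs (y + 2 * x).natAbs + hardy_wt y.natAbs (y - 2 * x).natAbs := by
  unfold hardy_wt
  split_ifs <;> first | omega | norm_num

theorem hardy_vma (m : ℕ) [NeZero m] (u : ZMod m) (z : ℤ) (hz : (z : ZMod m) = u)
    (h : 2 * z.natAbs < m) : u.valMinAbs = z := by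
  rw [ZMod.valMinAbs_spec]
  refine ⟨hz.symm, ?_⟩
  rw [Set.mem_Ioc]
  omega

/-- The coefficient of `G k ^ 2`. -/
noncomputable def hardy_W {m : ℕ} (k : ZMod m × ZMod m) : ℝ :=
  hardy_wt k.1.valMinAbs.natAbs (k.1 + 2 * k.2).valMinAbs.natAbs +
    hardy_wt k.1.valMinAbs.natAbs (k.1 - 2 * k.2).valMinAbs.natAbs +
    hardy_wt k.2.valMinAbs.natAbs (k.2 + 2 * k.1).valMinAbs.natAbs +
    hardy_wt k.2.valMinAbs.natAbs (k.2 - 2 * k.1).valMinAbs.natAbs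

theorem hardy_W_ge (m : ℕ) [NeZero m] (V : ZMod m → ℝ) (hV0 : ∀ x, 0 ≤ V x)
    (hV : ∀ x : ZMod m, m ≤ 6 * x.valMinAbs.natAbs → 1 ≤ V x) (k : ZMod m × ZMod m)
    (hk : k ≠ 0) : 1 / 5 ≤ hardy_W k + (V k.1 + V k.2) := by
  have a1 := hardy_wt_ge k.1.valMinAbs.natAbs (k.1 + 2 * k.2).valMinAbs.natAbs
  have a2 := hardy_wt_ge k.1.valMinAbs.natAbs (k.1 - 2 * k.2).valMinAbs.natAbs
  have a3 := hardy_wt_ge k.2.valMinAbs.natAbs (k.2 + 2 * k.1).valMinAbs.natAbs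
  have a4 := hardy_wt_ge k.2.valMinAbs.natAbs (k.2 - 2 * k.1).valMinAbs.natAbs
  have b1 := hV0 k.1
  have b2 := hV0 k.2
  by_cases h1 : m ≤ 6 * k.1.valMinAbs.natAbs
  · have := hV _ h1
    unfold hardy_W
    linarith
  by_cases h2 : m ≤ 6 * k.2.valMinAbs.natAbs
  · have := hV _ h2
    unfold hardy_W
    linarith
  have e1 : (k.1 + 2 * k.2).valMinAbs = k.1.valMinAbs + 2 * k.2.valMinAbs :=
    hardy_vma m _ _ (by push_cast [ZMod.coe_valMinAbs]; rfl) (by omega)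
  have e2 : (k.1 - 2 * k.2).valMinAbs = k.1.valMinAbs - 2 * k.2.valMinAbs :=
    hardy_vma m _ _ (by push_cast [ZMod.coe_valMinAbs]; rfl) (by omega)
  have e3 : (k.2 + 2 * k.1).valMinAbs = k.2.valMinAbs + 2 * k.1.valMinAbs :=
    hardy_vma m _ _ (by push_cast [ZMod.coe_valMinAbs]; rfl) (by omega)
  have e4 : (k.2 - 2 * k.1).valMinAbs = k.2.valMinAbs - 2 * k.1.valMinAbs :=
    hardy_vma m _ _ (by push_cast [ZMod.coe_valMinAbs]; rfl) (by omega)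
  have h0 : k.1.valMinAbs ≠ 0 ∨ k.2.valMinAbs ≠ 0 := by
    rw [ne_eq, ne_eq, ZMod.valMinAbs_eq_zero, ZMod.valMinAbs_eq_zero, ← not_and_or]
    rintro ⟨h, h'⟩
    exact hk (Prod.ext h h')
  have := hardy_wt_int _ _ h0
  unfold hardy_W
  rw [e1, e2, e3, e4]
  linarith

/-- The shear in the first coordinate. -/
def hardy_S (m : ℕ) : ZMod m × ZMod m ≃ ZMod m × ZMod m where
  toFun k := (k.1 + 2 * k.2, k.2)
  invFun k := (k.1 - 2 * k.2, k.2)
  left_inv k := by simp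
  right_inv k := by simp

/-- The shear in the second coordinate. -/
def hardy_T (m : ℕ) : ZMod m × ZMod m ≃ ZMod m × ZMod m where
  toFun k := (k.1, k.2 + 2 * k.1)
  invFun k := (k.1, k.2 - 2 * k.1)
  left_inv k := by simp
  right_inv k := by simp

theorem hardy (m : ℕ) [NeZero m] (G : ZMod m × ZMod m → ℝ) (h0 : G 0 = 0) (V : ZMod m → ℝ)
    (hV0 : ∀ x, 0 ≤ V x) (hV : ∀ x : ZMod m, m ≤ 6 * x.valMinAbs.natAbs → 1 ≤ V x) :
    ∑ k, G k ^ 2 ≤ 5 * ∑ k : ZMod m × ZMod m, ((G k - G (k.1 + 2 * k.2, k.2)) ^ 2 +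
      (G k - G (k.1, k.2 + 2 * k.1)) ^ 2 + (V k.1 + V k.2) * G k ^ 2) := by
  have e1 : ∑ k : ZMod m × ZMod m, hardy_wt (k.1 + 2 * k.2).valMinAbs.natAbs
      k.1.valMinAbs.natAbs * G (k.1 + 2 * k.2, k.2) ^ 2 =
      ∑ k : ZMod m × ZMod m, hardy_wt k.1.valMinAbs.natAbs
        (k.1 - 2 * k.2).valMinAbs.natAbs * G k ^ 2 := by
    rw [← Equiv.sum_comp (hardy_S m) fun k => hardy_wt k.1.valMinAbs.natAbs
        (k.1 - 2 * k.2).valMinAbs.natAbs * G k ^ 2]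
    simp [hardy_S]
  have e2 : ∑ k : ZMod m × ZMod m, hardy_wt (k.2 + 2 * k.1).valMinAbs.natAbs
      k.2.valMinAbs.natAbs * G (k.1, k.2 + 2 * k.1) ^ 2 =
      ∑ k : ZMod m × ZMod m, hardy_wt k.2.valMinAbs.natAbs
        (k.2 - 2 * k.1).valMinAbs.natAbs * G k ^ 2 := by
    rw [← Equiv.sum_comp (hardy_T m) fun k => hardy_wt k.2.valMinAbs.natAbs
        (k.2 - 2 * k.1).valMinAbs.natAbs * G k ^ 2]
    simp [hardy_T]
  have h1 : ∑ k, G k ^ 2 ≤ 5 * ∑ k : ZMod m × ZMod m, (hardy_W k + (V k.1 + V k.2)) * G k ^ 2 := by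
    rw [mul_sum]
    refine sum_le_sum fun k _ => ?_
    by_cases hk : k = 0
    · simp [hk, h0]
    · have := hardy_W_ge m V hV0 hV k hk
      nlinarith [sq_nonneg (G k)]
  refine h1.trans (mul_le_mul_of_nonneg_left ?_ (by norm_num))
  have h2 : ∑ k : ZMod m × ZMod m, (hardy_W k + (V k.1 + V k.2)) * G k ^ 2 =
      ∑ k : ZMod m × ZMod m, (hardy_wt k.1.valMinAbs.natAbs (k.1 + 2 * k.2).valMinAbs.natAbs *
        G k ^ 2 + hardy_wt (k.1 + 2 * k.2).valMinAbs.natAbs k.1.valMinAbs.natAbs *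
        G (k.1 + 2 * k.2, k.2) ^ 2 + (hardy_wt k.2.valMinAbs.natAbs
        (k.2 + 2 * k.1).valMinAbs.natAbs * G k ^ 2 + hardy_wt (k.2 + 2 * k.1).valMinAbs.natAbs
        k.2.valMinAbs.natAbs * G (k.1, k.2 + 2 * k.1) ^ 2) + (V k.1 + V k.2) * G k ^ 2) := by
    simp only [sum_add_distrib, e1, e2, hardy_W, add_mul]
    ring
  rw [h2]
  refine sum_le_sum fun k _ => ?_
  have := hardy_sq_ge k.1.valMinAbs.natAbs (k.1 + 2 * k.2).valMinAbs.natAbs (G k)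
    (G (k.1 + 2 * k.2, k.2))
  have := hardy_sq_ge k.2.valMinAbs.natAbs (k.2 + 2 * k.1).valMinAbs.natAbs (G k)
    (G (k.1, k.2 + 2 * k.1))
  linarith

end Vale.Agent.P325.Pre
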