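import Vale.Agent.P325.PreGood
import Vale.Agent.P325.PreExB

/-!
PRE, soundness.

Plan.  `f v = if σ v 0 then 1 else 0`; for every `x` choose `μ x` by `cl_poin (occ_nodup l x) f` and
put `a x = decide (1/2 ≤ μ x)`.  If `σ v 0 ≠ a (nm l v)` then `(f v - μ (nm l v))^2 ≥ 1/4`, and
`(f v - f w)^2 = ind (σ v 0 ≠ σ w 0)`.  Split `range (4 m)` into the fibres of `nm l`
(`Finset.sum_fiberwise_of_maps_to` over the image; the fibre of `x` is `(occ l x).toFinset`):
`∑ v, ind (σ v 0 ≠ a (nm l v)) ≤ 100 * ∑ v, ∑ i : EL, ind (cloud edge (v, i) violated)`.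
For `c < m` with `¬ sat4 a l[c]`: either a rotation edge `(4 c, inl t)` is violated, or `P (σ (4c))`
holds and `σ (4c + t) 0 = σ (4c) t` for all `t`, and then `σ (4c + t) 0 ≠ a (nm l (4c + t))` for some `t`
(`nm_eq`, `prd_zero`).  So `ind (¬ sat4 a l[c]) ≤ ∑ t : Fin 4, (rot (4c + t) + mis (4c + t))`, and
`∑ c < m, ∑ t : Fin 4, g (4 c + t) = ∑ v < 4 m, g v` (induction on `m`, `Finset.sum_range_succ`).
`(l.map g).sum = ∑ c ∈ range l.length, g (l.getD c dflt)` (induction / `List.sum_ofFn`).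
-/

namespace Vale.Agent.P325.Pre

open Finset

theorem sound_ind_nonneg (p : Prop) : 0 ≤ ind p := by
  unfold ind
  split_ifs <;> norm_num

theorem sound_ind_le_one (p : Prop) : ind p ≤ 1 := by
  unfold ind
  split_ifs <;> norm_num

theorem sound_ind_true {p : Prop} (h : p) : ind p = 1 := by
  unfold ind
  rw [if_pos h]

theorem sound_ind_false {p : Prop} (h : ¬ p) : ind p = 0 := by
  unfold ind
  rw [if_neg h]

theorem sound_sum_four (g : ℕ → ℝ) (m : ℕ) :
    ∑ c ∈ range m, ∑ t : Fin 4, g (4 * c + t.val) = ∑ v ∈ range (4 * m), g v := by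
  induction m with
  | zero => simp
  | succ m ih =>
    rw [sum_range_succ, ih, show 4 * (m + 1) = 4 * m + 1 + 1 + 1 + 1 by ring, sum_range_succ,
      sum_range_succ, sum_range_succ, sum_range_succ, Fin.sum_univ_four]
    have h0 : ((0 : Fin 4) : ℕ) = 0 := rfl
    have h1 : ((1 : Fin 4) : ℕ) = 1 := rfl
    have h2 : ((2 : Fin 4) : ℕ) = 2 := rfl
    have h3 : ((3 : Fin 4) : ℕ) = 3 := rfl
    rw [h0, h1, h2, h3, Nat.add_zero]
    ring

theorem sound_map_sum {α : Type} (l : List α) (g : α → ℝ) (d : α) :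
    (l.map g).sum = ∑ c ∈ range l.length, g (l.getD c d) := by
  induction l with
  | nil => simp
  | cons x l ih =>
    rw [List.map_cons, List.sum_cons, List.length_cons, sum_range_succ', ih, add_comm]
    simp

/-- The real valued bit. -/
noncomputable def soundBit (b : Bool) : ℝ := if b = true then 1 else 0

theorem sound_bit_sq (b b' : Bool) :
    (soundBit b - soundBit b') ^ 2 = ind (decide (b = b') = false) := by
  cases b <;> cases b' <;> simp [soundBit, ind]

theorem sound_mis (b : Bool) (μ : ℝ) :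
    ind (b ≠ decide (1 / 2 ≤ μ)) ≤ 4 * (soundBit b - μ) ^ 2 := by
  by_cases h : b ≠ decide (1 / 2 ≤ μ)
  · rw [sound_ind_true h]
    by_cases hμ : 1 / 2 ≤ μ
    · have hb : b = false := by
        cases b
        · rfl
        · exact absurd (by simp only [hμ, decide_true]) h
      rw [hb]
      have : soundBit false = 0 := by simp [soundBit]
      rw [this]
      nlinarith
    · have hb : b = true := by
        cases b
        · exact absurd (by simp only [hμ, decide_false]) h
        · rfl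
      rw [hb]
      have : soundBit true = 1 := by simp [soundBit]
      rw [this]
      push Not at hμ
      nlinarith
  · rw [sound_ind_false h]
    positivity

theorem sound_fiber (l : List C4) (g : ℕ → ℝ) :
    ∑ v ∈ range (4 * l.length), g v =
      ∑ x ∈ (range (4 * l.length)).image (nm l), ∑ v ∈ (occ l x).toFinset, g v := by
  rw [← sum_fiberwise_of_maps_to (s := range (4 * l.length))
    (t := (range (4 * l.length)).image (nm l)) (g := nm l) (fun v hv => mem_image_of_mem _ hv) g]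
  refine sum_congr rfl fun x _ => sum_congr ?_ fun _ _ => rfl
  ext w
  simp only [mem_filter, mem_range, List.mem_toFinset, mem_occ]

theorem sound_cloud (l : List C4) (σ : ℕ → S4) : ∃ a : ℕ → Bool,
    ∑ v ∈ range (4 * l.length), ind (σ v 0 ≠ a (nm l v)) ≤
      100 * ∑ v ∈ range (4 * l.length), ∑ i : EL,
        ind (decide (σ v 0 = σ (cl (occ l (nm l v)) i v) 0) = false) := by
  choose μ hμ using fun x => cl_poin (occ_nodup l x) (fun v => soundBit (σ v 0))
  refine ⟨fun x => decide (1 / 2 ≤ μ x), ?_⟩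
  rw [sound_fiber l, sound_fiber l, mul_sum]
  refine sum_le_sum fun x _ => ?_
  have h1 : ∑ v ∈ (occ l x).toFinset, ind (σ v 0 ≠ decide (1 / 2 ≤ μ (nm l v))) ≤
      ∑ v ∈ (occ l x).toFinset, 4 * (soundBit (σ v 0) - μ x) ^ 2 := by
    refine sum_le_sum fun v hv => ?_
    rw [(mem_occ.1 (List.mem_toFinset.1 hv)).2]
    exact sound_mis _ _
  have h2 : ∑ v ∈ (occ l x).toFinset, ∑ i : EL,
      (soundBit (σ v 0) - soundBit (σ (cl (occ l x) i v) 0)) ^ 2 =
      ∑ v ∈ (occ l x).toFinset, ∑ i : EL,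
        ind (decide (σ v 0 = σ (cl (occ l (nm l v)) i v) 0) = false) := by
    refine sum_congr rfl fun v hv => sum_congr rfl fun i _ => ?_
    rw [(mem_occ.1 (List.mem_toFinset.1 hv)).2]
    exact sound_bit_sq _ _
  have h3 := hμ x
  rw [h2] at h3
  rw [← mul_sum] at h1
  linarith

theorem sound_clause (l : List C4) (σ : ℕ → S4) (a : ℕ → Bool) {c : ℕ} (hc : c < l.length) :
    ind (¬ sat4 a (l.getD c dflt)) ≤ ∑ t : Fin 4,
      ((∑ r : Fin 4, ind (rel0 (prd l (4 * c + t.val)).val (Sum.inl r) (σ (4 * c + t.val))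
          (σ (nbf l (4 * c + t.val) (Sum.inl r))) = false)) +
        ind (σ (4 * c + t.val) 0 ≠ a (nm l (4 * c + t.val)))) := by
  have hnn : ∀ t : Fin 4, 0 ≤ (∑ r : Fin 4, ind (rel0 (prd l (4 * c + t.val)).val (Sum.inl r)
      (σ (4 * c + t.val)) (σ (nbf l (4 * c + t.val) (Sum.inl r))) = false)) :=
    fun t => sum_nonneg fun _ _ => sound_ind_nonneg _
  by_cases hs : sat4 a (l.getD c dflt)
  · rw [sound_ind_false (not_not.2 hs)]
    exact sum_nonneg fun t _ => add_nonneg (hnn t) (sound_ind_nonneg _)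
  rw [sound_ind_true hs]
  by_cases hm : ∃ t : Fin 4, σ (4 * c + t.val) 0 ≠ a (nm l (4 * c + t.val))
  · obtain ⟨t, ht⟩ := hm
    refine le_trans ?_ (single_le_sum
      (fun t _ => add_nonneg (hnn t) (sound_ind_nonneg _)) (mem_univ t))
    rw [sound_ind_true ht]
    linarith [hnn t]
  push Not at hm
  by_cases hr : ∃ r : Fin 4, rel0 (prd l (4 * c)).val (Sum.inl r) (σ (4 * c))
      (σ (nbf l (4 * c) (Sum.inl r))) = false
  · obtain ⟨r, hr⟩ := hr
    refine le_trans ?_ (single_le_sum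
      (fun t _ => add_nonneg (hnn t) (sound_ind_nonneg _)) (mem_univ (0 : Fin 4)))
    have h0 : 4 * c + ((0 : Fin 4) : ℕ) = 4 * c := rfl
    rw [h0]
    have h1 := single_le_sum (f := fun r : Fin 4 => ind (rel0 (prd l (4 * c)).val (Sum.inl r)
      (σ (4 * c)) (σ (nbf l (4 * c) (Sum.inl r))) = false))
      (fun _ _ => sound_ind_nonneg _) (mem_univ r)
    rw [sound_ind_true hr] at h1
    linarith [sound_ind_nonneg (σ (4 * c) 0 ≠ a (nm l (4 * c)))]
  exfalso
  push Not at hr
  apply hs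
  rw [List.getD_eq_getElem _ _ hc]
  have hr' : ∀ r : Fin 4, (∀ s, σ (4 * c + r.val) s = σ (4 * c) (r + s)) ∧
      (l[c]).2.val.1 (σ (4 * c)) = true := by
    intro r
    have h := hr r
    have hn : nbf l (4 * c) (Sum.inl r) = 4 * c + r.val := by
      have := r.2
      simp only [nbf]
      omega
    rw [hn, prd_zero l hc] at h
    simpa [rel0] using h
  have he : (fun j => a ((l[c]).1 j)) = σ (4 * c) := by
    funext j
    rw [← nm_eq l hc j, ← hm j, (hr' j).1 0, add_zero]
  unfold sat4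
  rw [he]
  exact (hr' 0).2

theorem pre_sound (l : List C4) (σ : ℕ → S4) : ∃ a : ℕ → Bool,
    (l.map fun c => ind (¬ sat4 a c)).sum ≤ 100 * ∑ v ∈ range (4 * l.length), ∑ i : Lt,
      ind (rel0 (prd l v).val i (σ v) (σ (nbf l v i)) = false) := by
  obtain ⟨a, ha⟩ := sound_cloud l σ
  refine ⟨a, ?_⟩
  rw [sound_map_sum l _ dflt]
  have h1 := sum_le_sum (s := range l.length) fun c hc => sound_clause l σ a (mem_range.1 hc)
  rw [sound_sum_four (fun v => (∑ r : Fin 4, ind (rel0 (prd l v).val (Sum.inl r) (σ v)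
    (σ (nbf l v (Sum.inl r))) = false)) + ind (σ v 0 ≠ a (nm l v))), sum_add_distrib] at h1
  have h2 : ∑ v ∈ range (4 * l.length), ((∑ r : Fin 4, ind (rel0 (prd l v).val (Sum.inl r) (σ v)
      (σ (nbf l v (Sum.inl r))) = false)) + ∑ i : EL,
        ind (decide (σ v 0 = σ (cl (occ l (nm l v)) i v) 0) = false)) ≤
      ∑ v ∈ range (4 * l.length), ∑ i : Lt,
        ind (rel0 (prd l v).val i (σ v) (σ (nbf l v i)) = false) := by
    refine sum_le_sum fun v _ => ?_
    rw [Fintype.sum_sum_type (α₁ := Fin 4), Fintype.sum_sum_type (α₁ := EL) (α₂ := EL)]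
    have h3 : 0 ≤ ∑ i : EL, ind (rel0 (prd l v).val (Sum.inr (Sum.inr i)) (σ v)
        (σ (nbf l v (Sum.inr (Sum.inr i)))) = false) := sum_nonneg fun _ _ => sound_ind_nonneg _
    have h4 : ∑ i : EL, ind (decide (σ v 0 = σ (cl (occ l (nm l v)) i v) 0) = false) =
        ∑ i : EL, ind (rel0 (prd l v).val (Sum.inr (Sum.inl i)) (σ v)
          (σ (nbf l v (Sum.inr (Sum.inl i)))) = false) := rfl
    linarith
  rw [sum_add_distrib] at h2
  have h5 : 0 ≤ ∑ v ∈ range (4 * l.length), ∑ r : Fin 4, ind (rel0 (prd l v).val (Sum.inl r) (σ v)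
      (σ (nbf l v (Sum.inl r))) = false) :=
    sum_nonneg fun _ _ => sum_nonneg fun _ _ => sound_ind_nonneg _
  linarith

end Vale.Agent.P325.Pre
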