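import Vale.Agent.P325.RepStep

/-!
P325 part REP: parallel repetition of a projection game mixed with the trivial game.
-/

namespace Vale.Agent.P325

open Finset
open scoped BigOperators

theorem rep_value {X Q Y : Type} [Fintype X] [Fintype Y] (κ : X → X → ℝ)
    (hcol : ∀ x, ∑ x₀, κ x₀ x = 1) (q : X → Q) (hq : ∀ x₀ x, κ x₀ x ≠ 0 → q x = q x₀)
    (ans : X → Y) (G : Q → Y → ℝ) (hG : ∀ q, ∑ b, G q b ^ 2 ≤ 1) :
    (∑ x, G (q x) (ans x)) ^ 2 ≤
      Fintype.card X * ∑ x₀, ∑ b, (∑ x, κ x₀ x * ind (ans x = b)) ^ 2 := by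
  have h1 : ∑ x, G (q x) (ans x) =
      ∑ z : X × Y, G (q z.1) z.2 * ∑ x, κ z.1 x * ind (ans x = z.2) := by
    rw [Fintype.sum_prod_type]
    calc ∑ x, G (q x) (ans x) = ∑ x, ∑ x₀, κ x₀ x * G (q x) (ans x) := by
          simp only [← sum_mul, hcol, one_mul]
      _ = ∑ x₀, ∑ x, κ x₀ x * G (q x₀) (ans x) := by
          rw [sum_comm]
          refine sum_congr rfl fun x₀ _ => sum_congr rfl fun x _ => ?_
          by_cases h : κ x₀ x = 0
          · simp [h]
          · rw [hq _ _ h]
      _ = _ := by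
          refine sum_congr rfl fun x₀ _ => ?_
          simp only [mul_sum]
          rw [sum_comm]
          refine sum_congr rfl fun x _ => ?_
          rw [← rep_sum_ind (ans x) fun b => κ x₀ x * G (q x₀) b]
          refine sum_congr rfl fun b _ => ?_
          ring
  rw [h1]
  refine (sum_mul_sq_le_sq_mul_sq _ _ _).trans ?_
  rw [Fintype.sum_prod_type, Fintype.sum_prod_type]
  refine mul_le_mul_of_nonneg_right ?_
    (sum_nonneg fun _ _ => sum_nonneg fun _ _ => sq_nonneg _)
  calc ∑ x₀, ∑ b, G (q x₀) b ^ 2 ≤ ∑ _x₀ : X, (1 : ℝ) := sum_le_sum fun x₀ _ => hG _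
    _ = _ := by simp

section mix

variable {E V U A B : Type} [Fintype E] [Fintype A] [Fintype B]

/-- conditional law for the mixed game -/
noncomputable def repM (u : E → U) (x y : E × Bool) : ℝ :=
  if x.2 then (if y.2 then repK u x.1 y.1 else 0)
  else (if y.2 then 0 else (Fintype.card E : ℝ)⁻¹)

theorem repM_nonneg (u : E → U) (x y : E × Bool) : 0 ≤ repM u x y := by
  unfold repM
  split_ifs
  · exact repK_nonneg _ _ _
  · exact le_rfl
  · exact le_rfl
  · positivity

theorem repM_col (u : E → U) (y : E × Bool) : ∑ x, repM u x y = 1 := by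
  obtain ⟨e, m⟩ := y
  have hN : (Fintype.card E : ℝ) ≠ 0 := by
    have : Nonempty E := ⟨e⟩
    exact_mod_cast Fintype.card_ne_zero
  cases m
  · simp [repM, Fintype.sum_prod_type, hN]
  · simp [repM, Fintype.sum_prod_type, repK_col]

theorem repM_eq {u : E → U} {x y : E × Bool} (h : repM u x y ≠ 0) :
    (if y.2 then some (u y.1) else none) = if x.2 then some (u x.1) else none := by
  obtain ⟨e, m⟩ := y
  obtain ⟨e₀, m₀⟩ := x
  cases m <;> cases m₀ <;> simp [repM] at h ⊢
  exact repK_eq h

theorem repM_P [Nonempty E] [Nonempty A] [Nonempty B] {v : E → V} {u : E → U} {π : E → A → B}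
    {γ : ℝ} (h0 : 0 ≤ γ) (h1 : γ ≤ 1)
    (hs : ∀ (f : V → A) (g : U → B),
      ∑ e, ind (π e (f (v e)) = g (u e)) ≤ (1 - γ) * Fintype.card E) :
    RepP (fun (w : (E × Bool) × Option B) (y : E × Bool) (a : A) =>
      repM u w.1 y * ind ((if y.2 then some (π y.1 a) else none) = w.2)) (fun y => v y.1)
      ((1 - γ ^ 2 / 32) ^ 2) := by
  intro h hh
  have hN : (Fintype.card E : ℝ) ≠ 0 := by exact_mod_cast Fintype.card_ne_zero
  have key := rep_step h0 h1 hs hh
  have e1 : ∑ w : (E × Bool) × Option B, (∑ y : E × Bool, ∑ a,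
      repM u w.1 y * ind ((if y.2 then some (π y.1 a) else none) = w.2) * h (v y.1) a) ^ 2 =
      ∑ e₀, ∑ b, repG v u π h e₀ b ^ 2 + (∑ e, ∑ a, h (v e) a) ^ 2 / Fintype.card E := by
    have a1 : ind True = 1 := rep_ind_true trivial
    have a2 : ∀ b : B, ind (none = some b) = 0 := fun b => rep_ind_false (by simp)
    have a3 : ∀ b : B, ind (some b = none) = 0 := fun b => rep_ind_false (by simp)
    simp only [Fintype.sum_prod_type, Fintype.sum_bool, Fintype.sum_option, repM, if_true,
      Bool.false_eq_true, if_false, zero_mul, sum_const_zero, add_zero, zero_add, a1, a2, a3,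
      mul_zero, mul_one, Option.some.injEq, sum_add_distrib, ← mul_sum, repG, ne_eq,
      OfNat.ofNat_ne_zero, not_false_eq_true, zero_pow, sum_const, card_univ, nsmul_eq_mul]
    rw [add_comm]
    congr 1
    field_simp
  rw [e1]
  refine key.trans ?_
  have h2 : 0 ≤ ∑ e, (∑ a, h (v e) a) ^ 2 := sum_nonneg fun _ _ => sq_nonneg _
  simp only [Fintype.sum_prod_type, Fintype.sum_bool, sum_add_distrib]
  nlinarith [mul_nonneg (sq_nonneg (γ ^ 2)) h2]

end mix

theorem rep_prod_ind {I B : Type} [Fintype I] (a b : I → B) :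
    ∏ i, ind (a i = b i) = ind (a = b) := by
  by_cases h : a = b
  · subst h
    simp [rep_ind_true]
  · rw [rep_ind_false h]
    obtain ⟨i, hi⟩ := Function.ne_iff.1 h
    exact prod_eq_zero (mem_univ i) (rep_ind_false hi)

theorem rep : RepStmt := by
  intro E V U A B I _ _ _ _ _ _ _ _ v u π γ h0 h1 hs F G hG
  have hN : (0 : ℝ) < Fintype.card E := by exact_mod_cast Fintype.card_pos
  have hs' : ∀ (f : V → A) (g : U → B),
      ∑ e, ind (π e (f (v e)) = g (u e)) ≤ (1 - γ) * Fintype.card E := by
    intro f g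
    have := hs f g
    rwa [Fintype.expect_eq_sum_div_card, div_le_iff₀ hN] at this
  have hP := (repM_P h0 h1 hs').pi
    (fun w y a => mul_nonneg (repM_nonneg _ _ _) (rep_ind_nonneg _)) (sq_nonneg _) I
    (fun vs as => ind (F vs = as)) fun _ _ => rep_ind_nonneg _
  let q : (I → E × Bool) → I → Option U := fun x i => if (x i).2 then some (u (x i).1) else none
  let ans : (I → E × Bool) → I → Option B := fun x i =>
    if (x i).2 then some (π (x i).1 (F (fun j => v (x j).1) i)) else none
  have hV := rep_value (fun x₀ x : I → E × Bool => ∏ i, repM u (x₀ i) (x i))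
    (fun x => by
      rw [← Fintype.piFinset_univ, ← prod_univ_sum (fun _ => univ) fun i y => repM u y (x i)]
      simp [repM_col])
    q (fun x₀ x h => funext fun i => repM_eq (prod_ne_zero_iff.1 h i (mem_univ i))) ans G hG
  have e1 : ∀ vs : I → V, ∑ as, ind (F vs = as) = 1 := fun vs => by
    simpa using rep_sum_ind (F vs) fun _ => 1
  simp only [e1, one_pow, sum_const, card_univ, nsmul_eq_mul, mul_one] at hP
  rw [← (Equiv.arrowProdEquivProdArrow I (fun _ => E × Bool) fun _ => Option B).symm.sum_comp,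
    Fintype.sum_prod_type] at hP
  have e2 : ∀ (x₀ : I → E × Bool) (b : I → Option B) (x : I → E × Bool),
      ∑ as : I → A, (∏ i, repM u (x₀ i) (x i) *
        ind ((if (x i).2 then some (π (x i).1 (as i)) else none) = b i)) *
        ind (F (fun i => v (x i).1) = as) = (∏ i, repM u (x₀ i) (x i)) * ind (ans x = b) := by
    intro x₀ b x
    simp only [mul_comm _ (ind (F _ = _))]
    rw [rep_sum_ind (F fun i => v (x i).1) fun as : I → A => ∏ i, repM u (x₀ i) (x i) *
        ind ((if (x i).2 then some (π (x i).1 (as i)) else none) = b i), prod_mul_distrib,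
      rep_prod_ind]
  simp only [Equiv.arrowProdEquivProdArrow_symm_apply, e2] at hP
  have hX : (0 : ℝ) < Fintype.card (I → E × Bool) := by exact_mod_cast Fintype.card_pos
  have hc : 0 ≤ (1 - γ ^ 2 / 32) ^ Fintype.card I := pow_nonneg (by nlinarith) _
  have h3 : (∑ x, G (q x) (ans x)) ≤
      (1 - γ ^ 2 / 32) ^ Fintype.card I * Fintype.card (I → E × Bool) := by
    refine le_of_sq_le_sq ?_ (mul_nonneg hc hX.le)
    refine hV.trans ((mul_le_mul_of_nonneg_left hP hX.le).trans_eq ?_)
    rw [← pow_mul, mul_comm 2, pow_mul]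
    ring
  rw [← expect_product', univ_product_univ,
    ← expect_equiv (s := univ) (Equiv.arrowProdEquivProdArrow I (fun _ => E) fun _ => Bool)
      (f := fun x => G (q x) (ans x)) (by simp) fun x _ => rfl,
    Fintype.expect_eq_sum_div_card, div_le_iff₀ hX]
  exact h3

end Vale.Agent.P325
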