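import Vale.Agent.P325.PTF
import Vale.Agent.P325.Rep

/-!
P325 part REP: label cover from the PCP theorem and parallel repetition.
-/

namespace Vale.Agent.P325

open Vale.Agent.Lib.H23 Finset
open scoped BigOperators

/-- repair an assignment that does not satisfy the predicate -/
noncomputable def lcFix (P : P4) (β : S4) : S4 := if P.1 β = true then β else P.2.choose

theorem lcFix_sat (P : P4) (β : S4) : P.1 (lcFix P β) = true := by
  unfold lcFix
  split_ifs with h
  · exact h
  · exact P.2.choose_spec

theorem lcFix_of_sat {P : P4} {β : S4} (h : P.1 β = true) : lcFix P β = β := if_pos h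

/-- one constraint of the repeated game -/
noncomputable def lcG (n : ℕ) (t : Fin n → C4) (ω : (Fin n → Fin 4) × (Fin n → Bool)) :
    CP (Fin n → S4) (Fin n → Option Bool) :=
  (![natI fun p : Fin n × Fin 4 => (t p.1).1 p.2,
      natI fun i : Fin n => if ω.2 i then (t i).1 (ω.1 i) + 1 else 0],
    ⟨fun β i => if ω.2 i then some (lcFix (t i).2.val (β i) (ω.1 i)) else none⟩)

theorem pt_lcG (n : ℕ) (ω : (Fin n → Fin 4) × (Fin n → Bool)) :
    PT fun p : CNF × (Fin n → C4) => lcG n p.2 ω := by
  have ht : ∀ i, PT fun p : CNF × (Fin n → C4) => p.2 i := fun i => pt_apply PT.snd' i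
  refine PT.pair (pt_vec2 (pt_natI fun q => pt_apply (ht q.1).fst q.2) (pt_natI fun i => ?_))
    (pt_mkF (fun (P : Fin n → P4) (β : Fin n → S4) (i : Fin n) =>
      if ω.2 i then some (lcFix (P i) (β i) (ω.1 i)) else none) fun i => (ht i).snd)
  cases ω.2 i
  · exact PT.const 0
  · exact PT.add (pt_apply (ht i).fst (ω.1 i)) (PT.const 1)

theorem lc_value {l : List C4} {γ : ℝ} (h : ∀ a, γ ≤ avg l fun c => ind (¬ sat4 a c))
    (f : (Fin 4 → ℕ) → S4) (g : ℕ → Bool) (hl : l ≠ []) :
    (𝔼 e : Fin l.length × Fin 4,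
      ind (lcFix (l.get e.1).2.val (f (l.get e.1).1) e.2 = g ((l.get e.1).1 e.2))) ≤ 1 - γ / 4 := by
  have : Nonempty (Fin l.length) := ⟨⟨0, List.length_pos_iff.2 hl⟩⟩
  have h1 := h g
  rw [avg_eq_expect] at h1
  rw [← univ_product_univ, expect_product]
  have h2 : ∀ c : C4, (𝔼 j : Fin 4, ind (lcFix c.2.val (f c.1) j = g (c.1 j))) ≤
      1 - ind (¬ sat4 g c) / 4 := by
    intro c
    rw [Fintype.expect_eq_sum_div_card, Fintype.card_fin]
    by_cases hs : sat4 g c
    · rw [ind_of_not (not_not.2 hs), Fin.sum_univ_four]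
      have := fun j => ind_le_one (lcFix c.2.val (f c.1) j = g (c.1 j))
      push_cast
      linarith [this 0, this 1, this 2, this 3]
    · rw [ind_of hs]
      have hne : lcFix c.2.val (f c.1) ≠ fun j => g (c.1 j) := by
        intro he
        apply hs
        rw [sat4, ← he]
        exact lcFix_sat _ _
      obtain ⟨j, hj⟩ := Function.ne_iff.1 hne
      rw [← add_sum_erase _ _ (mem_univ j), ind_of_not hj]
      have h3 := sum_le_card_nsmul (univ.erase j)
        (fun j => ind (lcFix c.2.val (f c.1) j = g (c.1 j))) 1 fun _ _ => ind_le_one _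
      rw [card_erase_of_mem (mem_univ j)] at h3
      simp only [card_univ, Fintype.card_fin, nsmul_eq_mul] at h3
      push_cast at h3 ⊢
      linarith
  refine (expect_le_expect fun i _ => h2 (l.get i)).trans ?_
  rw [expect_sub_distrib, expect_const univ_nonempty, ← expect_div]
  linarith

theorem lc : RepStmt → PCPStmt → LCStmt := by
  rintro hrep ⟨γ₀, hγ₀, f, hf, hpcp⟩ δ hδ
  set γ := min (γ₀ / 4) 1 with hγ
  have g0 : 0 < γ := lt_min (by positivity) one_pos
  have g1 : γ ≤ 1 := min_le_right _ _
  obtain ⟨n, hn⟩ := exists_pow_lt_of_lt_one hδ (show 1 - γ ^ 2 / 32 < 1 by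
    have : 0 < γ ^ 2 := by positivity
    linarith)
  refine ⟨Fin n → S4, Fin n → Option Bool, inferInstance, inferInstance, inferInstance,
    inferInstance, inferInstance, inferInstance, fun φ => locRed n (f φ) (lcG n),
    pt_locRed (g := fun _ => lcG n) n hf (pt_lcG n), fun φ => ⟨locRed_ne_nil n (hpcp φ).1 _, ?_, ?_⟩⟩
  · intro hs
    obtain ⟨a, ha⟩ := (hpcp φ).2.1 hs
    refine ⟨fun x i j => a (Function.invFun (natI (ι := Fin n × Fin 4)) x (i, j)),
      fun y i => if Function.invFun (natI (ι := Fin n)) y i = 0 then none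
        else some (a (Function.invFun (natI (ι := Fin n)) y i - 1)), fun c hc => ?_⟩
    obtain ⟨t, ht, ω, rfl⟩ := mem_locRed.1 hc
    funext i
    simp only [lcG, Matrix.cons_val_zero, Matrix.cons_val_one,
      Function.leftInverse_invFun natI_injective _]
    cases ω.2 i
    · simp
    · rw [lcFix_of_sat (ha _ (ht i))]
      simp
  · intro hs F G
    have hne := (hpcp φ).1
    have : Nonempty (Fin (f φ).length) := ⟨⟨0, List.length_pos_iff.2 hne⟩⟩
    have key := hrep (Fin (f φ).length × Fin 4) (Fin 4 → ℕ) ℕ S4 Bool (Fin n)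
      (fun e => ((f φ).get e.1).1) (fun e => ((f φ).get e.1).1 e.2)
      (fun e β => lcFix ((f φ).get e.1).2.val β e.2) γ g0.le g1
      (fun f' g' => (lc_value ((hpcp φ).2.2 hs) f' g' hne).trans
        (by linarith [min_le_left (γ₀ / 4) 1]))
      (fun vs => F (natI fun p : Fin n × Fin 4 => vs p.1 p.2))
      (fun q b => ind (G (natI fun i => (q i).elim 0 (· + 1)) = b))
      (fun q => by
        have := rep_sum_ind (G (natI fun i => (q i).elim 0 (· + 1)))
          fun b => ind (G (natI fun i => (q i).elim 0 (· + 1)) = b)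
        simp only [sq]
        rw [this]
        exact ind_le_one _)
    rw [Fintype.card_fin] at key
    refine le_trans (le_of_eq ?_) (key.trans hn.le)
    rw [avg_locRed, ← expect_equiv (s := univ)
      (Equiv.arrowProdEquivProdArrow (Fin n) (fun _ => Fin (f φ).length) fun _ => Fin 4).symm
      (by simp) fun x _ => rfl, ← univ_product_univ (α := Fin n → Fin (f φ).length),
      expect_product]
    refine expect_congr rfl fun t _ => ?_
    rw [← univ_product_univ, expect_product]
    refine expect_congr rfl fun j _ => expect_congr rfl fun m _ => ind_congr ?_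
    have e : (fun i => (if m i then some (((f φ).get (t i)).1 (j i)) else none).elim 0 (· + 1)) =
        fun i => if m i then ((f φ).get (t i)).1 (j i) + 1 else 0 := by
      funext i
      cases m i <;> rfl
    simp only [Equiv.arrowProdEquivProdArrow_symm_apply, e]
    exact eq_comm

end Vale.Agent.P325
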