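import Mathlib

/-!
P325 part REP: the contraction property of a nonnegative kernel is multiplicative under products.
-/

namespace Vale.Agent.P325

open Finset

/-- The kernel `k` contracts nonnegative strategies by the factor `c` (in squared norm),
compared with the trivial game. -/
def RepP {W E A V : Type} [Fintype W] [Fintype E] [Fintype A] (k : W → E → A → ℝ) (v : E → V)
    (c : ℝ) : Prop :=
  ∀ h : V → A → ℝ, (∀ x a, 0 ≤ h x a) →
    ∑ w, (∑ e, ∑ a, k w e a * h (v e) a) ^ 2 ≤ c * ∑ e, (∑ a, h (v e) a) ^ 2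

theorem RepP.prod {W₁ E₁ A₁ V₁ W₂ E₂ A₂ V₂ : Type} [Fintype W₁] [Fintype E₁] [Fintype A₁]
    [Fintype W₂] [Fintype E₂] [Fintype A₂] {k₁ : W₁ → E₁ → A₁ → ℝ} {v₁ : E₁ → V₁} {c₁ : ℝ}
    {k₂ : W₂ → E₂ → A₂ → ℝ} {v₂ : E₂ → V₂} {c₂ : ℝ} (h₁ : RepP k₁ v₁ c₁) (h₂ : RepP k₂ v₂ c₂)
    (hk : ∀ w e a, 0 ≤ k₂ w e a) (hc : 0 ≤ c₁) :
    RepP (fun (w : W₁ × W₂) (e : E₁ × E₂) (a : A₁ × A₂) => k₁ w.1 e.1 a.1 * k₂ w.2 e.2 a.2)
      (fun e => (v₁ e.1, v₂ e.2)) (c₁ * c₂) := by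
  intro h hh
  let h' : W₂ → V₁ → A₁ → ℝ := fun w x a => ∑ e, ∑ b, k₂ w e b * h (x, v₂ e) (a, b)
  have hh' : ∀ w x a, 0 ≤ h' w x a := fun w x a =>
    sum_nonneg fun e _ => sum_nonneg fun b _ => mul_nonneg (hk _ _ _) (hh _ _)
  let g : E₁ → V₂ → A₂ → ℝ := fun e y b => ∑ a, h (v₁ e, y) (a, b)
  have hg : ∀ e y b, 0 ≤ g e y b := fun e y b => sum_nonneg fun a _ => hh _ _
  have e1 : ∀ w : W₁ × W₂, ∑ e : E₁ × E₂, ∑ a : A₁ × A₂,
      k₁ w.1 e.1 a.1 * k₂ w.2 e.2 a.2 * h (v₁ e.1, v₂ e.2) a =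
      ∑ e, ∑ a, k₁ w.1 e a * h' w.2 (v₁ e) a := by
    intro w
    rw [Fintype.sum_prod_type]
    refine sum_congr rfl fun e _ => ?_
    simp only [Fintype.sum_prod_type, h', mul_sum]
    rw [sum_comm]
    refine sum_congr rfl fun a _ => sum_congr rfl fun e' _ => sum_congr rfl fun b _ => ?_
    ring
  have e2 : ∀ w e, ∑ a, h' w (v₁ e) a = ∑ e', ∑ b, k₂ w e' b * g e (v₂ e') b := by
    intro w e
    simp only [h', g, mul_sum]
    rw [sum_comm]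
    refine sum_congr rfl fun e' _ => ?_
    rw [sum_comm]
  have e3 : ∀ e : E₁ × E₂, ∑ a : A₁ × A₂, h (v₁ e.1, v₂ e.2) a = ∑ b, g e.1 (v₂ e.2) b := by
    intro e
    rw [Fintype.sum_prod_type, sum_comm]
  simp only [e1, e3]
  rw [Fintype.sum_prod_type_right, Fintype.sum_prod_type]
  calc ∑ w₂, ∑ w₁, (∑ e, ∑ a, k₁ w₁ e a * h' w₂ (v₁ e) a) ^ 2
      ≤ ∑ w₂, c₁ * ∑ e, (∑ a, h' w₂ (v₁ e) a) ^ 2 :=
        sum_le_sum fun w₂ _ => h₁ (h' w₂) (hh' w₂)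
    _ = c₁ * ∑ e, ∑ w₂, (∑ e', ∑ b, k₂ w₂ e' b * g e (v₂ e') b) ^ 2 := by
        rw [← mul_sum, sum_comm]
        simp only [e2]
    _ ≤ c₁ * ∑ e, c₂ * ∑ e', (∑ b, g e (v₂ e') b) ^ 2 :=
        mul_le_mul_of_nonneg_left (sum_le_sum fun e _ => h₂ (g e) (hg e)) hc
    _ = c₁ * c₂ * ∑ e, ∑ e', (∑ b, g e (v₂ e') b) ^ 2 := by
        rw [← mul_sum, mul_assoc]

theorem RepP.equiv {W E A V W' E' A' V' : Type} [Fintype W] [Fintype E] [Fintype A]
    [Fintype W'] [Fintype E'] [Fintype A'] {k : W → E → A → ℝ} {v : E → V} {c : ℝ}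
    (h : RepP k v c) (eW : W ≃ W') (eE : E ≃ E') (eA : A ≃ A') (φ : V → V')
    {k' : W' → E' → A' → ℝ} {v' : E' → V'} (hk : ∀ w e a, k' (eW w) (eE e) (eA a) = k w e a)
    (hv : ∀ e, v' (eE e) = φ (v e)) : RepP k' v' c := by
  intro g hg
  have := h (fun x a => g (φ x) (eA a)) fun x a => hg _ _
  rw [← eW.sum_comp, ← eE.sum_comp]
  simp only [← eE.sum_comp fun e => ∑ a, k' _ e a * g (v' e) a]
  simp only [← eA.sum_comp fun a => k' _ _ a * g _ a, ← eA.sum_comp fun a => g _ a, hk, hv]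
  exact this

theorem RepP.piFin {W E A V : Type} [Fintype W] [Fintype E] [Fintype A] {k : W → E → A → ℝ}
    {v : E → V} {c : ℝ} (h : RepP k v c) (hk : ∀ w e a, 0 ≤ k w e a) (hc : 0 ≤ c) (n : ℕ) :
    RepP (fun (w : Fin n → W) (e : Fin n → E) (a : Fin n → A) => ∏ i, k (w i) (e i) (a i))
      (fun e i => v (e i)) (c ^ n) := by
  induction n with
  | zero =>
    intro g _
    simp
  | succ n ih =>
    rw [pow_succ']
    refine (h.prod ih (fun w e a => prod_nonneg fun i _ => hk _ _ _) hc).equiv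
      (Fin.consEquiv fun _ => W) (Fin.consEquiv fun _ => E) (Fin.consEquiv fun _ => A)
      (fun x => Fin.cons x.1 x.2) (fun w e a => ?_) fun e => ?_
    · simp [Fin.prod_univ_succ, Fin.consEquiv]
    · funext i
      refine Fin.cases ?_ (fun j => ?_) i <;> simp [Fin.consEquiv]

theorem RepP.pi {W E A V : Type} [Fintype W] [Fintype E] [Fintype A] {k : W → E → A → ℝ}
    {v : E → V} {c : ℝ} (h : RepP k v c) (hk : ∀ w e a, 0 ≤ k w e a) (hc : 0 ≤ c) (I : Type)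
    [Fintype I] [DecidableEq I] :
    RepP (fun (w : I → W) (e : I → E) (a : I → A) => ∏ i, k (w i) (e i) (a i))
      (fun e i => v (e i)) (c ^ Fintype.card I) := by
  let σ := Fintype.equivFin I
  refine (h.piFin hk hc (Fintype.card I)).equiv
    (σ.symm.arrowCongr (Equiv.refl W)) (σ.symm.arrowCongr (Equiv.refl E))
    (σ.symm.arrowCongr (Equiv.refl A)) (fun x i => x (σ i)) (fun w e a => ?_) fun e => ?_
  · rw [← σ.prod_comp]
    simp
  · funext i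
    simp

end Vale.Agent.P325
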