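import Vale.Agent.P325.Defs
import Vale.Agent.P325.RepTensor

/-!
P325 part REP: the one step contraction (Dinur-Steurer) for a game mixed with the trivial game.
-/

namespace Vale.Agent.P325

open Finset

theorem rep_ind_nonneg (p : Prop) : 0 ≤ ind p := by
  unfold ind
  split_ifs <;> norm_num

theorem rep_ind_true {p : Prop} (h : p) : ind p = 1 := by
  unfold ind
  rw [if_pos h]

theorem rep_ind_false {p : Prop} (h : ¬ p) : ind p = 0 := by
  unfold ind
  rw [if_neg h]

theorem rep_sum_ind {B : Type} [Fintype B] (b₀ : B) (f : B → ℝ) :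
    ∑ b, ind (b₀ = b) * f b = f b₀ := by
  rw [Fintype.sum_eq_single b₀, rep_ind_true rfl, one_mul]
  intro b hb
  rw [rep_ind_false (Ne.symm hb), zero_mul]

section step

variable {E V U A B : Type} [Fintype E] [Fintype A] [Fintype B]

/-- conditional law of an edge with the same second question -/
noncomputable def repK (u : E → U) (e₀ e : E) : ℝ :=
  ind (u e = u e₀) / ∑ e', ind (u e' = u e₀)

theorem repK_den_pos (u : E → U) (e₀ : E) : 0 < ∑ e', ind (u e' = u e₀) :=
  sum_pos' (fun _ _ => rep_ind_nonneg _) ⟨e₀, mem_univ _, by rw [rep_ind_true rfl]; norm_num⟩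

theorem repK_nonneg (u : E → U) (e₀ e : E) : 0 ≤ repK u e₀ e :=
  div_nonneg (rep_ind_nonneg _) (repK_den_pos u e₀).le

theorem repK_row (u : E → U) (e₀ : E) : ∑ e, repK u e₀ e = 1 := by
  simp only [repK]
  rw [← sum_div, div_self (repK_den_pos u e₀).ne']

theorem repK_symm (u : E → U) (e₀ e : E) : repK u e₀ e = repK u e e₀ := by
  unfold repK
  by_cases h : u e = u e₀
  · rw [h]
  · rw [rep_ind_false h, rep_ind_false (Ne.symm h), zero_div, zero_div]

theorem repK_col (u : E → U) (e : E) : ∑ e₀, repK u e₀ e = 1 := by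
  simp only [repK_symm u _ e, repK_row]

theorem repK_eq {u : E → U} {e₀ e : E} (h : repK u e₀ e ≠ 0) : u e = u e₀ := by
  by_contra hn
  apply h
  rw [repK, rep_ind_false hn, zero_div]

/-- the operator of the game -/
noncomputable def repG (v : E → V) (u : E → U) (π : E → A → B) (h : V → A → ℝ) (e₀ : E) (b : B) :
    ℝ := ∑ e, ∑ a, repK u e₀ e * ind (π e a = b) * h (v e) a

variable {v : E → V} {u : E → U} {π : E → A → B}

theorem repG_nonneg {h : V → A → ℝ} (hh : ∀ x a, 0 ≤ h x a) (e₀ : E) (b : B) :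
    0 ≤ repG v u π h e₀ b :=
  sum_nonneg fun _ _ => sum_nonneg fun _ _ =>
    mul_nonneg (mul_nonneg (repK_nonneg _ _ _) (rep_ind_nonneg _)) (hh _ _)

theorem repG_sum (h : V → A → ℝ) (e₀ : E) (g : B → ℝ) :
    ∑ b, g b * repG v u π h e₀ b = ∑ e, repK u e₀ e * ∑ a, g (π e a) * h (v e) a := by
  simp only [repG, mul_sum]
  rw [sum_comm]
  refine sum_congr rfl fun e _ => ?_
  rw [sum_comm]
  refine sum_congr rfl fun a _ => ?_
  rw [← rep_sum_ind (π e a) fun b => repK u e₀ e * (g b * h (v e) a)]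
  refine sum_congr rfl fun b _ => ?_
  ring

theorem repG_triv {h : V → A → ℝ} (hh : ∀ x a, 0 ≤ h x a) :
    ∑ e₀, ∑ b, repG v u π h e₀ b ^ 2 ≤ ∑ e, (∑ a, h (v e) a) ^ 2 := by
  calc ∑ e₀, ∑ b, repG v u π h e₀ b ^ 2
      ≤ ∑ e₀, ∑ e, repK u e₀ e * (∑ a, h (v e) a) ^ 2 := by
        refine sum_le_sum fun e₀ _ => ?_
        have h1 : ∑ b, repG v u π h e₀ b ^ 2 ≤ (∑ b, repG v u π h e₀ b) ^ 2 :=
          sum_sq_le_sq_sum_of_nonneg fun b _ => repG_nonneg hh e₀ b
        have h2 := repG_sum (v := v) (u := u) (π := π) h e₀ fun _ => 1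
        simp only [one_mul] at h2
        have h3 := sum_mul_sq_le_sq_mul_sq univ (fun e => √(repK u e₀ e))
          fun e => √(repK u e₀ e) * ∑ a, h (v e) a
        simp only [← mul_assoc, mul_pow, Real.mul_self_sqrt (repK_nonneg u e₀ _),
          Real.sq_sqrt (repK_nonneg u e₀ _), repK_row, one_mul] at h3
        rw [h2] at h1
        exact h1.trans h3
    _ = ∑ e, (∑ a, h (v e) a) ^ 2 := by
        rw [sum_comm]
        simp only [← sum_mul, repK_col, one_mul]

theorem rep_derand [Nonempty A] (φ : E → A → ℝ) {p : V → A → ℝ} (hp : ∀ x a, 0 ≤ p x a)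
    (h1 : ∀ x, ∑ a, p x a = 1) :
    ∃ f : V → A, ∑ e, ∑ a, φ e a * p (v e) a ≤ ∑ e, φ e (f (v e)) := by
  classical
  have : ∀ x : V, ∃ a₀ : A, ∀ a, ∑ e with v e = x, φ e a ≤ ∑ e with v e = x, φ e a₀ := by
    intro x
    obtain ⟨a₀, -, h⟩ := exists_max_image univ (fun a => ∑ e with v e = x, φ e a) univ_nonempty
    exact ⟨a₀, fun a => h a (mem_univ _)⟩
  choose f hf using this
  refine ⟨f, ?_⟩
  rw [← sum_fiberwise_of_maps_to (s := univ) (t := univ.image v) (g := v)
      fun e _ => mem_image_of_mem _ (mem_univ e),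
    ← sum_fiberwise_of_maps_to (s := univ) (t := univ.image v) (g := v)
      fun e _ => mem_image_of_mem _ (mem_univ e)]
  refine sum_le_sum fun x _ => ?_
  calc ∑ e with v e = x, ∑ a, φ e a * p (v e) a = ∑ a, (∑ e with v e = x, φ e a) * p x a := by
        rw [sum_comm]
        refine sum_congr rfl fun a _ => ?_
        rw [sum_mul]
        exact sum_congr rfl fun e he => by rw [(mem_filter.1 he).2]
    _ ≤ ∑ a, (∑ e with v e = x, φ e (f x)) * p x a :=
        sum_le_sum fun a _ => mul_le_mul_of_nonneg_right (hf x a) (hp x a)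
    _ = ∑ e with v e = x, φ e (f (v e)) := by
        rw [← mul_sum, h1, mul_one]
        exact sum_congr rfl fun e he => by rw [(mem_filter.1 he).2]

theorem repG_val [Nonempty A] [Nonempty B] {s : ℝ}
    (hs : ∀ (f : V → A) (g : U → B), ∑ e, ind (π e (f (v e)) = g (u e)) ≤ s)
    {p : V → A → ℝ} (hp : ∀ x a, 0 ≤ p x a) (h1 : ∀ x, ∑ a, p x a = 1) :
    ∑ e₀, ∑ b, repG v u π p e₀ b ^ 2 ≤ s := by
  classical
  have : ∀ y : U, ∃ b₀ : B, ∀ e₀, u e₀ = y → ∀ b, repG v u π p e₀ b ≤ repG v u π p e₀ b₀ := by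
    intro y
    by_cases hy : ∃ e₁, u e₁ = y
    · obtain ⟨e₁, rfl⟩ := hy
      obtain ⟨b₀, -, h⟩ := exists_max_image univ (fun b => repG v u π p e₁ b) univ_nonempty
      refine ⟨b₀, fun e₀ he b => ?_⟩
      have : ∀ b, repG v u π p e₀ b = repG v u π p e₁ b := fun b => by
        simp only [repG, repK, he]
      rw [this, this]
      exact h b (mem_univ _)
    · exact ⟨Classical.arbitrary B, fun e₀ he => absurd ⟨e₀, he⟩ hy⟩
  choose g hg using this
  obtain ⟨f, hf⟩ := rep_derand (v := v) (fun e a => ind (π e a = g (u e))) hp h1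
  refine le_trans ?_ (hf.trans (hs f g))
  calc ∑ e₀, ∑ b, repG v u π p e₀ b ^ 2
      ≤ ∑ e₀, ∑ e, repK u e₀ e * ∑ a, ind (π e a = g (u e)) * p (v e) a := by
        refine sum_le_sum fun e₀ _ => ?_
        have h2 := repG_sum (v := v) (u := u) (π := π) p e₀ fun _ => 1
        simp only [one_mul, h1, mul_one, repK_row] at h2
        calc ∑ b, repG v u π p e₀ b ^ 2
            ≤ ∑ b, repG v u π p e₀ (g (u e₀)) * repG v u π p e₀ b := by
              refine sum_le_sum fun b _ => ?_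
              rw [sq]
              exact mul_le_mul_of_nonneg_right (hg _ e₀ rfl b) (repG_nonneg hp e₀ b)
          _ = repG v u π p e₀ (g (u e₀)) := by rw [← mul_sum, h2, mul_one]
          _ = _ := by
              rw [repG]
              refine sum_congr rfl fun e _ => ?_
              rw [mul_sum]
              refine sum_congr rfl fun a _ => ?_
              by_cases h0 : repK u e₀ e = 0
              · simp [h0]
              · rw [repK_eq h0, mul_assoc]
    _ = _ := by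
        rw [sum_comm]
        simp only [← sum_mul, repK_col, one_mul]

theorem rep_step [Nonempty E] [Nonempty A] [Nonempty B] {γ : ℝ} (h0 : 0 ≤ γ) (h1 : γ ≤ 1)
    (hs : ∀ (f : V → A) (g : U → B),
      ∑ e, ind (π e (f (v e)) = g (u e)) ≤ (1 - γ) * Fintype.card E)
    {h : V → A → ℝ} (hh : ∀ x a, 0 ≤ h x a) :
    ∑ e₀, ∑ b, repG v u π h e₀ b ^ 2 + (∑ e, ∑ a, h (v e) a) ^ 2 / Fintype.card E ≤
      (2 - γ ^ 2 / 8) * ∑ e, (∑ a, h (v e) a) ^ 2 := by
  classical
  have hN : (0 : ℝ) < Fintype.card E := by exact_mod_cast Fintype.card_pos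
  set N : ℝ := (Fintype.card E : ℝ) with hNdef
  set T : V → ℝ := fun x => ∑ a, h x a with hT
  set m : ℝ := (∑ e, T (v e)) / N with hm
  set τ : ℝ := ∑ e, T (v e) ^ 2 with hτ
  have hsum : ∑ e, T (v e) = m * N := by rw [hm, div_mul_cancel₀ _ hN.ne']
  have hvar : ∑ e, (T (v e) - m) ^ 2 = τ - m ^ 2 * N := by
    simp only [sub_sq, sum_add_distrib, sum_sub_distrib, sum_const, card_univ, nsmul_eq_mul]
    rw [← sum_mul, ← mul_sum, hsum]
    ring
  have hmN : (∑ e, T (v e)) ^ 2 / N = m ^ 2 * N := by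
    rw [hsum]
    field_simp
  have hle : m ^ 2 * N ≤ τ := by
    have : 0 ≤ ∑ e, (T (v e) - m) ^ 2 := sum_nonneg fun _ _ => sq_nonneg _
    linarith
  have htriv : ∑ e₀, ∑ b, repG v u π h e₀ b ^ 2 ≤ τ := repG_triv hh
  change _ + (∑ e, T (v e)) ^ 2 / N ≤ (2 - γ ^ 2 / 8) * τ
  rw [hmN]
  by_cases hc : m ^ 2 * N ≤ (1 - γ ^ 2 / 8) * τ
  · linarith
  push Not at hc
  have hτ0 : 0 ≤ τ := sum_nonneg fun _ _ => sq_nonneg _
  have hγ : 0 < γ := by
    rcases h0.lt_or_eq with h2 | h2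
    · exact h2
    · rw [← h2] at hc
      linarith
  let a₀ : A := Classical.arbitrary A
  let p : V → A → ℝ := fun x a => if T x = 0 then ind (a₀ = a) else h x a / T x
  have hT0 : ∀ x, 0 ≤ T x := fun x => sum_nonneg fun a _ => hh x a
  have hp : ∀ x a, 0 ≤ p x a := fun x a => by
    simp only [p]
    split_ifs
    · exact rep_ind_nonneg _
    · exact div_nonneg (hh x a) (hT0 x)
  have hp1 : ∀ x, ∑ a, p x a = 1 := fun x => by
    simp only [p]
    split_ifs with h2
    · simpa using rep_sum_ind a₀ fun _ => 1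
    · rw [← sum_div, div_self h2]
  have hhp : ∀ x a, h x a = T x * p x a := fun x a => by
    simp only [p]
    split_ifs with h2
    · rw [h2, zero_mul]
      exact (sum_eq_zero_iff_of_nonneg fun a _ => hh x a).1 h2 a (mem_univ a)
    · field_simp
  let r : V → A → ℝ := fun x a => |T x - m| * p x a
  have hr : ∀ x a, 0 ≤ r x a := fun x a => mul_nonneg (abs_nonneg _) (hp x a)
  have hrs : ∑ e₀, ∑ b, repG v u π r e₀ b ^ 2 ≤ τ - m ^ 2 * N := by
    refine (repG_triv hr).trans_eq ?_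
    rw [← hvar]
    refine sum_congr rfl fun e _ => ?_
    simp only [r]
    rw [← mul_sum, hp1, mul_one, sq_abs]
  have hps := repG_val hs hp hp1
  have hm0 : 0 ≤ m := div_nonneg (sum_nonneg fun e _ => hT0 _) hN.le
  have hpt : ∀ e₀ b, repG v u π h e₀ b ≤ m * repG v u π p e₀ b + repG v u π r e₀ b := by
    intro e₀ b
    simp only [repG, mul_sum, ← sum_add_distrib]
    refine sum_le_sum fun e _ => sum_le_sum fun a _ => ?_
    have h2 : 0 ≤ repK u e₀ e * ind (π e a = b) * p (v e) a :=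
      mul_nonneg (mul_nonneg (repK_nonneg _ _ _) (rep_ind_nonneg _)) (hp _ _)
    have h3 := le_abs_self (T (v e) - m)
    rw [hhp]
    simp only [r]
    nlinarith
  have hsq : ∀ e₀ b, γ * repG v u π h e₀ b ^ 2 ≤
      γ * (1 + γ / 2) * m ^ 2 * repG v u π p e₀ b ^ 2 + (γ + 2) * repG v u π r e₀ b ^ 2 := by
    intro e₀ b
    have h2 : repG v u π h e₀ b ^ 2 ≤ (m * repG v u π p e₀ b + repG v u π r e₀ b) ^ 2 :=
      pow_le_pow_left₀ (repG_nonneg hh e₀ b) (hpt e₀ b) 2
    nlinarith [sq_nonneg (γ * (m * repG v u π p e₀ b) - 2 * repG v u π r e₀ b),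
      mul_le_mul_of_nonneg_left h2 h0]
  have htot : γ * ∑ e₀, ∑ b, repG v u π h e₀ b ^ 2 ≤
      γ * (1 + γ / 2) * m ^ 2 * ((1 - γ) * N) + (γ + 2) * (τ - m ^ 2 * N) := by
    calc γ * ∑ e₀, ∑ b, repG v u π h e₀ b ^ 2
        ≤ γ * (1 + γ / 2) * m ^ 2 * ∑ e₀, ∑ b, repG v u π p e₀ b ^ 2 +
          (γ + 2) * ∑ e₀, ∑ b, repG v u π r e₀ b ^ 2 := by
          simp only [mul_sum, ← sum_add_distrib]
          exact sum_le_sum fun e₀ _ => sum_le_sum fun b _ => hsq e₀ b
      _ ≤ _ := by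
          gcongr
  have hfin : γ * ∑ e₀, ∑ b, repG v u π h e₀ b ^ 2 ≤ γ * ((1 - γ ^ 2 / 8) * τ) := by
    refine htot.trans ?_
    have a1 : γ * (1 + γ / 2) * m ^ 2 * ((1 - γ) * N) ≤ γ * (1 - γ / 2) * τ := by
      have b1 : (1 + γ / 2) * (1 - γ) ≤ 1 - γ / 2 := by nlinarith
      have b2 : 0 ≤ m ^ 2 * N := by positivity
      calc γ * (1 + γ / 2) * m ^ 2 * ((1 - γ) * N) = γ * ((1 + γ / 2) * (1 - γ) * (m ^ 2 * N)) := by
            ring
        _ ≤ γ * ((1 - γ / 2) * τ) :=
            mul_le_mul_of_nonneg_left (mul_le_mul b1 hle b2 (by linarith)) h0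
        _ = _ := by ring
    have a2 : (γ + 2) * (τ - m ^ 2 * N) ≤ (γ + 2) * (γ ^ 2 / 8 * τ) :=
      mul_le_mul_of_nonneg_left (by linarith) (by linarith)
    have a3 : 0 ≤ γ ^ 2 * (1 - γ) * τ := by
      have : 0 ≤ 1 - γ := by linarith
      positivity
    nlinarith
  have := le_of_mul_le_mul_left hfin hγ
  linarith

end step

end Vale.Agent.P325
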