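import Vale.Agent.P325.SseRank

/-!
Expansion of the fourth moment (TASK).  `n4_eq`: `syn a A ^ 2 = syn (cv a) A` (reindex `X ↦ X + Y`, `mx_add_self`), then `n2_eq`.
`F3_eq`: the indicator of no-common-point is `∏ p ∈ pts X, (1 - [Has Y p] [Has (X + Y) p])`; expand (`Finset.prod_one_add` /
`Finset.prod_sub`), and `LS d S g Y * LS d S g (X + Y) = g Y * g (X + Y) * ∏ p ∈ S, [..] [..]` for `g = LS d ∅ a`.
`n4_le`: `cv g X = F3 g X - ∑ S ⊆ pts X, S ≠ ∅, ± cv (LS d S a) X`; if `rank X > 2 d` then `cv g X = 0` (`Matrix.rank_add_le`); otherwise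
there are at most `2 ^ (2 * 2 ^ (2 d))` sets `S` (`card_pts`), so `cv g X ^ 2 ≤ 2 F3 ^ 2 + 2 * 2 ^ (..) * ∑ S ≠ ∅, cv (LS d S a) X ^ 2`
(`sq_sum_le_card_mul_sum_sq`); sum over `X`.
`sum_n2_LS`: swap the sums; for `rank X = d` the sets `S` with all points in `X` are the subsets of `pts X`.
-/

namespace Vale.Agent.P325.Sse

open Finset Matrix
open scoped BigOperators

variable {m n : Type} [Fintype m] [DecidableEq m] [Fintype n] [DecidableEq n]

omit [DecidableEq m] [DecidableEq n] [Fintype n] in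
theorem exp_rank_add (X Y : Mx n m) : (X + Y).rank ≤ X.rank + Y.rank := by
  unfold Matrix.rank
  refine le_trans (Submodule.finrank_mono ?_) (Submodule.finrank_add_le_finrank_add_finrank _ _)
  rintro _ ⟨c, rfl⟩
  rw [mulVecLin_add, LinearMap.add_apply]
  exact Submodule.add_mem_sup ⟨c, rfl⟩ ⟨c, rfl⟩

theorem exp_syn_sq (a : Mx n m → ℝ) (A : Mx m n) : syn a A ^ 2 = syn (cv a) A := by
  rw [syn, syn, sq, sum_mul_sum]
  simp only [cv, sum_mul]
  rw [sum_comm (f := fun X Y => a Y * a (X + Y) * chi (X * A).trace)]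
  refine sum_congr rfl fun Y _ => ?_
  rw [← Equiv.sum_comp (Equiv.addRight Y)]
  refine sum_congr rfl fun X _ => ?_
  simp only [Equiv.coe_addRight, Matrix.add_mul, trace_add, chi_add]
  linear_combination (a Y * a (X + Y) * chi (X * A).trace) * chi_mul_self (Y * A).trace

theorem n4_eq (a : Mx n m → ℝ) : n4 a = ∑ X, cv a X ^ 2 := by
  rw [← n2, n2_eq, n4]
  refine expect_congr rfl fun A _ => ?_
  rw [← exp_syn_sq]
  ring

theorem F3_eq (d : ℕ) (a : Mx n m → ℝ) (X : Mx n m) :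
    F3 (LS d ∅ a) X = ∑ S ∈ (pts X).powerset, (-1) ^ S.card * cv (LS d S a) X := by
  classical
  simp only [F3, cv, mul_sum]
  rw [sum_comm]
  refine sum_congr rfl fun Y _ => ?_
  have h1 : ∀ S : Finset (Pt m n), LS d S a Y * LS d S a (X + Y) =
      LS d ∅ a Y * LS d ∅ a (X + Y) * ∏ p ∈ S, if Has Y p ∧ Has (X + Y) p then 1 else 0 := by
    intro S
    rw [prod_boole]
    by_cases h : ∀ p ∈ S, Has Y p ∧ Has (X + Y) p
    · have h2 : ∀ p ∈ S, Has Y p := fun p hp => (h p hp).1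
      have h3 : ∀ p ∈ S, Has (X + Y) p := fun p hp => (h p hp).2
      rw [if_pos h, mul_one]
      simp only [LS, notMem_empty, false_imp_iff, implies_true, and_true, and_iff_left h2,
        and_iff_left h3]
    · rw [if_neg h, mul_zero]
      by_cases h2 : ∀ p ∈ S, Has Y p
      · have h3 : ¬ ∀ p ∈ S, Has (X + Y) p := fun h3 => h fun p hp => ⟨h2 p hp, h3 p hp⟩
        rw [LS, LS, if_neg (c := (X + Y).rank = d ∧ _) (fun h4 => h3 h4.2), mul_zero]
      · rw [LS, if_neg (fun h4 => h2 h4.2), zero_mul]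
  have h2 := prod_sub (fun _ => (1 : ℝ)) (fun p => if Has Y p ∧ Has (X + Y) p then 1 else 0) (pts X)
  simp only [prod_const_one, mul_one] at h2
  rw [sum_congr rfl fun S _ => by rw [h1 S, mul_left_comm], ← mul_sum, ← h2]
  split_ifs with h
  · rw [prod_eq_one, mul_one]
    intro p hp
    rw [if_neg fun h3 => h p ⟨mem_pts.1 hp, h3⟩, sub_zero]
  · push Not at h
    obtain ⟨p, hp, h3⟩ := h
    rw [prod_eq_zero (mem_pts.2 hp) (by rw [if_pos h3, sub_self]), mul_zero]

theorem exp_cv_zero {d : ℕ} (a : Mx n m → ℝ) {X : Mx n m} (h : 2 * d < X.rank) :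
    cv (LS d ∅ a) X = 0 := by
  refine sum_eq_zero fun Y _ => ?_
  by_cases h1 : Y.rank = d
  · have h2 := exp_rank_add (X + Y) Y
    rw [add_assoc, mx_add_self, add_zero] at h2
    rw [LS, LS, if_neg (c := (X + Y).rank = d ∧ _) (fun h3 => by omega), mul_zero]
  · rw [LS, if_neg (fun h3 => h1 h3.1), zero_mul]

theorem n4_le (d : ℕ) (a : Mx n m → ℝ) :
    n4 (LS d ∅ a) ≤ 2 * ∑ X, F3 (LS d ∅ a) X ^ 2 +
      2 * 2 ^ (2 * 2 ^ (2 * d)) * ∑ S ∈ (univ : Finset (Finset (Pt m n))).erase ∅, n4 (LS d S a) := by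
  simp only [n4_eq]
  rw [sum_comm, mul_sum, mul_sum, ← sum_add_distrib]
  refine sum_le_sum fun X _ => ?_
  by_cases hX : 2 * d < X.rank
  · rw [exp_cv_zero a hX, zero_pow two_ne_zero]
    have : 0 ≤ ∑ S ∈ (univ : Finset (Finset (Pt m n))).erase ∅, cv (LS d S a) X ^ 2 :=
      sum_nonneg fun _ _ => sq_nonneg _
    positivity
  have h1 := F3_eq d a X
  rw [← add_sum_erase _ _ (empty_mem_powerset _), card_empty, pow_zero, one_mul] at h1
  have h2 := sq_sum_le_card_mul_sum_sq (s := (pts X).powerset.erase ∅)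
    (f := fun S => (-1) ^ S.card * cv (LS d S a) X)
  have h3 : ∑ S ∈ (pts X).powerset.erase ∅, ((-1) ^ S.card * cv (LS d S a) X) ^ 2 ≤
      ∑ S ∈ (univ : Finset (Finset (Pt m n))).erase ∅, cv (LS d S a) X ^ 2 := by
    have h6 : ∀ k : ℕ, ((-1 : ℝ) ^ k) ^ 2 = 1 := fun k => by
      rw [← pow_mul, mul_comm, pow_mul, neg_one_sq, one_pow]
    simp only [mul_pow, h6, one_mul]
    exact sum_le_sum_of_subset_of_nonneg (erase_subset_erase _ (subset_univ _))
      fun _ _ _ => sq_nonneg _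
  have h4 : (((pts X).powerset.erase ∅).card : ℝ) ≤ 2 ^ (2 * 2 ^ (2 * d)) := by
    have h5 : ((pts X).powerset.erase ∅).card ≤ 2 ^ (2 * 2 ^ (2 * d)) := by
      refine card_erase_le.trans ?_
      rw [card_powerset]
      refine Nat.pow_le_pow_right (by norm_num) ((card_pts X).trans ?_)
      exact Nat.mul_le_mul_left _ (Nat.pow_le_pow_right (by norm_num) (by omega))
    exact_mod_cast h5
  have h5 := h2.trans (mul_le_mul h4 h3 (sum_nonneg fun _ _ => sq_nonneg _) (by positivity))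
  rw [eq_sub_of_add_eq h1.symm, mul_assoc]
  generalize ∑ S ∈ (pts X).powerset.erase ∅, (-1) ^ S.card * cv (LS d S a) X = u at h5 ⊢
  nlinarith [sq_nonneg (F3 (LS d ∅ a) X + u)]

theorem sum_n2_LS (d : ℕ) (a : Mx n m → ℝ) :
    ∑ S : Finset (Pt m n), n2 (LS d S a) ≤ 2 ^ (2 * 2 ^ d) * n2 (LS d ∅ a) := by
  classical
  simp only [n2]
  rw [sum_comm, mul_sum]
  refine sum_le_sum fun X _ => ?_
  by_cases hX : X.rank = d
  · have h1 : ∀ S : Finset (Pt m n), LS d S a X ^ 2 =
        if S ∈ (pts X).powerset then LS d ∅ a X ^ 2 else 0 := fun S => by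
      have h2 : S ∈ (pts X).powerset ↔ ∀ p ∈ S, Has X p := by
        simp only [mem_powerset, subset_iff, mem_pts]
      simp only [LS, hX, true_and, h2, notMem_empty, false_imp_iff, implies_true, if_true]
      split_ifs <;> simp
    rw [sum_congr rfl fun S _ => h1 S, sum_ite_mem, univ_inter, sum_const, card_powerset,
      nsmul_eq_mul]
    refine mul_le_mul_of_nonneg_right ?_ (sq_nonneg _)
    exact_mod_cast Nat.pow_le_pow_right (by norm_num) (hX ▸ card_pts X)
  · simp [LS, hX]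

end Vale.Agent.P325.Sse
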