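import Vale.Agent.P325.SseSplit

/-!
The triples without common point (TASK).  Let `W Y' = ∑ Y with Le2 Y' Y, a Y ^ 2`.  By `exists_split`
`|F3 a X| ≤ ∑ Y' with Le2 Y' X, ∑ Y with Le2 Y' Y ∧ Le2 (X + Y') (X + Y), |a Y| |a (X + Y)|`; the square of the inner sum is at most
`W Y' * W (X + Y')` (`sum_mul_sq_le_sq_mul_sq`, reindex `Y ↦ X + Y`).  If `rank X > 2 d` every term of `F3 a X` vanishes
(`X = Y + (X + Y)`, `Matrix.rank_add_le`).  Otherwise at most `Nc (2 d)` values of `Y'` occur (`card_le2`, `sq_sum_le_card_mul_sum_sq`), so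
`F3 a X ^ 2 ≤ Nc (2 d) * ∑ Y', W Y' * W (X + Y')`.  Sum over `X`: `∑ X, ∑ Y', W Y' * W (X + Y') = (∑ Y', W Y') ^ 2` and
`∑ Y', W Y' = ∑ Y, a Y ^ 2 * #{Y' | Le2 Y' Y} ≤ Nc d * n2 a`.
-/

namespace Vale.Agent.P325.Sse

open Finset Matrix
open scoped BigOperators

variable {m n : Type} [Fintype m] [DecidableEq m] [Fintype n] [DecidableEq n]

open Classical in
/-- The mass above `Y'`. -/
noncomputable def f3W (a : Mx n m → ℝ) (Y' : Mx n m) : ℝ := ∑ Y, (if Le2 Y' Y then |a Y| else 0) ^ 2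

theorem f3W_nonneg (a : Mx n m → ℝ) (Y' : Mx n m) : 0 ≤ f3W a Y' :=
  sum_nonneg fun _ _ => sq_nonneg _

theorem f3_rank_add (X Y : Mx n m) : (X + Y).rank ≤ X.rank + Y.rank := by
  unfold Matrix.rank
  refine le_trans (Submodule.finrank_mono ?_) (Submodule.finrank_add_le_finrank_add_finrank _ _)
  rintro _ ⟨c, rfl⟩
  rw [mulVecLin_add, LinearMap.add_apply]
  exact Submodule.add_mem_sup ⟨c, rfl⟩ ⟨c, rfl⟩

theorem f3_cancel (X Y : Mx n m) : X + (X + Y) = Y := by
  rw [← add_assoc, mx_add_self, zero_add]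

theorem f3_sum_shift (X : Mx n m) (g : Mx n m → ℝ) : ∑ Y, g (X + Y) = ∑ Y, g Y :=
  Equiv.sum_comp (Equiv.addLeft X) g

theorem f3_sq_le {d : ℕ} {a : Mx n m → ℝ} (ha : ∀ X, X.rank ≠ d → a X = 0) (X : Mx n m) :
    F3 a X ^ 2 ≤ Nc (2 * d) * ∑ Y', f3W a Y' * f3W a (X + Y') := by
  classical
  have hs : 0 ≤ ∑ Y', f3W a Y' * f3W a (X + Y') :=
    sum_nonneg fun _ _ => mul_nonneg (f3W_nonneg _ _) (f3W_nonneg _ _)
  by_cases hX : X.rank ≤ 2 * d
  · let u : Mx n m → ℝ := fun Y' =>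
      ∑ Y, (if Le2 Y' Y then |a Y| else 0) * (if Le2 (X + Y') (X + Y) then |a (X + Y)| else 0)
    have h1 : |F3 a X| ≤ ∑ Y' ∈ univ.filter fun Y' => Le2 Y' X, u Y' := by
      rw [sum_comm]
      refine (abs_sum_le_sum_abs _ _).trans (sum_le_sum fun Y _ => ?_)
      have hn : ∀ Y' ∈ univ.filter fun Y' => Le2 Y' X, 0 ≤ (if Le2 Y' Y then |a Y| else 0) *
          (if Le2 (X + Y') (X + Y) then |a (X + Y)| else 0) := fun Y' _ => by positivity
      split_ifs with h
      · obtain ⟨Y', h1, h2, h3⟩ := exists_split h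
        refine le_trans (le_of_eq ?_) (single_le_sum hn (mem_filter.2 ⟨mem_univ Y', h1⟩))
        rw [if_pos h2, if_pos h3, abs_mul]
      · rw [abs_zero]
        exact sum_nonneg hn
    have h2 : ∀ Y', u Y' ^ 2 ≤ f3W a Y' * f3W a (X + Y') := fun Y' => by
      refine (sum_mul_sq_le_sq_mul_sq _ _ _).trans (le_of_eq ?_)
      rw [f3_sum_shift X fun Z => (if Le2 (X + Y') Z then |a Z| else 0) ^ 2]
      rfl
    have h3 : ((univ.filter fun Y' => Le2 Y' X).card : ℝ) ≤ Nc (2 * d) := by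
      exact_mod_cast card_le2 hX
    calc F3 a X ^ 2 ≤ (∑ Y' ∈ univ.filter fun Y' => Le2 Y' X, u Y') ^ 2 := by
          rw [← sq_abs]
          gcongr
      _ ≤ _ := sq_sum_le_card_mul_sum_sq
      _ ≤ _ := by
          refine mul_le_mul h3 ((sum_le_sum fun Y' _ => h2 Y').trans ?_)
            (sum_nonneg fun _ _ => sq_nonneg _) (by positivity)
          exact sum_le_sum_of_subset_of_nonneg (filter_subset _ _) fun _ _ _ =>
            mul_nonneg (f3W_nonneg _ _) (f3W_nonneg _ _)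
  · have h0 : F3 a X = 0 := by
      refine sum_eq_zero fun Y _ => ?_
      have h1 : a Y * a (X + Y) = 0 := by
        by_contra hc
        have h2 : Y.rank = d := by
          by_contra h3
          exact hc (by rw [ha Y h3, zero_mul])
        have h3 : (X + Y).rank = d := by
          by_contra h3
          exact hc (by rw [ha _ h3, mul_zero])
        have h4 := f3_rank_add Y (X + Y)
        rw [add_comm X Y, f3_cancel, add_comm Y X] at h4
        omega
      rw [h1, ite_self]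
    rw [h0]
    simpa using mul_nonneg (Nat.cast_nonneg _) hs

theorem f3W_sum {d : ℕ} {a : Mx n m → ℝ} (ha : ∀ X, X.rank ≠ d → a X = 0) :
    ∑ Y', f3W a Y' ≤ Nc d * n2 a := by
  classical
  unfold f3W n2
  rw [sum_comm, mul_sum]
  refine sum_le_sum fun Y _ => ?_
  by_cases h : Y.rank = d
  · have h3 : ((univ.filter fun Y' => Le2 Y' Y).card : ℝ) ≤ Nc d := by
      exact_mod_cast card_le2 h.le
    simp only [ite_pow, sq_abs, ne_eq, OfNat.ofNat_ne_zero, not_false_eq_true, zero_pow]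
    rw [← sum_filter, sum_const, nsmul_eq_mul]
    gcongr
  · simp [ha Y h]

theorem sum_F3_sq_le {d : ℕ} {a : Mx n m → ℝ} (ha : ∀ X, X.rank ≠ d → a X = 0) :
    ∑ X, F3 a X ^ 2 ≤ Nc (2 * d) * (Nc d * n2 a) ^ 2 := by
  refine (sum_le_sum fun X _ => f3_sq_le ha X).trans ?_
  rw [← mul_sum, sum_comm]
  have h : ∀ Y', ∑ X, f3W a Y' * f3W a (X + Y') = f3W a Y' * ∑ Z, f3W a Z := fun Y' => by
    rw [← mul_sum, ← f3_sum_shift Y' (f3W a)]
    simp only [add_comm Y']
  simp only [h, ← sum_mul, ← sq]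
  have h1 := f3W_sum ha
  have h2 : 0 ≤ ∑ Y', f3W a Y' := sum_nonneg fun _ _ => f3W_nonneg _ _
  gcongr

end Vale.Agent.P325.Sse
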