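import Vale.Agent.P325.SseStep
import Vale.Agent.P325.SseF3
import Vale.Agent.P325.SseExp

/-! Small set expansion of the short code graph. -/

namespace Vale.Agent.P325.Sse

open Finset Matrix
open scoped BigOperators

variable {m n : Type} [Fintype m] [DecidableEq m] [Fintype n] [DecidableEq n]

theorem n2_LS_le (d : ℕ) (S : Finset (Pt m n)) (a : Mx n m → ℝ) : n2 (LS d S a) ≤ n2 a := by
  refine sum_le_sum fun X _ => ?_
  unfold LS
  split_ifs
  · exact le_rfl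
  · rw [zero_pow two_ne_zero]
    exact sq_nonneg _

theorem claim_of {d : ℕ} {C : ℝ} (hC0 : 0 ≤ C) {a : Mx n m → ℝ} {e : ℝ} (h : Glob d e (syn a))
    (hS : ∀ S : Finset (Pt m n), S ≠ ∅ → n4 (LS d S a) ≤ C * e * n2 (LS d S a)) :
    n4 (LS d ∅ a) ≤ (2 * (Nc (2 * d) * Nc d ^ 2) + 2 * 2 ^ (2 * 2 ^ (2 * d)) * (C * 2 ^ (2 * 2 ^ d))) *
      e * n2 (LS d ∅ a) := by
  have h0 := n2_nonneg (LS d ∅ a)
  have h1 : n2 (LS d ∅ a) ≤ e := (n2_LS_le d ∅ a).trans h.n2_le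
  have he : 0 ≤ e := h0.trans h1
  have h2 : ∑ X, F3 (LS d ∅ a) X ^ 2 ≤ Nc (2 * d) * Nc d ^ 2 * e * n2 (LS d ∅ a) := by
    refine (sum_F3_sq_le (d := d) fun X hX => if_neg fun h => hX h.1).trans ?_
    calc (Nc (2 * d) : ℝ) * (Nc d * n2 (LS d ∅ a)) ^ 2
        = Nc (2 * d) * Nc d ^ 2 * n2 (LS d ∅ a) * n2 (LS d ∅ a) := by ring
      _ ≤ _ := by gcongr
  have h3 : ∑ S ∈ (univ : Finset (Finset (Pt m n))).erase ∅, n4 (LS d S a) ≤
      C * 2 ^ (2 * 2 ^ d) * e * n2 (LS d ∅ a) := by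
    calc _ ≤ ∑ S ∈ (univ : Finset (Finset (Pt m n))).erase ∅, C * e * n2 (LS d S a) :=
          sum_le_sum fun S hS' => hS S (ne_of_mem_erase hS')
      _ ≤ ∑ S : Finset (Pt m n), C * e * n2 (LS d S a) :=
          sum_le_sum_of_subset_of_nonneg (erase_subset _ _) fun S _ _ =>
            mul_nonneg (mul_nonneg hC0 he) (n2_nonneg _)
      _ = C * e * ∑ S : Finset (Pt m n), n2 (LS d S a) := by rw [mul_sum]
      _ ≤ C * e * (2 ^ (2 * 2 ^ d) * n2 (LS d ∅ a)) :=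
          mul_le_mul_of_nonneg_left (sum_n2_LS d a) (mul_nonneg hC0 he)
      _ = _ := by ring
  refine (n4_le d a).trans ?_
  calc _ ≤ 2 * (Nc (2 * d) * Nc d ^ 2 * e * n2 (LS d ∅ a)) +
        2 * 2 ^ (2 * 2 ^ (2 * d)) * (C * 2 ^ (2 * 2 ^ d) * e * n2 (LS d ∅ a)) := by gcongr
    _ = _ := by ring

theorem exists_claim (d : ℕ) : ∃ C : ℝ, 0 ≤ C ∧ Claim d C := by
  induction d with
  | zero =>
    refine ⟨_, ?_, fun m n _ _ _ _ a e h => claim_of le_rfl h fun S hS => ?_⟩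
    · positivity
    · obtain ⟨p, hp⟩ := nonempty_iff_ne_empty.2 hS
      have h0 : LS 0 S a = fun _ => 0 :=
        funext fun X => if_neg fun h => not_has_of_rank_zero h.1 p (h.2 p hp)
      rw [h0, n4_zero, zero_mul, zero_mul]
  | succ d ih =>
    obtain ⟨C, hC0, hC⟩ := ih
    have hK := zero_le_one.trans (one_le_Kc d)
    have hK' := zero_le_one.trans (one_le_Kc (d + 1))
    have h1 : 0 ≤ C * (Kc d * Kc (d + 1) ^ (2 * 2 ^ (d + 1))) := by positivity
    exact ⟨_, by positivity, fun m n _ _ _ _ a e h =>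
      claim_of h1 h fun S hS => step_set hC0 hC h hS⟩

/-- The level inequality for functions with values in `{0, 1}`. -/
theorem level_le {d : ℕ} {a : Mx n m → ℝ} (hf : ∀ A, syn a A * syn a A = syn a A) {η : ℝ}
    (hη : 0 ≤ η) (h : n4 (LS d ∅ a) ≤ η ^ 3 * n2 (LS d ∅ a)) : n2 (LS d ∅ a) ≤ η * n2 a := by
  have hμ : n2 a = 𝔼 A, syn a A ^ 2 := n2_eq a
  have hW : n2 (LS d ∅ a) = 𝔼 A, syn a A * (syn a A * syn (LS d ∅ a) A) := by
    simp only [← mul_assoc, hf, expect_syn_mul, n2]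
    refine sum_congr rfl fun X _ => ?_
    unfold LS
    split_ifs <;> ring
  have h1 := expect_mul_sq_le_sq_mul_sq univ (syn a) fun A => syn a A * syn (LS d ∅ a) A
  have h2 := expect_mul_sq_le_sq_mul_sq univ (syn a) fun A => syn (LS d ∅ a) A ^ 2
  have h3 : ∀ A, (syn a A * syn (LS d ∅ a) A) ^ 2 = syn a A * syn (LS d ∅ a) A ^ 2 := fun A => by
    rw [mul_pow, sq (syn a A), hf]
  simp only [h3] at h1
  simp only [← pow_mul] at h2
  rw [← hW, ← hμ] at h1
  rw [← hμ] at h2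
  have h0 := n2_nonneg (LS d ∅ a)
  have hμ0 := n2_nonneg a
  change _ ≤ n2 a * n4 (LS d ∅ a) at h2
  generalize (𝔼 A, syn a A * syn (LS d ∅ a) A ^ 2) = t at h1 h2
  generalize n2 (LS d ∅ a) = W at *
  rcases h0.eq_or_lt with rfl | hW0
  · positivity
  · have h4 : W ^ 3 * W ≤ (η * n2 a) ^ 3 * W := by
      calc W ^ 3 * W = (W ^ 2) ^ 2 := by ring
        _ ≤ (n2 a * t) ^ 2 := pow_le_pow_left₀ (sq_nonneg _) h1 2
        _ = n2 a ^ 2 * t ^ 2 := by ring
        _ ≤ n2 a ^ 2 * (n2 a * (η ^ 3 * W)) := by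
            gcongr
            exact h2.trans (mul_le_mul_of_nonneg_left h hμ0)
        _ = _ := by ring
    exact (pow_le_pow_iff_left₀ hW0.le (by positivity) three_ne_zero).1
      (le_of_mul_le_mul_right h4 hW0)

theorem sum_rank_le (r : ℕ) (a : Mx n m → ℝ) :
    ∑ X, a X ^ 2 / 2 ^ X.rank ≤ ∑ d ∈ range r, n2 (LS d ∅ a) + n2 a / 2 ^ r := by
  unfold n2
  rw [sum_comm, sum_div, ← sum_add_distrib]
  refine sum_le_sum fun X _ => ?_
  have h0 : 0 ≤ ∑ d ∈ range r, LS d ∅ a X ^ 2 := sum_nonneg fun _ _ => sq_nonneg _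
  rcases lt_or_ge X.rank r with h | h
  · have h1 := single_le_sum (f := fun d => LS d ∅ a X ^ 2) (fun _ _ => sq_nonneg _)
      (mem_range.2 h)
    have h2 : LS X.rank ∅ a X = a X := if_pos ⟨rfl, by simp⟩
    simp only [h2] at h1
    have h3 : a X ^ 2 / 2 ^ X.rank ≤ a X ^ 2 :=
      div_le_self (sq_nonneg _) (one_le_pow₀ one_le_two)
    have h4 : 0 ≤ a X ^ 2 / 2 ^ r := by positivity
    linarith
  · have h3 : a X ^ 2 / 2 ^ X.rank ≤ a X ^ 2 / 2 ^ r :=
      div_le_div_of_nonneg_left (sq_nonneg _) (by positivity) (pow_le_pow_right₀ one_le_two h)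
    linarith

end Vale.Agent.P325.Sse

namespace Vale.Agent.P325

open Finset Matrix Sse
open scoped BigOperators

theorem sse : SSEStmt := by
  intro ξ hξ
  obtain ⟨r, hr⟩ := pow_unbounded_of_one_lt (2 / ξ) (one_lt_two (α := ℝ))
  choose C hC0 hC using exists_claim
  have hs : 0 ≤ ∑ d ∈ range r, C d := sum_nonneg fun d _ => hC0 d
  have hη : 0 < ξ / 2 / (r + 1) := by positivity
  refine ⟨r, (ξ / 2 / (r + 1)) ^ 3 / (∑ d ∈ range r, C d + 1), by positivity, ?_⟩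
  intro m n _ _ _ _ S hS
  obtain ⟨a, ha⟩ : ∃ a : Mx n m → ℝ, syn a = fun A => ind (A ∈ S) := ⟨_, syn_hatB _⟩
  have hf : ∀ A, syn a A * syn a A = syn a A := fun A => by
    rw [ha]
    by_cases h : A ∈ S <;> simp [ind, h]
  have hG : Glob r ((ξ / 2 / (r + 1)) ^ 3 / (∑ d ∈ range r, C d + 1)) (syn a) := by
    intro z φ T
    simp only [sq, hf]
    rw [ha]
    convert hS z φ T using 2
    ext B
    simp [mem_zoom]
  have hμ : n2 a = 𝔼 A, ind (A ∈ S) := by
    simp only [n2_eq, sq, hf]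
    rw [ha]
  have hlev : ∀ d ∈ range r, n2 (LS d ∅ a) ≤ ξ / 2 / (r + 1) * n2 a := fun d hd => by
    refine level_le hf hη.le ((hC d m n a _ (hG.mono (mem_range.1 hd).le)).trans ?_)
    refine mul_le_mul_of_nonneg_right ?_ (n2_nonneg _)
    rw [mul_div_assoc', div_le_iff₀ (by positivity), mul_comm]
    have := single_le_sum (f := C) (fun d _ => hC0 d) hd
    gcongr
    linarith
  have h1 : ∀ (A : Mx m n) (w : m → ZMod 2) (y : n → ZMod 2),
      ind (A ∈ S ∧ A + vecMulVec w y ∈ S) = syn a A * syn a (A + vecMulVec w y) := fun A w y => by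
    rw [ha]
    by_cases h : A ∈ S <;> simp [ind, h]
  simp only [h1]
  rw [accept_eq, ← hμ]
  refine (sum_rank_le r a).trans ?_
  have h0 := n2_nonneg a
  have h2 := sum_le_card_nsmul _ _ _ hlev
  rw [card_range, nsmul_eq_mul] at h2
  have h3 : (r : ℝ) * (ξ / 2 / (r + 1) * n2 a) ≤ ξ / 2 * n2 a := by
    rw [← mul_assoc, mul_div_assoc']
    refine mul_le_mul_of_nonneg_right ?_ h0
    rw [div_le_iff₀ (by positivity)]
    nlinarith
  have h4 : n2 a / 2 ^ r ≤ ξ / 2 * n2 a := by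
    rw [div_le_iff₀ (by positivity), mul_right_comm]
    refine le_mul_of_one_le_left h0 ?_
    rw [div_lt_iff₀ hξ] at hr
    linarith
  linarith

end Vale.Agent.P325
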