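import Vale.Agent.P325.Four

/-!
Small set expansion of the short code graph: definitions (part SSE of notes/P325.md).
Functions live on matrices `A : Mx m n`, their Fourier coefficients are indexed by `X : Mx n m`, with the
characters `A ↦ chi (X * A).trace`.  We work with coefficient families `a : Mx n m → ℝ`; `syn a` is the function.
-/

namespace Vale.Agent.P325.Sse

open Finset Matrix
open scoped BigOperators

abbrev Mx (m n : Type) : Type := Matrix m n (ZMod 2)

variable {m n : Type} [Fintype m] [DecidableEq m] [Fintype n] [DecidableEq n]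

/-- The function with Fourier coefficients `a`. -/
noncomputable def syn (a : Mx n m → ℝ) (A : Mx m n) : ℝ := ∑ X, a X * chi (X * A).trace

/-- Square of the 2-norm. -/
noncomputable def n2 (a : Mx n m → ℝ) : ℝ := ∑ X, a X ^ 2

/-- Fourth power of the 4-norm. -/
noncomputable def n4 (a : Mx n m → ℝ) : ℝ := 𝔼 A, syn a A ^ 4

open Classical in
/-- A zoom subgroup. -/
noncomputable def zoom {r : ℕ} (z : Fin r → n → ZMod 2) (φ : Fin r → m → ZMod 2) : Finset (Mx m n) :=
  univ.filter fun B => (∀ i, B.mulVec (z i) = 0) ∧ ∀ i, Matrix.vecMul (φ i) B = 0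

/-- Global functions. -/
def Glob (r : ℕ) (e : ℝ) (f : Mx m n → ℝ) : Prop :=
  ∀ (z : Fin r → n → ZMod 2) (φ : Fin r → m → ZMod 2) (T : Mx m n),
    (𝔼 B ∈ zoom z φ, f (T + B) ^ 2) ≤ e

/-- Points: vectors on the column side or on the row side. -/
abbrev Pt (m n : Type) : Type := (n → ZMod 2) ⊕ (m → ZMod 2)

/-- `p` is a nonzero vector of the column space or of the row space of `X`. -/
def Has (X : Mx n m) : Pt m n → Prop
  | .inl z => z ≠ 0 ∧ ∃ c, X.mulVec c = z
  | .inr φ => φ ≠ 0 ∧ ∃ c, Xᵀ.mulVec c = φ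

open Classical in
/-- The set of points of `X`. -/
noncomputable def pts (X : Mx n m) : Finset (Pt m n) := univ.filter (Has X)

open Classical in
/-- The coefficients of rank `d` whose index has all points of `S`. -/
noncomputable def LS (d : ℕ) (S : Finset (Pt m n)) (a : Mx n m → ℝ) (X : Mx n m) : ℝ :=
  if X.rank = d ∧ ∀ p ∈ S, Has X p then a X else 0

open Classical in
/-- The multiplier of `I - 2 ^ k E_p`. -/
noncomputable def cut (k : ℕ) (p : Pt m n) (X : Mx n m) : ℝ :=
  if Has X p then 1 else 1 - 2 ^ k / 2 ^ X.rank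

/-- Loss in globalness under `cut k p`. -/
def Kc (k : ℕ) : ℝ := 2 + 8 * 4 ^ k

open Classical in
/-- Coefficients of the restriction `B ↦ syn a (T + B * P)`. -/
noncomputable def res {n' : Type} (P : Mx n' n) (T : Mx m n) (a : Mx n m → ℝ) (X' : Mx n' m) : ℝ :=
  ∑ X, if P * X = X' then a X * chi (X * T).trace else 0

/-- `P` is the quotient map by the nonzero vector `z`. -/
structure Quo {n' : Type} (P : Mx n' n) (z : n → ZMod 2) : Prop where
  ne : z ≠ 0
  surj : Function.Surjective P.mulVec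
  ker : ∀ v, P.mulVec v = 0 ↔ v = 0 ∨ v = z

/-- Convolution of a coefficient family with itself. -/
noncomputable def cv (a : Mx n m → ℝ) (X : Mx n m) : ℝ := ∑ Y, a Y * a (X + Y)

open Classical in
/-- The part of the convolution coming from triples without a common point. -/
noncomputable def F3 (a : Mx n m → ℝ) (X : Mx n m) : ℝ :=
  ∑ Y, if ∀ p, ¬ (Has X p ∧ Has Y p ∧ Has (X + Y) p) then a Y * a (X + Y) else 0

/-- `Y'` has smaller image and larger kernel than `Y`. -/
def Le2 (Y' Y : Mx n m) : Prop :=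
  (∀ c, ∃ c', Y'.mulVec c = Y.mulVec c') ∧ ∀ c, Y.mulVec c = 0 → Y'.mulVec c = 0

/-- Bound for the number of `Y'` below a matrix of rank at most `k`. -/
def Nc (k : ℕ) : ℕ := (2 ^ k) ^ 2 ^ k

/-- The hypercontractive estimate at level `d` with constant `C`, for all sizes. -/
def Claim (d : ℕ) (C : ℝ) : Prop :=
  ∀ (m n : Type) [Fintype m] [DecidableEq m] [Fintype n] [DecidableEq n] (a : Mx n m → ℝ) (e : ℝ),
    Glob d e (syn a) → n4 (LS d ∅ a) ≤ C * e * n2 (LS d ∅ a)

theorem mx_add_self (X : Mx n m) : X + X = 0 := (perf_trace (m := n) (n := m)).add_self X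

theorem hatB_syn (a : Mx n m → ℝ) (X : Mx n m) :
    hatB (fun (X : Mx n m) (A : Mx m n) => (X * A).trace) (syn a) X = a X := by
  unfold hatB syn
  simp only [sum_mul, mul_assoc]
  rw [expect_sum_comm]
  simp only [← mul_expect, perf_trace.orth2]
  rw [sum_eq_single X (fun Y _ h => by rw [ind_neg h, mul_zero]) (by simp), ind_pos rfl, mul_one]

theorem syn_hatB (f : Mx m n → ℝ) :
    syn (hatB (fun (X : Mx n m) (A : Mx m n) => (X * A).trace) f) = f :=
  funext fun A => (perf_trace.inversion f A).symm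

theorem expect_syn_mul (a b : Mx n m → ℝ) : 𝔼 A, syn a A * syn b A = ∑ X, a X * b X := by
  rw [perf_trace.plancherel]
  simp only [hatB_syn]

theorem n2_eq (a : Mx n m → ℝ) : n2 a = 𝔼 A, syn a A ^ 2 := by
  simp only [n2, sq, expect_syn_mul]

theorem n2_nonneg (a : Mx n m → ℝ) : 0 ≤ n2 a := sum_nonneg fun _ _ => sq_nonneg _

theorem n4_nonneg (a : Mx n m → ℝ) : 0 ≤ n4 a := expect_nonneg fun _ _ => by positivity

theorem n4_zero : n4 (fun _ : Mx n m => (0 : ℝ)) = 0 := by simp [n4, syn]

omit [Fintype m] [Fintype n] [DecidableEq m] [DecidableEq n] in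
theorem one_le_Kc (k : ℕ) : 1 ≤ Kc k := by
  have : (0 : ℝ) ≤ 4 ^ k := by positivity
  unfold Kc
  linarith

theorem mem_pts {X : Mx n m} {p : Pt m n} : p ∈ pts X ↔ Has X p := by simp [pts]

theorem mem_zoom {r : ℕ} {z : Fin r → n → ZMod 2} {φ : Fin r → m → ZMod 2} {B : Mx m n} :
    B ∈ zoom z φ ↔ (∀ i, B.mulVec (z i) = 0) ∧ ∀ i, Matrix.vecMul (φ i) B = 0 := by simp [zoom]

end Vale.Agent.P325.Sse
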