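import Vale.Agent.P325.SseRank

/-!
Multipliers keep globalness (TASK).  `glob_conv`: `(E ω, c ω * x ω)² ≤ K² E ω, (x ω)²` (Cauchy-Schwarz / Jensen,
`Finset.expect_mul_sq_le_sq_mul_sq`), swap the averages (`expect_comm`), `T + B + s ω = (T + s ω) + B`.
`syn_cut`: for `p = inl z` let `c (w, y) = 1 - chi (y ⬝ᵥ z)` if `z ≠ 0`, `c = 1` if `z = 0`; shifts `s (w, y) = vecMulVec w y`;
`(X * vecMulVec w y).trace = y ⬝ᵥ X.mulVec w`, so `E y, chi (y ⬝ᵥ X w) (1 - chi (y ⬝ᵥ z)) = [X w = 0] - [X w = z]` (`perf_dot.orth`, `orth2`),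
whose mean over `w` is `0` if `z` is in the range and `1 / 2 ^ rank` otherwise (`prob_ker`, `prob_eq_of_mem`).  For `p = inr φ` use
`c = 1 - chi (w ⬝ᵥ φ)`, `y ⬝ᵥ X w = w ⬝ᵥ Xᵀ y`, average over `w` first, `rank_transpose`.
`glob_cut`: `(x - t y)² ≤ 2 x² + 2 t² y²`.
-/

namespace Vale.Agent.P325.Sse

open Finset Matrix
open scoped BigOperators

variable {m n : Type} [Fintype m] [DecidableEq m] [Fintype n] [DecidableEq n]

theorem glob_conv {Ω : Type} [Fintype Ω] [Nonempty Ω] {r : ℕ} {e K : ℝ} {f : Mx m n → ℝ}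
    (hf : Glob r e f) (c : Ω → ℝ) (s : Ω → Mx m n) (hc : ∀ ω, |c ω| ≤ K) :
    Glob r (K ^ 2 * e) fun A => 𝔼 ω, c ω * f (A + s ω) := by
  intro z φ T
  have h1 : ∀ A, (𝔼 ω, c ω * f (A + s ω)) ^ 2 ≤ K ^ 2 * 𝔼 ω, f (A + s ω) ^ 2 := by
    intro A
    refine (expect_mul_sq_le_sq_mul_sq univ c fun ω => f (A + s ω)).trans ?_
    refine mul_le_mul_of_nonneg_right (expect_le univ_nonempty fun ω _ => ?_)
      (expect_nonneg fun _ _ => sq_nonneg _)
    rw [← sq_abs]
    exact pow_le_pow_left₀ (abs_nonneg _) (hc ω) 2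
  refine (expect_le_expect fun B _ => h1 (T + B)).trans ?_
  rw [← mul_expect, expect_comm]
  refine mul_le_mul_of_nonneg_left (expect_le univ_nonempty fun ω _ => ?_) (sq_nonneg K)
  simp only [add_right_comm T _ (s ω)]
  exact hf z φ (T + s ω)

omit [DecidableEq m] [DecidableEq n] in
theorem mul_trace (X : Mx n m) (w : m → ZMod 2) (y : n → ZMod 2) :
    (X * vecMulVec w y).trace = (X.mulVec w) ⬝ᵥ y := by
  simp only [Matrix.trace, Matrix.diag, Matrix.mul_apply, vecMulVec_apply, mulVec, dotProduct,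
    sum_mul, mul_assoc]

/-- The action of a weighted average of rank one shifts on the coefficients. -/
theorem mul_syn (c : (m → ZMod 2) × (n → ZMod 2) → ℝ) (a : Mx n m → ℝ) (A : Mx m n) :
    (𝔼 ω, c ω * syn a (A + vecMulVec ω.1 ω.2)) =
      ∑ X, a X * chi (X * A).trace * 𝔼 ω, c ω * chi ((X.mulVec ω.1) ⬝ᵥ ω.2) := by
  unfold syn
  simp only [mul_sum, mul_expect]
  rw [expect_sum_comm]
  refine sum_congr rfl fun X _ => expect_congr rfl fun ω _ => ?_
  rw [Matrix.mul_add, trace_add, chi_add, mul_trace]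
  ring

theorem mul_ker (X : Mx n m) :
    (𝔼 w : m → ZMod 2, 𝔼 y : n → ZMod 2, chi ((X.mulVec w) ⬝ᵥ y)) = 1 / 2 ^ X.rank := by
  simp only [perf_dot.orth]
  exact prob_ker X

open Classical in
theorem mul_col (X : Mx n m) (z : n → ZMod 2) :
    (𝔼 w : m → ZMod 2, 𝔼 y : n → ZMod 2, (1 - chi (z ⬝ᵥ y)) * chi ((X.mulVec w) ⬝ᵥ y)) =
      if ∃ c, X.mulVec c = z then 0 else 1 / 2 ^ X.rank := by
  have h : ∀ w : m → ZMod 2, (𝔼 y : n → ZMod 2, (1 - chi (z ⬝ᵥ y)) * chi ((X.mulVec w) ⬝ᵥ y)) =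
      ind (X.mulVec w = 0) - ind (X.mulVec w = z) := by
    intro w
    rw [← perf_dot.orth, ← perf_dot.orth2, ← expect_sub_distrib]
    exact expect_congr rfl fun y _ => by ring
  simp only [h]
  rw [expect_sub_distrib, prob_ker]
  split_ifs with hz
  · rw [prob_eq_of_mem X hz, sub_self]
  · have : ∀ w, ind (X.mulVec w = z) = 0 := fun w => ind_neg fun e => hz ⟨w, e⟩
    simp [this]

theorem mul_cut (p : Pt m n) : ∃ c : (m → ZMod 2) × (n → ZMod 2) → ℝ, (∀ ω, |c ω| ≤ 2) ∧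
    ∀ (X : Mx n m) (k : ℕ),
      cut k p X = 1 - 2 ^ k * 𝔼 ω, c ω * chi ((X.mulVec ω.1) ⬝ᵥ ω.2) := by
  have habs : ∀ t, |1 - chi t| ≤ 2 := fun t => by
    have := abs_sub (1 : ℝ) (chi t)
    rw [abs_chi, abs_one] at this
    linarith
  have hnot : (∀ X : Mx n m, ¬ Has X p) → ∃ c : (m → ZMod 2) × (n → ZMod 2) → ℝ,
      (∀ ω, |c ω| ≤ 2) ∧ ∀ (X : Mx n m) (k : ℕ),
        cut k p X = 1 - 2 ^ k * 𝔼 ω, c ω * chi ((X.mulVec ω.1) ⬝ᵥ ω.2) := by
    intro h
    refine ⟨fun _ => 1, fun _ => by norm_num, fun X k => ?_⟩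
    simp only [one_mul]
    rw [← univ_product_univ, expect_product, mul_ker, cut, if_neg (h X)]
    ring
  rcases p with z | φ
  · by_cases hz : z = 0
    · exact hnot fun X hX => hX.1 hz
    refine ⟨fun ω => 1 - chi (z ⬝ᵥ ω.2), fun ω => habs _, fun X k => ?_⟩
    rw [← univ_product_univ, expect_product, mul_col, cut]
    by_cases h : ∃ c, X.mulVec c = z
    · rw [if_pos h, if_pos (show Has X (.inl z) from ⟨hz, h⟩)]
      ring
    · rw [if_neg h, if_neg (show ¬ Has X (.inl z) from fun hX => h hX.2)]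
      ring
  · by_cases hz : φ = 0
    · exact hnot fun X hX => hX.1 hz
    refine ⟨fun ω => 1 - chi (φ ⬝ᵥ ω.1), fun ω => habs _, fun X k => ?_⟩
    have e : ∀ (w : m → ZMod 2) (y : n → ZMod 2), (X.mulVec w) ⬝ᵥ y = (Xᵀ.mulVec y) ⬝ᵥ w := by
      intro w y
      rw [mulVec_transpose, dotProduct_comm, dotProduct_mulVec]
    rw [← univ_product_univ, expect_product, expect_comm]
    simp only [e]
    rw [mul_col, rank_transpose, cut]
    by_cases h : ∃ c, Xᵀ.mulVec c = φ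
    · rw [if_pos h, if_pos (show Has X (.inr φ) from ⟨hz, h⟩)]
      ring
    · rw [if_neg h, if_neg (show ¬ Has X (.inr φ) from fun hX => h hX.2)]
      ring

theorem syn_cut (k : ℕ) (p : Pt m n) : ∃ c : (m → ZMod 2) × (n → ZMod 2) → ℝ, (∀ ω, |c ω| ≤ 2) ∧
    ∀ (a : Mx n m → ℝ) (A : Mx m n), syn (fun X => a X * cut k p X) A =
      syn a A - 2 ^ k * 𝔼 ω, c ω * syn a (A + vecMulVec ω.1 ω.2) := by
  obtain ⟨c, hc, h⟩ := mul_cut p
  refine ⟨c, hc, fun a A => ?_⟩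
  rw [mul_syn, syn, syn, mul_sum, ← sum_sub_distrib]
  refine sum_congr rfl fun X _ => ?_
  rw [h X k]
  ring

theorem glob_cut {r : ℕ} {e : ℝ} {a : Mx n m → ℝ} (h : Glob r e (syn a)) (k : ℕ) (p : Pt m n) :
    Glob r (Kc k * e) (syn fun X => a X * cut k p X) := by
  obtain ⟨c, hc, hs⟩ := syn_cut k p
  have h2 := glob_conv h c (fun ω => vecMulVec ω.1 ω.2) hc
  intro z φ T
  have h3 := h z φ T
  have h4 := h2 z φ T
  have h5 : (4 : ℝ) ^ k = (2 ^ k) ^ 2 := by rw [← pow_mul, mul_comm, pow_mul]; norm_num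
  calc (𝔼 B ∈ zoom z φ, syn (fun X => a X * cut k p X) (T + B) ^ 2)
      ≤ 𝔼 B ∈ zoom z φ, (2 * syn a (T + B) ^ 2 +
          2 * 4 ^ k * (𝔼 ω, c ω * syn a (T + B + vecMulVec ω.1 ω.2)) ^ 2) := by
        refine expect_le_expect fun B _ => ?_
        rw [hs, h5]
        nlinarith [sq_nonneg (syn a (T + B) +
          2 ^ k * 𝔼 ω, c ω * syn a (T + B + vecMulVec ω.1 ω.2))]
    _ ≤ Kc k * e := by
        rw [expect_add_distrib, ← mul_expect, ← mul_expect, Kc]
        have h6 : (0 : ℝ) ≤ 2 * 4 ^ k := by positivity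
        have h7 := mul_le_mul_of_nonneg_left h4 h6
        linarith

theorem glob_prod_cut {r : ℕ} {e : ℝ} {a : Mx n m → ℝ} (h : Glob r e (syn a)) (k : ℕ)
    (S : Finset (Pt m n)) : Glob r (Kc k ^ S.card * e) (syn fun X => a X * ∏ p ∈ S, cut k p X) := by
  classical
  induction S using Finset.induction_on with
  | empty => simpa using h
  | insert p S hp ih =>
    have h1 := glob_cut ih k p
    simp only [prod_insert hp, card_insert_of_notMem hp, pow_succ']
    simp only [mul_assoc, mul_comm (∏ p ∈ S, cut k p _)] at h1 ⊢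
    exact h1

/-- The noise operator of the short code graph. -/
theorem accept_eq (a : Mx n m → ℝ) :
    (𝔼 A : Mx m n, 𝔼 w : m → ZMod 2, 𝔼 y : n → ZMod 2, syn a A * syn a (A + vecMulVec w y)) =
      ∑ X, a X ^ 2 / 2 ^ X.rank := by
  have h1 : ∀ A : Mx m n, (𝔼 w : m → ZMod 2, 𝔼 y : n → ZMod 2, syn a (A + vecMulVec w y)) =
      syn (fun X => a X / 2 ^ X.rank) A := by
    intro A
    have h2 := mul_syn (fun _ => 1) a A
    simp only [one_mul] at h2
    rw [← univ_product_univ, expect_product] at h2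
    rw [h2, syn]
    refine sum_congr rfl fun X _ => ?_
    rw [expect_product, mul_ker]
    ring
  simp only [← mul_expect, h1]
  rw [expect_syn_mul]
  exact sum_congr rfl fun X _ => by ring

end Vale.Agent.P325.Sse
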