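import Vale.Agent.P325.SseDefs

/-!
Rank and counting (TASK).  `card_range`: the set is the range of `X.mulVecLin`, a space of dimension `X.rank`
(`Module.card_eq_pow_finrank`, `ZMod.card`).  `prob_ker`: all nonempty fibres of `mulVec` are translates of the kernel
(`expect_add_left'`), the indicators of the `2 ^ rank` fibres sum to one (or rank-nullity).  `card_pts`: `Finset.card_le_card`
into the disjoint union of the two ranges, `Matrix.rank_transpose`.
`exists_quo`: pick `j` with `z j = 1`, `n' = {i // i ≠ j}`, `(P v) i = v i + z i * v j`, i.e. `P i k = [k = i] + [k = j] z i`.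
`Quo.rank_*`: count: `2 ^ rank` is the size of the range; `P` maps the range of `X` onto the range of `P * X`; the map is
injective if `z` is not in the range and two to one otherwise (or: `LinearMap.finrank_range_add_finrank_ker` for the
restriction of `P.mulVecLin` to the range of `X.mulVecLin`, whose kernel is `⊥` or spanned by `z`).
-/

namespace Vale.Agent.P325.Sse

open Finset Matrix
open scoped BigOperators

variable {m n : Type} [Fintype m] [DecidableEq m] [Fintype n] [DecidableEq n]

open Classical in
theorem card_range (X : Mx n m) :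
    (univ.filter fun z => ∃ c, X.mulVec c = z).card = 2 ^ X.rank := by
  have h := Module.card_eq_pow_finrank (K := ZMod 2) (V := LinearMap.range X.mulVecLin)
  rw [ZMod.card, Fintype.card_subtype] at h
  refine Eq.trans ?_ h
  congr 1
  ext z
  simp only [mem_filter, mem_univ, true_and]
  rfl

theorem rk_prob_fibre (X : Mx n m) {z : n → ZMod 2} (h : ∃ c, X.mulVec c = z) :
    (𝔼 w, ind (X.mulVec w = z)) = 𝔼 w, ind (X.mulVec w = 0) := by
  obtain ⟨c, rfl⟩ := h
  rw [← expect_add_left' (fun w => ind (X.mulVec w = X.mulVec c)) c]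
  simp only [mulVec_add, add_eq_left]

theorem prob_ker (X : Mx n m) : (𝔼 w, ind (X.mulVec w = 0)) = 1 / 2 ^ X.rank := by
  classical
  have h1 : ∑ z ∈ univ.filter fun z => ∃ c, X.mulVec c = z, (𝔼 w, ind (X.mulVec w = z)) = 1 := by
    rw [← expect_sum_comm]
    have : ∀ w : m → ZMod 2,
        ∑ z ∈ univ.filter fun z => ∃ c, X.mulVec c = z, ind (X.mulVec w = z) = 1 := fun w => by
      rw [sum_eq_single (X.mulVec w) (fun z _ hz => ind_neg (Ne.symm hz)) (by simp), ind_pos rfl]
    simp only [this]
    exact expect_const univ_nonempty _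
  rw [sum_congr rfl fun z hz => rk_prob_fibre X (mem_filter.1 hz).2, sum_const] at h1
  have h2 := card_range X
  rw [eq_div_iff (by positivity), mul_comm, ← h1, nsmul_eq_mul]
  congr 1
  exact_mod_cast (by convert h2.symm)

theorem prob_eq_of_mem (X : Mx n m) {z : n → ZMod 2} (h : ∃ c, X.mulVec c = z) :
    (𝔼 w, ind (X.mulVec w = z)) = 1 / 2 ^ X.rank := by
  rw [rk_prob_fibre X h, prob_ker]

theorem card_pts (X : Mx n m) : (pts X).card ≤ 2 * 2 ^ X.rank := by
  classical
  have h1 := card_range X
  have h2 := card_range Xᵀ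
  rw [rank_transpose] at h2
  rw [two_mul]
  nth_rewrite 1 [← h1]
  rw [← h2, ← card_disjSum]
  refine card_le_card fun p hp => ?_
  rcases p with z | φ
  · simpa using (mem_pts.1 hp).2
  · simpa using (mem_pts.1 hp).2

theorem not_has_of_rank_zero {X : Mx n m} (h : X.rank = 0) (p : Pt m n) : ¬ Has X p := by
  have h0 : X = 0 := by
    have h1 : LinearMap.range X.mulVecLin = ⊥ := Submodule.finrank_eq_zero.1 h
    ext i j
    have h2 : X.mulVec (Pi.single j 1) ∈ LinearMap.range X.mulVecLin := ⟨_, rfl⟩
    rw [h1, Submodule.mem_bot] at h2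
    simpa using congrFun h2 i
  subst h0
  rcases p with z | φ
  · rintro ⟨hz, c, rfl⟩
    exact hz (zero_mulVec c)
  · rintro ⟨hz, c, rfl⟩
    exact hz (zero_mulVec c)

theorem exists_quo {z : n → ZMod 2} (hz : z ≠ 0) :
    ∃ (n' : Type) (_ : Fintype n') (_ : DecidableEq n') (P : Mx n' n), Quo P z := by
  obtain ⟨j, hj⟩ := Function.ne_iff.1 hz
  have hj1 : z j = 1 := z2_ne_zero.1 hj
  let P : Mx {i // i ≠ j} n :=
    Matrix.of fun i k => (if k = i.1 then 1 else 0) + if k = j then z i.1 else 0
  have hP : ∀ v i, P.mulVec v i = v i.1 + z i.1 * v j := fun v i => by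
    simp [P, mulVec, dotProduct, add_mul, sum_add_distrib]
  refine ⟨{i // i ≠ j}, inferInstance, inferInstance, P, hz, fun u => ?_, fun v => ?_⟩
  · refine ⟨fun k => if h : k = j then 0 else u ⟨k, h⟩, funext fun i => ?_⟩
    rw [hP]
    simp [i.2]
  · constructor
    · intro h
      have h1 : ∀ i, i ≠ j → v i = z i * v j := fun i hi => by
        have := congrFun h ⟨i, hi⟩
        rw [hP] at this
        exact z2_add_eq_zero.1 this
      rcases z2_cases (v j) with h2 | h2
      · refine Or.inl (funext fun i => ?_)
        by_cases hi : i = j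
        · rw [hi, h2, Pi.zero_apply]
        · rw [h1 i hi, h2, mul_zero, Pi.zero_apply]
      · refine Or.inr (funext fun i => ?_)
        by_cases hi : i = j
        · rw [hi, h2, hj1]
        · rw [h1 i hi, h2, mul_one]
    · rintro (rfl | rfl)
      · exact mulVec_zero _
      · funext i
        rw [hP, hj1, mul_one, z2_add_self, Pi.zero_apply]

omit [DecidableEq m] in
theorem rk_quo {n' : Type} [Fintype n'] (P : Mx n' n) (X : Mx n m) :
    (P * X).rank + Module.finrank (ZMod 2)
      (LinearMap.ker (P.mulVecLin.domRestrict (LinearMap.range X.mulVecLin))) = X.rank := by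
  have h := LinearMap.finrank_range_add_finrank_ker
    (P.mulVecLin.domRestrict (LinearMap.range X.mulVecLin))
  rw [LinearMap.range_domRestrict, ← LinearMap.range_comp, ← mulVecLin_mul] at h
  exact h

theorem Quo.rank_of_has {n' : Type} [Fintype n'] [DecidableEq n'] {P : Mx n' n} {z : n → ZMod 2}
    (h : Quo P z) {X : Mx n m} (hX : Has X (.inl z)) : (P * X).rank + 1 = X.rank := by
  rw [← rk_quo P X, Nat.add_left_cancel_iff, eq_comm]
  let v : LinearMap.range X.mulVecLin := ⟨z, hX.2⟩
  have hv : v ≠ 0 := fun e => h.ne (congrArg Subtype.val e)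
  suffices hs : LinearMap.ker (P.mulVecLin.domRestrict (LinearMap.range X.mulVecLin)) =
      Submodule.span (ZMod 2) {v} by rw [hs, finrank_span_singleton hv]
  refine le_antisymm (fun w hw => ?_) ?_
  · rcases (h.ker w.1).1 hw with e | e
    · rw [show w = 0 from Subtype.ext e]
      exact Submodule.zero_mem _
    · rw [show w = v from Subtype.ext e]
      exact Submodule.mem_span_singleton_self v
  · rw [Submodule.span_singleton_le_iff_mem]
    exact (h.ker z).2 (Or.inr rfl)

theorem Quo.rank_of_not {n' : Type} [Fintype n'] [DecidableEq n'] {P : Mx n' n} {z : n → ZMod 2}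
    (h : Quo P z) {X : Mx n m} (hX : ¬ Has X (.inl z)) : (P * X).rank = X.rank := by
  rw [← rk_quo P X, left_eq_add, Submodule.finrank_eq_zero, eq_bot_iff]
  intro w hw
  rcases (h.ker w.1).1 hw with e | e
  · exact Subtype.ext e
  · exact absurd ⟨h.ne, e ▸ w.2⟩ hX

end Vale.Agent.P325.Sse
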