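import Vale.Agent.P325.SseDefs

/-!
Restrictions, transposition, monotonicity (TASK).
`Glob.mono`: pad with zero vectors, `fun i => if h : i < d then z ⟨i, h⟩ else 0` gives the same zoom.
`Glob.n2_le`: the zoom of the zero vectors is `univ`, `n2_eq`.
`Glob.transpose`: `B ↦ Bᵀ` maps `zoom z φ` onto `zoom φ z` (`expect_nbij'` or `expect_equiv`, `mulVec_transpose`, `vecMul_transpose`).
`Glob.res`: choose `z' i = P (zz i)`; `B' ↦ B' * P` is a bijection from `zoom z' φ` onto
`zoom (Fin.cons z zz) (Fin.cons 0 φ)`: take a matrix `Q` with `P * Q = 1` (`P.mulVec` is onto: choose the columns); the inverse is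
`B ↦ B * Q`, because `Q (P v) + v` is in the kernel of `P`, hence `0` or `z`, so `B * Q * P = B` when `B z = 0`.
`syn_res`: `(X * (T + B * P)).trace = (X * T).trace + (P * X * B).trace` (`trace_mul_cycle`), `sum_comm`.
`expect_res`: `expect_comm` and `expect_add_right'`.
-/

namespace Vale.Agent.P325.Sse

open Finset Matrix
open scoped BigOperators

variable {m n : Type} [Fintype m] [DecidableEq m] [Fintype n] [DecidableEq n]

theorem Glob.mono {r d : ℕ} {e : ℝ} {f : Mx m n → ℝ} (h : Glob r e f) (hd : d ≤ r) :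
    Glob d e f := by
  intro z φ T
  have h1 := h (fun i => if h : i.val < d then z ⟨i, h⟩ else 0)
    (fun i => if h : i.val < d then φ ⟨i, h⟩ else 0) T
  have h2 : (zoom (fun i : Fin r => if h : i.val < d then z ⟨i, h⟩ else 0)
      (fun i : Fin r => if h : i.val < d then φ ⟨i, h⟩ else 0) : Finset (Mx m n)) = zoom z φ := by
    ext B
    simp only [mem_zoom]
    constructor
    · rintro ⟨h1, h2⟩
      exact ⟨fun i => by simpa using h1 ⟨i, by omega⟩, fun i => by simpa using h2 ⟨i, by omega⟩⟩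
    · rintro ⟨h1, h2⟩
      constructor
      · intro i
        split_ifs with hi
        · exact h1 _
        · simp
      · intro i
        split_ifs with hi
        · exact h2 _
        · simp
  rwa [h2] at h1

theorem Glob.n2_le {r : ℕ} {e : ℝ} {a : Mx n m → ℝ} (h : Glob r e (syn a)) : n2 a ≤ e := by
  have h1 := h (fun _ => 0) (fun _ => 0) 0
  have h2 : (zoom (fun _ : Fin r => (0 : n → ZMod 2)) (fun _ : Fin r => (0 : m → ZMod 2)) :
      Finset (Mx m n)) = univ := by
    ext B
    simp [mem_zoom]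
  rw [h2] at h1
  simpa [n2_eq] using h1

theorem Glob.transpose {r : ℕ} {e : ℝ} {f : Mx m n → ℝ} (h : Glob r e f) :
    Glob r e fun A : Mx n m => f Aᵀ := by
  intro z φ T
  refine le_of_eq_of_le ?_ (h φ z Tᵀ)
  refine expect_equiv (Matrix.transposeAddEquiv n m (ZMod 2)).toEquiv (fun B => ?_) fun B _ => ?_
  · simp only [mem_zoom]
    change _ ↔ (∀ i, Bᵀ *ᵥ φ i = 0) ∧ ∀ i, z i ᵥ* Bᵀ = 0
    simp only [mulVec_transpose, vecMul_transpose]
    exact and_comm
  · change f (T + B)ᵀ ^ 2 = f (Tᵀ + Bᵀ) ^ 2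
    rw [transpose_add]

theorem syn_transpose (a : Mx n m → ℝ) (A : Mx n m) :
    syn (fun X : Mx m n => a Xᵀ) A = syn a Aᵀ := by
  unfold syn
  refine sum_equiv (Matrix.transposeAddEquiv m n (ZMod 2)).toEquiv (by simp) fun X _ => ?_
  change a Xᵀ * chi (X * A).trace = a Xᵀ * chi (Xᵀ * Aᵀ).trace
  rw [← transpose_mul, trace_transpose, trace_mul_comm]

theorem n2_transpose (a : Mx n m → ℝ) : n2 (fun X : Mx m n => a Xᵀ) = n2 a :=
  sum_equiv (Matrix.transposeAddEquiv m n (ZMod 2)).toEquiv (by simp) fun _ _ => rfl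

theorem n4_transpose (a : Mx n m → ℝ) : n4 (fun X : Mx m n => a Xᵀ) = n4 a := by
  unfold n4
  simp only [syn_transpose]
  exact expect_equiv (Matrix.transposeAddEquiv n m (ZMod 2)).toEquiv (by simp) fun _ _ => rfl

variable {n' : Type} [Fintype n'] [DecidableEq n'] {P : Mx n' n}

omit [DecidableEq n] [Fintype n'] in
theorem res_right_inv (h : Function.Surjective P.mulVec) : ∃ Q : Mx n n', P * Q = 1 := by
  choose q hq using h
  refine ⟨Matrix.of fun i j => q (Pi.single j 1) i, ?_⟩
  ext i j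
  have := congrFun (hq (Pi.single j 1)) i
  rw [Matrix.one_apply, Matrix.mul_apply]
  simp only [mulVec, dotProduct, Pi.single_apply] at this
  simpa using this

theorem Glob.res {z : n → ZMod 2} (hP : Quo P z) {r : ℕ} {e : ℝ} {f : Mx m n → ℝ}
    (h : Glob (r + 1) e f) (T : Mx m n) : Glob r e fun B : Mx m n' => f (T + B * P) := by
  intro z' φ T'
  obtain ⟨Q, hQ⟩ := res_right_inv hP.surj
  have hz : P *ᵥ z = 0 := (hP.ker z).2 (Or.inr rfl)
  have key : ∀ B : Mx m n, B *ᵥ z = 0 → B * Q * P = B := by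
    intro B hB
    rw [Matrix.ext_iff_mulVec]
    intro v
    have h1 : P *ᵥ (Q *ᵥ (P *ᵥ v) - v) = 0 := by
      rw [mulVec_sub, mulVec_mulVec, hQ, one_mulVec, sub_self]
    have h2 : B *ᵥ (Q *ᵥ (P *ᵥ v) - v) = 0 := by
      rcases (hP.ker _).1 h1 with h2 | h2
      · rw [h2, mulVec_zero]
      · rw [h2, hB]
    rw [mulVec_sub, sub_eq_zero] at h2
    rw [← mulVec_mulVec, ← mulVec_mulVec, h2]
  refine le_of_eq_of_le ?_ (h (Fin.cons z fun i => Q *ᵥ z' i) (Fin.cons 0 φ) (T + T' * P))
  refine expect_nbij' (fun B => B * P) (fun B => B * Q) ?_ ?_ ?_ ?_ ?_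
  · intro B hB
    obtain ⟨h1, h2⟩ := mem_zoom.1 hB
    refine mem_zoom.2 ⟨fun i => ?_, fun i => ?_⟩
    · refine Fin.cases ?_ (fun i => ?_) i
      · rw [Fin.cons_zero, ← mulVec_mulVec, hz, mulVec_zero]
      · rw [Fin.cons_succ, mulVec_mulVec, Matrix.mul_assoc, hQ, Matrix.mul_one, h1]
    · refine Fin.cases ?_ (fun i => ?_) i
      · rw [Fin.cons_zero, zero_vecMul]
      · rw [Fin.cons_succ, ← vecMul_vecMul, h2, zero_vecMul]
  · intro B hB
    obtain ⟨h1, h2⟩ := mem_zoom.1 hB
    refine mem_zoom.2 ⟨fun i => ?_, fun i => ?_⟩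
    · have := h1 i.succ
      rwa [Fin.cons_succ, mulVec_mulVec] at this
    · have := h2 i.succ
      rw [Fin.cons_succ] at this
      rw [← vecMul_vecMul, this, zero_vecMul]
  · intro B _
    simp only [Matrix.mul_assoc, hQ, Matrix.mul_one]
  · intro B hB
    have := (mem_zoom.1 hB).1 0
    rw [Fin.cons_zero] at this
    exact key B this
  · intro B _
    simp only [Matrix.add_mul, add_assoc]

theorem syn_res (P : Mx n' n) (T : Mx m n) (a : Mx n m → ℝ) (B : Mx m n') :
    syn (res P T a) B = syn a (T + B * P) := by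
  unfold syn res
  simp only [sum_mul]
  rw [sum_comm]
  refine sum_congr rfl fun X _ => ?_
  rw [sum_eq_single (P * X) (fun Y _ hY => by rw [if_neg hY.symm, zero_mul]) (by simp), if_pos rfl,
    Matrix.mul_add, trace_add, chi_add, mul_assoc, ← Matrix.mul_assoc, trace_mul_cycle X B P]

theorem expect_res (P : Mx n' n) (F : Mx m n → ℝ) :
    (𝔼 T : Mx m n, 𝔼 B : Mx m n', F (T + B * P)) = 𝔼 A, F A := by
  rw [expect_comm]
  simp only [expect_add_right']
  simp

end Vale.Agent.P325.Sse
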