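import Vale.Agent.P325.SseRank

/-!
Splitting a triple without common points (TASK).
`mem_row`: a functional killing the kernel of `X` factors through `X` (`LinearMap.range_dualMap_eq_dualAnnihilator_ker`, or
`LinearMap.exists_extend` of the induced functional on the range; functionals on `n → ZMod 2` are dot products).
`exists_split`: let `Z = X + Y` (so `X = Y + Z`, characteristic two, `mx_add_self`).  (1) `ker X ⊔ ker Y ⊔ ker Z = ⊤`: otherwise a nonzero
functional `φ ⬝ᵥ ·` kills the three kernels (`Submodule.exists_dual_map_eq_bot_of_lt_top`), and `inr φ` is a common point by `mem_row`.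
(2) `L (w₁, w₂, w₃) = w₁ + w₂ + w₃` on `ker X × ker Y × ker Z` is onto, `M (w₁, w₂, w₃) = X w₃`.  If `L w = 0` then
`X w₃ = Y w₃ = X w₂ = Z w₂` lies in the three ranges, so it is `0` (no common point `inl _`).  With a linear section `s` of `L`
(`LinearMap.exists_rightInverse_of_surjective`) put `Y' = toMatrix' (M ∘ s)`; then `Y' (w₁ + w₂ + w₃) = X w₃ = Y w₃` and
`(X + Y') (w₁ + w₂ + w₃) = X w₂ = Z w₂`.
`card_le2`: `Y'` is determined by the function `range Y → range Y`, `Y c ↦ Y' c`; `card_range`, `Fintype.card_fun`.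
-/

namespace Vale.Agent.P325.Sse

open Finset Matrix
open scoped BigOperators

variable {m n : Type} [Fintype m] [DecidableEq m] [Fintype n] [DecidableEq n]

theorem split_dual (g : Module.Dual (ZMod 2) (n → ZMod 2)) : ∃ y, ∀ v, g v = y ⬝ᵥ v :=
  ⟨fun i => g fun j => if i = j then 1 else 0, fun v => by
    rw [LinearMap.pi_apply_eq_sum_univ g v]
    simp only [dotProduct, smul_eq_mul, mul_comm]⟩

theorem mem_row (X : Mx n m) {φ : m → ZMod 2} (h : ∀ c, X.mulVec c = 0 → φ ⬝ᵥ c = 0) :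
    ∃ y, Xᵀ.mulVec y = φ := by
  have h1 : dotProductBilin (ZMod 2) (ZMod 2) φ ∈ (LinearMap.ker X.mulVecLin).dualAnnihilator := by
    rw [Submodule.mem_dualAnnihilator]
    exact fun c hc => h c hc
  rw [← LinearMap.range_dualMap_eq_dualAnnihilator_ker] at h1
  obtain ⟨g, hg⟩ := h1
  obtain ⟨y, hy⟩ := split_dual g
  refine ⟨y, dotProduct_eq _ _ fun c => ?_⟩
  have h2 : g (X.mulVec c) = φ ⬝ᵥ c := congrArg (fun f => f c) hg
  rw [← h2, hy, mulVec_transpose, dotProduct_mulVec]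

theorem split_add_self (v : n → ZMod 2) : v + v = 0 := by
  funext i
  exact CharTwo.add_self_eq_zero (v i)

theorem exists_split {X Y : Mx n m} (h : ∀ p, ¬ (Has X p ∧ Has Y p ∧ Has (X + Y) p)) :
    ∃ Y', Le2 Y' X ∧ Le2 Y' Y ∧ Le2 (X + Y') (X + Y) := by
  set K₁ := LinearMap.ker X.mulVecLin
  set K₂ := LinearMap.ker Y.mulVecLin
  set K₃ := LinearMap.ker (X + Y).mulVecLin
  let L : (K₁ × K₂ × K₃) →ₗ[ZMod 2] (m → ZMod 2) :=
    K₁.subtype.coprod (K₂.subtype.coprod K₃.subtype)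
  have hL : ∀ w : K₁ × K₂ × K₃, L w = w.1.1 + (w.2.1.1 + w.2.2.1) := fun w => rfl
  have htop : LinearMap.range L = ⊤ := by
    by_contra hc
    obtain ⟨g, hg0, hg⟩ := (LinearMap.range L).exists_dual_map_eq_bot_of_lt_top
      (lt_top_iff_ne_top.2 hc) inferInstance
    obtain ⟨φ, hφ⟩ := split_dual g
    have h0 : φ ≠ 0 := by
      rintro rfl
      exact hg0 (LinearMap.ext fun v => by rw [hφ, zero_dotProduct]; rfl)
    have h1 : ∀ w, φ ⬝ᵥ L w = 0 := fun w => by
      rw [← hφ, ← Submodule.mem_bot (ZMod 2), ← hg]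
      exact Submodule.mem_map_of_mem (LinearMap.mem_range_self L w)
    refine h (.inr φ) ⟨⟨h0, mem_row X fun c hc => ?_⟩, ⟨h0, mem_row Y fun c hc => ?_⟩,
      ⟨h0, mem_row (X + Y) fun c hc => ?_⟩⟩
    · simpa [hL] using h1 (⟨c, hc⟩, 0, 0)
    · simpa [hL] using h1 (0, ⟨c, hc⟩, 0)
    · simpa [hL] using h1 (0, 0, ⟨c, hc⟩)
  have e3 : ∀ w : K₃, X.mulVec w.1 = Y.mulVec w.1 := fun w => by
    have h1 : X.mulVec w.1 + Y.mulVec w.1 = 0 := by rw [← add_mulVec]; exact w.2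
    rw [← add_zero (X.mulVec w.1), ← split_add_self (Y.mulVec w.1), ← add_assoc, h1, zero_add]
  have e2 : ∀ w : K₂, (X + Y).mulVec w.1 = X.mulVec w.1 := fun w => by
    have h1 : Y.mulVec w.1 = 0 := w.2
    rw [add_mulVec, h1, add_zero]
  have eX : ∀ w : K₁ × K₂ × K₃, X.mulVec (L w) + X.mulVec w.2.2.1 = X.mulVec w.2.1.1 := fun w => by
    have h1 : X.mulVec w.1.1 = 0 := w.1.2
    rw [hL, mulVec_add, mulVec_add, h1, zero_add, add_assoc, split_add_self, add_zero]
  have hker : ∀ w : K₁ × K₂ × K₃, L w = 0 → X.mulVec w.2.2.1 = 0 := fun w hw => by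
    by_contra hc
    have h1 := eX w
    rw [hw, mulVec_zero, zero_add] at h1
    exact h (.inl (X.mulVec w.2.2.1)) ⟨⟨hc, _, rfl⟩, ⟨hc, _, (e3 _).symm⟩,
      ⟨hc, _, (e2 _).trans h1.symm⟩⟩
  obtain ⟨s, hs⟩ := L.exists_rightInverse_of_surjective htop
  have hs' : ∀ c, L (s c) = c := fun c => congrArg (fun f => f c) hs
  let M : (K₁ × K₂ × K₃) →ₗ[ZMod 2] (n → ZMod 2) :=
    X.mulVecLin ∘ₗ K₃.subtype ∘ₗ LinearMap.snd _ _ _ ∘ₗ LinearMap.snd _ _ _
  have key : ∀ w, (LinearMap.toMatrix' (M ∘ₗ s)).mulVec (L w) = X.mulVec w.2.2.1 := fun w => by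
    have h1 : M (s (L w) - w) = 0 := hker (s (L w) - w) (by rw [map_sub, hs', sub_self])
    rw [map_sub, sub_eq_zero] at h1
    rw [LinearMap.toMatrix'_mulVec]
    exact h1
  have key' : ∀ c, (LinearMap.toMatrix' (M ∘ₗ s)).mulVec c = X.mulVec (s c).2.2.1 := fun c => by
    rw [← key, hs']
  refine ⟨LinearMap.toMatrix' (M ∘ₗ s), ⟨fun c => ⟨_, key' c⟩, fun c hc => ?_⟩,
    ⟨fun c => ⟨_, (key' c).trans (e3 _)⟩, fun c hc => ?_⟩, ⟨fun c => ⟨(s c).2.1.1, ?_⟩, fun c hc => ?_⟩⟩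
  · simpa [hL] using key (⟨c, hc⟩, 0, 0)
  · simpa [hL] using key (0, ⟨c, hc⟩, 0)
  · rw [add_mulVec, key', e2, ← eX, hs']
  · have h1 := key (0, 0, ⟨c, hc⟩)
    simp only [hL, ZeroMemClass.coe_zero, zero_add] at h1
    rw [add_mulVec, h1, split_add_self]

open Classical in
theorem card_le2 {Y : Mx n m} {k : ℕ} (h : Y.rank ≤ k) :
    (univ.filter fun Y' => Le2 Y' Y).card ≤ Nc k := by
  set R := univ.filter fun z => ∃ c, Y.mulVec c = z with hR
  have hc : R.card = 2 ^ Y.rank := card_range Y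
  have hm : ∀ z : R, ∃ c, Y.mulVec c = z.1 := fun z => (mem_filter.1 z.2).2
  choose t ht using hm
  have h1 : (univ.filter fun Y' => Le2 Y' Y).card ≤ (Fintype.piFinset fun _ : R => R).card := by
    refine card_le_card_of_injOn (fun Y' z => Y'.mulVec (t z)) (fun Y' hY => ?_) ?_
    · have hY := (mem_filter.1 hY).2
      refine Fintype.mem_piFinset.2 fun z => mem_filter.2 ⟨mem_univ _, ?_⟩
      obtain ⟨c, hc⟩ := hY.1 (t z)
      exact ⟨c, hc.symm⟩
    · intro A hA B hB hAB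
      have hA := (mem_filter.1 hA).2
      have hB := (mem_filter.1 hB).2
      refine Matrix.ext_iff_mulVec.2 fun c => ?_
      let z : R := ⟨Y.mulVec c, mem_filter.2 ⟨mem_univ _, c, rfl⟩⟩
      have h0 : Y.mulVec (c - t z) = 0 := by rw [mulVec_sub, ht, sub_self]
      have a1 := hA.2 _ h0
      have a2 := hB.2 _ h0
      have a3 : A.mulVec (t z) = B.mulVec (t z) := congrFun hAB z
      rw [mulVec_sub, sub_eq_zero] at a1 a2
      rw [a1, a2, a3]
  refine h1.trans ?_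
  rw [Fintype.card_piFinset, prod_const, card_univ, Fintype.card_coe, hc, Nc]
  have h2 : 2 ^ Y.rank ≤ 2 ^ k := Nat.pow_le_pow_right (by norm_num) h
  exact (Nat.pow_le_pow_left h2 _).trans (Nat.pow_le_pow_right (by positivity) h2)

end Vale.Agent.P325.Sse
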