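import Vale.Agent.P325.SseMul
import Vale.Agent.P325.SseRes

/-! The inductive step: coefficient families whose indices contain a prescribed point. -/

namespace Vale.Agent.P325.Sse

open Finset Matrix
open scoped BigOperators

variable {m n : Type} [Fintype m] [DecidableEq m] [Fintype n] [DecidableEq n]

theorem res_LS {n' : Type} [Fintype n'] [DecidableEq n'] {P : Mx n' n} {z : n → ZMod 2}
    (hP : Quo P z) (d : ℕ) (T : Mx m n) (a : Mx n m → ℝ) :
    res P T (LS (d + 1) {.inl z} a) = LS d ∅ (res P T fun X => a X * cut d (.inl z) X) := by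
  funext X'
  by_cases h : X'.rank = d
  · rw [LS, if_pos ⟨h, by simp⟩]
    unfold res
    refine sum_congr rfl fun X _ => ?_
    split_ifs with hX
    · subst hX
      congr 1
      simp only [LS, cut]
      by_cases hz : Has X (.inl z)
      · rw [if_pos ⟨by rw [← hP.rank_of_has hz, h], by simpa using hz⟩, if_pos hz, mul_one]
      · rw [if_neg (by simp [hz]), if_neg hz, ← hP.rank_of_not hz, h, div_self (by positivity),
          sub_self, mul_zero]
    · rfl
  · rw [LS, if_neg fun h' => h h'.1]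
    unfold res
    refine sum_eq_zero fun X _ => ?_
    split_ifs with hX
    · subst hX
      rw [LS, if_neg, zero_mul]
      rintro ⟨h1, h2⟩
      have h3 := hP.rank_of_has (h2 _ (mem_singleton_self _))
      omega
    · rfl

theorem step_col {d : ℕ} {C : ℝ} (hC : Claim d C) {a : Mx n m → ℝ} {e : ℝ}
    (h : Glob (d + 1) e (syn a)) {z : n → ZMod 2} (hz : z ≠ 0) :
    n4 (LS (d + 1) {.inl z} a) ≤ C * (Kc d * e) * n2 (LS (d + 1) {.inl z} a) := by
  obtain ⟨n', _, _, P, hP⟩ := exists_quo hz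
  have h2 := glob_cut h d (.inl z)
  have h3 : ∀ T : Mx m n, n4 (res P T (LS (d + 1) {.inl z} a)) ≤
      C * (Kc d * e) * n2 (res P T (LS (d + 1) {.inl z} a)) := fun T => by
    rw [res_LS hP]
    refine hC m n' _ _ ?_
    have h4 := h2.res hP T
    rwa [← funext (syn_res P T _)] at h4
  rw [n2_eq, n4, ← expect_res P, ← expect_res P (fun A => syn _ A ^ 2), mul_expect]
  refine expect_le_expect fun T _ => ?_
  have h5 := h3 T
  rw [n2_eq, n4] at h5
  simpa only [syn_res] using h5

omit [DecidableEq m] [DecidableEq n] in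
theorem has_transpose (X : Mx m n) (φ : m → ZMod 2) :
    Has Xᵀ (.inr φ : Pt m n) ↔ Has X (.inl φ : Pt n m) := Iff.rfl

theorem step_pt {d : ℕ} {C : ℝ} (hC : Claim d C) {a : Mx n m → ℝ} {e : ℝ}
    (h : Glob (d + 1) e (syn a)) {p : Pt m n} {Y : Mx n m} (hp : Has Y p) :
    n4 (LS (d + 1) {p} a) ≤ C * (Kc d * e) * n2 (LS (d + 1) {p} a) := by
  rcases p with z | φ
  · exact step_col hC h hp.1
  · have h1 := h.transpose
    rw [← funext (syn_transpose a)] at h1
    have h2 := step_col hC h1 hp.1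
    have h3 : LS (d + 1) {(.inl φ : Pt n m)} (fun X : Mx m n => a Xᵀ) =
        fun X : Mx m n => LS (d + 1) {(.inr φ : Pt m n)} a Xᵀ := by
      funext X
      have h4 : (X.rank = d + 1 ∧ ∀ p ∈ ({.inl φ} : Finset (Pt n m)), Has X p) ↔
          (Xᵀ.rank = d + 1 ∧ ∀ p ∈ ({.inr φ} : Finset (Pt m n)), Has Xᵀ p) := by
        rw [rank_transpose]
        simp only [mem_singleton, forall_eq, has_transpose]
      unfold LS
      by_cases h5 : X.rank = d + 1 ∧ ∀ p ∈ ({.inl φ} : Finset (Pt n m)), Has X p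
      · rw [if_pos h5, if_pos (h4.1 h5)]
      · rw [if_neg h5, if_neg (mt h4.2 h5)]
    rwa [h3, n4_transpose, n2_transpose] at h2

theorem LS_prod_cut (d : ℕ) {S : Finset (Pt m n)} {p : Pt m n} (hp : p ∈ S) (a : Mx n m → ℝ) :
    LS d {p} (fun X => a X * ∏ q ∈ S, cut d q X) = LS d S a := by
  funext X
  simp only [LS]
  by_cases hr : X.rank = d
  · by_cases hS : ∀ q ∈ S, Has X q
    · rw [if_pos ⟨hr, by simpa using hS p hp⟩, if_pos ⟨hr, hS⟩,
        prod_eq_one (f := fun q => cut d q X) fun q hq => if_pos (hS q hq), mul_one]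
    · rw [if_neg (show ¬ (X.rank = d ∧ ∀ q ∈ S, Has X q) from fun h => hS h.2)]
      push Not at hS
      obtain ⟨q, hq, hq'⟩ := hS
      have h0 : cut d q X = 0 := by
        rw [cut, if_neg hq', hr, div_self (by positivity), sub_self]
      rw [prod_eq_zero (f := fun q => cut d q X) hq h0, mul_zero, ite_self]
  · rw [if_neg fun h => hr h.1, if_neg fun h => hr h.1]

theorem step_set {d : ℕ} {C : ℝ} (hC0 : 0 ≤ C) (hC : Claim d C) {a : Mx n m → ℝ} {e : ℝ}
    (h : Glob (d + 1) e (syn a)) {S : Finset (Pt m n)} (hS : S ≠ ∅) :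
    n4 (LS (d + 1) S a) ≤
      C * (Kc d * Kc (d + 1) ^ (2 * 2 ^ (d + 1))) * e * n2 (LS (d + 1) S a) := by
  have he : 0 ≤ e := (n2_nonneg a).trans h.n2_le
  have hK := one_le_Kc d
  have hK' := one_le_Kc (d + 1)
  by_cases hY : ∃ Y : Mx n m, Y.rank = d + 1 ∧ ∀ p ∈ S, Has Y p
  · obtain ⟨Y, hY, hYS⟩ := hY
    obtain ⟨p, hp⟩ := nonempty_iff_ne_empty.2 hS
    have h1 := step_pt hC (glob_prod_cut h (d + 1) S) (hYS p hp)
    rw [LS_prod_cut (d + 1) hp] at h1
    refine h1.trans (mul_le_mul_of_nonneg_right ?_ (n2_nonneg _))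
    have h2 : S.card ≤ 2 * 2 ^ (d + 1) := by
      rw [← hY]
      exact (card_le_card fun q hq => mem_pts.2 (hYS q hq)).trans (card_pts Y)
    have h3 := pow_le_pow_right₀ hK' h2
    calc C * (Kc d * (Kc (d + 1) ^ S.card * e))
        ≤ C * (Kc d * (Kc (d + 1) ^ (2 * 2 ^ (d + 1)) * e)) := by gcongr
      _ = _ := by ring
  · have h0 : LS (d + 1) S a = fun _ => 0 := funext fun X => if_neg fun h => hY ⟨X, h⟩
    rw [h0, n4_zero]
    have := n2_nonneg (fun _ : Mx n m => (0 : ℝ))
    positivity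

end Vale.Agent.P325.Sse
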