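import Mathlib

/-! Definitions used in the statement of the Unique Games theorem. -/

namespace Vale.Agent.P325

/-- A literal `(x, b)` is true when the variable `x` has the value `b`. -/
abbrev Lit : Type := ℕ × Bool

/-- A 3-CNF formula: a list of clauses, each a triple of literals. -/
abbrev CNF : Type := List (Lit × Lit × Lit)

/-- Satisfiability of a 3-CNF formula. -/
def Sat (φ : CNF) : Prop :=
  ∃ a : ℕ → Bool, ∀ c ∈ φ, a c.1.1 = c.1.2 ∨ a c.2.1.1 = c.2.1.2 ∨ a c.2.2.1 = c.2.2.2

/-- A Unique Games instance over `k` labels: a list of constraints `(u, v, π)`. -/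
abbrev UG (k : ℕ) : Type := List (ℕ × ℕ × Equiv.Perm (Fin k))

/-- The value: the largest fraction of constraints satisfied by one labeling. -/
noncomputable def val {k : ℕ} (G : UG k) : ℝ :=
  ⨆ a : ℕ → Fin k, ((G.countP fun c => decide (a c.2.1 = c.2.2 (a c.1))) : ℝ) / G.length

/-- Code of a bit. -/
def bBool : Bool → List Bool
  | false => [false]
  | true => [true, false, false]

/-- Code of a pair. -/
def bPair {α β : Type} (f : α → List Bool) (g : β → List Bool) (p : α × β) : List Bool :=
  true :: (f p.1 ++ g p.2)

/-- Self-delimiting code of a list. -/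
def bList {α : Type} (f : α → List Bool) : List α → List Bool
  | [] => [false]
  | a :: l => true :: (f a ++ bList f l)

/-- Code of a natural number: the list of its binary digits. -/
def bNat (n : ℕ) : List Bool := bList bBool n.bits

/-- Code of a formula. -/
def codeCNF : CNF → List Bool :=
  bList (bPair (bPair bNat bBool) (bPair (bPair bNat bBool) (bPair bNat bBool)))

/-- Code of a Unique Games instance; a permutation is given by its list of values. -/
def codeUG (k : ℕ) : UG k → List Bool :=
  bList (bPair bNat (bPair bNat fun π => bList bNat (List.ofFn fun i => (π i : ℕ))))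

end Vale.Agent.P325
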